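import Vale.Agent.P073Y.St.Sk
import Vale.Agent.P073Z.MAN
import Vale.Agent.P073Z.EN
import Mathlib.Analysis.Normed.Module.Connected

/-!
# Dimensions of cells, segments and charts
-/

open Set Metric Topology Filter MeasureTheory
open scoped NNReal ENNReal

namespace P073.St

open P073.Bd (Chart)
open P073.Top

namespace DimH

theorem vol {n : ℕ} : (μH[(n : ℝ)] : Measure (Fin n → ℝ)) = volume := by
  have h := hausdorffMeasure_pi_real (ι := Fin n)
  rwa [Fintype.card_fin] at h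

theorem chart {n : ℕ} {C B : Set E3} (h : ConBall n C B) : ∃ M₁ M₂, Chart n C B M₁ M₂ := by
  have h1 := h.isCompact
  have h2 := h.locCone
  obtain ⟨h3, φ, h4⟩ := h
  obtain ⟨M₁, a1⟩ := lip h1 h2 ⟨φ.cont, φ.conical⟩
  obtain ⟨M₂, a2⟩ := lip (isCompact_closedBall (0 : Fin n → ℝ) 1) (locCone_closedBall_pi n 1)
    ⟨φ.cont_inv, φ.conical_inv⟩
  exact ⟨M₁, M₂, h3, φ, h4, a1, a2⟩

theorem mono {m n : ℕ} {C B C' B' : Set E3} (h : ConBall m C B) (h' : ConBall n C' B')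
    (hs : C ⊆ C') : m ≤ n := by
  by_contra hc
  obtain ⟨M, -, -, φ, -, h1, -⟩ := chart h
  have h2 := h1.hausdorffMeasure_image_le (Nat.cast_nonneg m)
  rw [measure_mono_null hs (h'.hausdorff_zero (not_le.1 hc)), mul_zero, φ.image_eq, vol] at h2
  exact (measure_closedBall_pos volume _ one_pos).not_ge h2

theorem nhds_iff {C B : Set E3} (h : ConBall 3 C B) {x : E3} (hx : x ∈ C) : C ∈ 𝓝 x ↔ x ∉ B := by
  rw [← nhdsWithin_univ]
  exact (plMan_open isOpen_univ).ball_nhds_iff h (subset_univ _) hx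

theorem ball (K : RCx E3) [Finite K.ι] {B : Set E3} (h : ConBall 3 K.carrier B) :
    IsPreconnected B ∧ (∀ c, K.dim c ≤ 3) ∧ (∀ c, K.dim c = 3 → ¬ K.cell c ⊆ B) ∧
      ∀ x ∈ K.carrier, ∃ c, K.dim c = 3 ∧ x ∈ K.cell c := by
  have h3 : ∀ c, K.dim c ≤ 3 := fun c => mono (K.ball c) h (K.cell_subset_carrier c)
  refine ⟨?_, h3, fun c hc hs => ?_, fun x hx => ?_⟩
  · obtain ⟨φ, hφ⟩ := h.eq_preimage
    rw [← hφ]
    refine (isConnected_sphere ?_ _ zero_le_one).isPreconnected.image _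
      (φ.cont_inv.mono sphere_subset_closedBall)
    rw [rank_fin_fun]
    exact_mod_cast (by norm_num : 1 < 3)
  · obtain ⟨x, hx⟩ := K.ocell_nonempty c
    have hb := K.ball c
    rw [hc] at hb
    exact (nhds_iff h (K.cell_subset_carrier c hx.1)).1 (mem_of_superset
      ((nhds_iff hb hx.1).2 hx.2) (K.cell_subset_carrier c)) (hs hx.1)
  · have h4 : IsClosed (⋃ c ∈ {c | K.dim c = 3}, K.cell c) :=
      (toFinite _).isClosed_biUnion fun c _ => K.isClosed_cell c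
    have h5 : (μH[((3 : ℕ) : ℝ)] : Measure E3) (⋃ c ∈ {c | K.dim c ≠ 3}, K.cell c) = 0 :=
      (measure_biUnion_null_iff (toFinite _).countable).2 fun c hc =>
        (K.ball c).hausdorff_zero (lt_of_le_of_ne (h3 c) hc)
    have h6 : K.carrier \ B ⊆ ⋃ c ∈ {c | K.dim c = 3}, K.cell c := fun y hy => by
      by_contra hc
      rw [vol] at h5
      refine (Measure.measure_pos_of_mem_nhds volume (inter_mem ((nhds_iff h hy.1).2 hy.2)
        (h4.isOpen_compl.mem_nhds hc))).ne' (measure_mono_null (fun z hz => ?_) h5)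
      obtain ⟨c, h7⟩ := K.mem_carrier.1 hz.1
      exact mem_biUnion (fun e => hz.2 (mem_biUnion e h7)) h7
    obtain ⟨c, h7, h8⟩ := mem_iUnion₂.1 (closure_minimal h6 h4 (h.subset_closure_int hx))
    exact ⟨c, h7, h8⟩

theorem wire (K : RCx E3) (φ : K.ι) (h : K.dim φ = 2) (x : E3) (hx : x ∈ K.bd φ) :
    ∃ e, K.dim e = 1 ∧ K.cell e ⊆ K.bd φ ∧ x ∈ K.cell e := by
  obtain ⟨i, h1, h2⟩ := K.sub_bd φ x hx
  obtain ⟨j, h3, h4, h5⟩ := (man K (n := 0) (K.sub_bd φ)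
    (ConBall.conSphere (n := 1) (h ▸ K.ball φ)).plMan).2.1 i h2
  exact ⟨j, h5, h4, h3 h1⟩

theorem ends {p q x y : E3} (hne : p ≠ q) (h : segment ℝ p q = segment ℝ x y) :
    x ≠ y ∧ ({p, q} : Set E3) = {x, y} := by
  have hx := h.ge (left_mem_segment ℝ x y)
  have hy := h.ge (right_mem_segment ℝ x y)
  have hp := h.le (left_mem_segment ℝ p q)
  have hq := h.le (right_mem_segment ℝ p q)
  rw [segment_eq_image'] at hx hy
  obtain ⟨s, ⟨s0, s1⟩, rfl⟩ := hx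
  obtain ⟨t, ⟨t0, t1⟩, rfl⟩ := hy
  obtain ⟨a, b, a0, b0, ab, e⟩ := hp
  obtain ⟨c, d, c0, d0, cd, e'⟩ := hq
  have h0 := sub_ne_zero.2 hne.symm
  have h1 : a * s + b * t = 0 := by
    refine (smul_eq_zero_iff_left h0).1 ?_
    obtain rfl : b = 1 - a := by linarith
    linear_combination (norm := (beta_reduce; module)) e
  have h2 : c * s + d * t - 1 = 0 := by
    refine (smul_eq_zero_iff_left h0).1 ?_
    obtain rfl : d = 1 - c := by linarith
    linear_combination (norm := (beta_reduce; module)) e'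
  have h3 : s * t = 0 := by
    nlinarith [mul_nonneg a0 s0, mul_nonneg b0 t0, mul_nonneg s0 t0]
  have h4 : (1 - s) * (1 - t) = 0 := by
    nlinarith [mul_nonneg c0 (sub_nonneg.2 s1), mul_nonneg d0 (sub_nonneg.2 t1),
      mul_nonneg (sub_nonneg.2 s1) (sub_nonneg.2 t1)]
  rcases mul_eq_zero.1 h3 with rfl | rfl
  · obtain rfl : t = 1 := by linarith
    simpa using hne
  · obtain rfl : s = 1 := by linarith
    simpa [pair_comm] using hne.symm

theorem seg (K : RCx E3) (e : K.ι) (h : K.dim e = 1) (hc : Convex ℝ (K.cell e)) :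
    (∃ x y, K.cell e = segment ℝ x y) ∧
      ∀ x y, K.cell e = segment ℝ x y → x ≠ y ∧ K.bd e = {x, y} ∧ diam (K.cell e) = dist x y := by
  obtain ⟨p, q, h1, h2⟩ := ConBall.one_arc (h ▸ K.ball e)
  refine ⟨⟨p, q, h1.eq_segment hc⟩, fun x y h3 => ?_⟩
  obtain ⟨h4, h5⟩ := ends h1.ne ((h1.eq_segment hc).symm.trans h3)
  exact ⟨h4, h2.trans h5, by rw [h3, ← convexHull_pair, convexHull_diam, diam_pair]⟩

theorem charts {Ω : Set E3} (S : Src Ω) (K : RCx E3) : ∃ M₁ M₂ : K.ι → ℝ≥0,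
    (∀ c, 2 ≤ K.dim c → Chart (K.dim c) (K.cell c) (K.bd c) (M₁ c) (M₂ c)) ∧
    ∀ j φ, Same K S.Q j φ → M₁ j = S.M φ / S.r φ ∧ M₂ j = S.M φ * S.r φ := by
  have h : ∀ c, ∃ M₁ M₂ : ℝ≥0, (2 ≤ K.dim c → Chart (K.dim c) (K.cell c) (K.bd c) M₁ M₂) ∧
      ∀ φ, Same K S.Q c φ → M₁ = S.M φ / S.r φ ∧ M₂ = S.M φ * S.r φ := fun c => by
    by_cases hc : ∃ φ, Same K S.Q c φ
    · obtain ⟨φ, h1, h2, h3⟩ := hc
      refine ⟨S.M φ / S.r φ, S.M φ * S.r φ, fun h4 => ?_, fun ψ hψ => ?_⟩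
      · rw [h1, h2, h3]
        exact S.chart φ (h3 ▸ h4)
      · rw [S.Q.cell_injective (hψ.1.symm.trans h1)]
        exact ⟨rfl, rfl⟩
    · obtain ⟨M₁, M₂, h1⟩ := chart (K.ball c)
      exact ⟨M₁, M₂, fun _ => h1, fun φ hφ => (hc ⟨φ, hφ⟩).elim⟩
  choose M₁ M₂ h1 h2 using h
  exact ⟨M₁, M₂, h1, h2⟩

end DimH

/-- dimensions and charts -/
theorem dim : Dim :=
  ⟨DimH.mono, fun K _ _ h => DimH.ball K h, DimH.wire, DimH.seg, DimH.charts⟩

end P073.St
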