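import Vale.Agent.P073Y.St.Sk
import Vale.Agent.P073Y.Bd.Map

/-!
# The engine in the site
-/

open Set Metric Topology Filter MeasureTheory
open scoped NNReal ENNReal

namespace P073.St

open P073.Bd (Band cl Chart PwLip Gen1)
open P073.Top

/-- from the stair to the sharp clause -/
def SHP : Prop := ∀ {p θ a d c : ℝ}, 1 ≤ p → 0 < θ → θ ≤ 1 / 1000 → 0 < a → 0 < d → 1 ≤ c →
  ∀ {st : E2 → E2} {H : E3 → E3} {ψ : E2 →ᵃ[ℝ] E3} {b : E3},
  (∀ v ∈ Fi.Q, ∀ i : Fin 2, H (ψ v) i.castSucc = b i.castSucc + d / 2 * st v i) →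
  (∀ v ∈ Fi.Q, H (ψ v) 2 = b 2) → Fi.Shp st (2 * a / d * (1 + 3 * θ)) (6 * θ) c →
  SharpF p H ψ a (2 * θ) (24 * c) 0

namespace EngA

theorem exists_L (K : RCx E3) [Finite K.ι] (F : K.ι → ℝ≥0 → ℝ≥0) : ∃ L L₀ : K.ι → ℝ≥0,
    (∀ c j, K.cell j ⊆ K.bd c → K.dim j + 1 = K.dim c → L j ≤ L₀ c) ∧
    (∀ c B, (∀ j, K.cell j ⊆ K.bd c → K.dim j + 1 = K.dim c → L j ≤ B) → L₀ c ≤ B) ∧
    ∀ c, L c = F c (L₀ c) := by
  classical
  have := Fintype.ofFinite K.ι
  let fc : K.ι → Finset K.ι := fun c =>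
    Finset.univ.filter fun j => K.cell j ⊆ K.bd c ∧ K.dim j + 1 = K.dim c
  have hfc : ∀ c j, j ∈ fc c ↔ K.cell j ⊆ K.bd c ∧ K.dim j + 1 = K.dim c := fun c j => by
    simp only [fc, Finset.mem_filter, Finset.mem_univ, true_and]
  let f : ℕ → K.ι → ℝ≥0 := fun n =>
    Nat.rec (fun c => F c 0) (fun _ r c => F c ((fc c).sup r)) n
  refine ⟨fun c => f (K.dim c) c, fun c => (fc c).sup fun j => f (K.dim j) j,
    fun c j h1 h2 => Finset.le_sup (f := fun j => f (K.dim j) j) ((hfc c j).2 ⟨h1, h2⟩),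
    fun c B h => Finset.sup_le fun j hj => h j ((hfc c j).1 hj).1 ((hfc c j).1 hj).2,
    fun c => ?_⟩
  rcases hn : K.dim c with _ | n
  · have : fc c = ∅ := Finset.eq_empty_of_forall_notMem fun j hj => by
      have := ((hfc c j).1 hj).2
      omega
    simp only [hn, this, Finset.sup_empty]
    rfl
  · simp only [hn]
    change F c ((fc c).sup (f n)) = _
    congr 1
    refine Finset.sup_congr rfl fun j hj => ?_
    have := ((hfc c j).1 hj).2
    rw [show K.dim j = n by omega]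

theorem stp_eq (A : Finset ℝ) (d y : ℝ) {lam : ℝ} (h : lam = d / 20) :
    stp A d y = d / 2 * A.card + d / 2 * ∑ t : A, cl ((y - t) / lam) := by
  rw [stp, Finset.sum_add_distrib, Finset.sum_coe_sort A fun t => cl ((y - t) / lam), h, mul_add]
  simp

theorem abs_add_abs_le {a b M : ℝ} (h1 : |a + b| ≤ M) (h2 : |a - b| ≤ M) : |a| + |b| ≤ M := by
  rw [abs_le] at h1 h2
  rcases abs_cases a with ⟨ha, _⟩ | ⟨ha, _⟩ <;> rcases abs_cases b with ⟨hb, _⟩ | ⟨hb, _⟩ <;>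
    rw [ha, hb] <;> linarith [h1.1, h1.2, h2.1, h2.2]

end EngA

open EngA

theorem eng_of {c₀ : ℝ≥0} {p : ℝ} (hA : Api) (hD : Dim) (hR : RAW) (hS : SQR)
    (hrun : RUN c₀ 120000) (hshp : SHP) (hp : 1 ≤ p) : ENG p := by
  classical
  refine ⟨24 * 120000, max c₀ 120000, by norm_num, ?_⟩
  intro Ω Λ S g lo hi o J Y θ A d b 𝓢 ψ a h0 h1 hd hm hfit
  set c' : ℝ≥0 := max c₀ 120000 with hc'
  have := Y.fin
  have hd0 := hd.pos
  let lam : ℝ≥0 := ⟨d / 20, by positivity⟩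
  have hlam : (lam : ℝ) = d / 20 := rfl
  let θ' : ℝ≥0 := ⟨θ, h0.le⟩
  have hθ' : (θ' : ℝ) = θ := rfl
  let len : Y.K.ι → ℝ≥0 := fun e => ⟨diam (Y.K.cell e), diam_nonneg⟩
  let lp : Y.K.ι → ℝ≥0 := fun c => (lipc g.toFun (Y.K.cell c)).toNNReal
  have hsub : ∀ c, Y.K.cell c ⊆ pre g (Icc lo hi) := fun c =>
    Y.carrier ▸ Y.K.cell_subset_carrier c
  have hlp : ∀ c, (lp c : ℝ≥0∞) = lipc g.toFun (Y.K.cell c) := fun c =>
    ENNReal.coe_toNNReal (hA.fin (Y.K.isCompact_cell c) (Y.K.locCone_cell c)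
      ⟨g.cont.mono fun x hx => (hsub c hx).1, g.conical.mono
        (Y.K.locCone_cell c).conicalSet fun x hx => (hsub c hx).1⟩)
  obtain ⟨L, L₀, hL, hL₀, hF⟩ := exists_L Y.K fun c B => if c ∈ Y.fro then lp c / lam
    else if Y.K.dim c ≤ 1 then 32 * Y.cnt A c / (θ' * len c)
    else c' / (6 * θ') * Y.M₁ c * (Y.M₂ c * B + Y.cnt A c + 1)
  have L1 : ∀ c ∈ Y.fro, (L c : ℝ) = lp c / (d / 20) := fun c hc => by
    rw [hF c, if_pos hc, NNReal.coe_div, hlam]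
  have L2 : ∀ c, c ∉ Y.fro → Y.K.dim c = 1 →
      (L c : ℝ) = 32 * Y.cnt A c / (θ * diam (Y.K.cell c)) := fun c hc h => by
    rw [hF c, if_neg hc, if_pos h.le]
    push_cast
    rfl
  have L3 : ∀ c, c ∉ Y.fro → 2 ≤ Y.K.dim c →
      (L c : ℝ) = c' / (6 * θ) * Y.M₁ c * (Y.M₂ c * L₀ c + Y.cnt A c + 1) := fun c hc h => by
    rw [hF c, if_neg hc, if_neg (by omega)]
    push_cast
    rfl
  have L4 : ∀ c, c ∉ Y.fro → 2 ≤ Y.K.dim c →
      (c' : ℝ) * Y.M₁ c * (Y.M₂ c * L₀ c + Y.cnt A c + 1) = 6 * θ * L c := fun c hc h => by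
    rw [L3 c hc h]
    field_simp
  obtain ⟨hpts, w, hw⟩ := hR Y A d L L₀ hL c₀ lam hd hlam (fun c hc => by
      refine hA.le_iff.1 ?_
      rw [hF c, if_pos hc, mul_div_cancel₀ _ (by
        rw [← NNReal.coe_ne_zero, hlam]; positivity), hlp]) fun c h hc => by
    rw [← NNReal.coe_le_coe]
    push_cast
    have e1 := L4 c hc h
    have e2 : (c₀ : ℝ) ≤ c' := NNReal.coe_le_coe.2 (le_max_left _ _)
    have e3 : (c₀ : ℝ) * Y.M₁ c * (Y.M₂ c * L₀ c + Y.cnt A c) ≤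
        c' * Y.M₁ c * (Y.M₂ c * L₀ c + Y.cnt A c + 1) :=
      mul_le_mul (by gcongr) (by linarith) (by positivity) (by positivity)
    nlinarith [(L c).2]
  let 𝓣 : Set Y.K.ι := {j | ∃ φ, (φ ∈ 𝓢 ∧ Deep g.toFun (S.Q.cell φ) lo hi (2 * o)) ∧
    ∃ χ, Sqf Y θ φ (ψ φ) (a φ) j χ}
  have h𝓣 : ∀ j ∈ 𝓣, ∃ φ, (φ ∈ 𝓢 ∧ Deep g.toFun (S.Q.cell φ) lo hi (2 * o)) ∧
    ∃ χ, Sqf Y θ φ (ψ φ) (a φ) j χ := fun j hj => hj
  choose ph hph χ hχ using h𝓣
  have hdim : ∀ j ∈ 𝓣, Y.K.dim j = 2 := fun j hj =>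
    (hχ j hj).same.2.2.trans (hm _ (hph j hj).1).dim
  let Lm : Y.K.ι → ℝ≥0 := fun j => if h : j ∈ 𝓣 then (2 * a (ph j h) / d * (1 + 3 * θ)).toNNReal
    else 2 * Y.cnt A j * (1 + θ' / 4) / len j
  have M1 : ∀ j (h : j ∈ 𝓣), (Lm j : ℝ) = 2 * a (ph j h) / d * (1 + 3 * θ) := fun j h => by
    have := (hm _ (hph j h).1).pos
    simp only [Lm, dif_pos h]
    exact Real.coe_toNNReal _ (by positivity)
  have M2 : ∀ e, Y.K.dim e = 1 →
      (Lm e : ℝ) = 2 * Y.cnt A e * (1 + θ / 4) / diam (Y.K.cell e) := fun e he => by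
    simp only [Lm, dif_neg fun h => by have := hdim e h; omega]
    push_cast
    rfl
  have hcnt : ∀ e, Y.K.dim e = 1 → (pts g lo hi A ∩ Y.K.cell e).ncard = Y.cnt A e :=
    fun e he => by
      rw [Site.cnt, inter_assoc, inter_eq_right.2 (Y.K.cell_subset_skel he.le)]
  obtain ⟨G, u₀, q1, q2, q3, q4, q5, q6⟩ := hrun (Y.base A L L₀ hL) Y.gC (lv A) lam Y.fro w Lm
    (θ / 4) (6 * θ) 𝓣 χ hw (by positivity) (by linarith) (by positivity) (by linarith)
    (fun e he hf => by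
      obtain ⟨⟨x, y, hxy⟩, h⟩ := hD.seg Y.K e he (Y.seg e he hf)
      obtain ⟨hne, hb, hdi⟩ := h x y hxy
      have hpos : 0 < dist x y := dist_pos.2 hne
      refine ⟨x, y, hxy, hb, ?_, ?_⟩
      · rw [hpts]
        change 8 * ((pts g lo hi A ∩ Y.K.cell e).ncard : ℝ) ≤ θ / 4 * L e * dist x y
        rw [hcnt e he, L2 e hf he, hdi]
        refine le_of_eq ?_
        field_simp
        ring
      · rw [hpts]
        change 2 * ((pts g lo hi A ∩ Y.K.cell e).ncard : ℝ) * (1 + θ / 4) ≤ Lm e * dist x y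
        rw [hcnt e he, M2 e he, hdi]
        refine le_of_eq ?_
        field_simp)
    (fun j h => by
      have q := hχ j h
      have hf := q.free j Subset.rfl
      have ha := (hm _ (hph j h).1).pos
      obtain ⟨f1, f2⟩ := hfit _ (hph j h).1 (hph j h).2
      refine ⟨hdim j h, fun hU => hf (Y.froU j hU), fun e he _ => q.free e he, q.bd, q.lip,
        q.lip', q.corner, fun e he hs => ?_, ?_, ?_⟩
      · obtain ⟨x, y, e', -, hxy, -, hl⟩ := q.wire e he hs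
        obtain ⟨hne, -, hdi⟩ := (hD.seg Y.K e he (hxy ▸ convex_segment x y)).2 x y hxy
        have hpos : 0 < dist x y := dist_pos.2 hne
        refine ⟨_, hl, ?_⟩
        rw [← NNReal.coe_le_coe]
        push_cast
        rw [M1 j h, M2 e he, hdi]
        have e1 := f2 e he (q.same.1 ▸ hs)
        have e2 : 2 * (Y.cnt A e : ℝ) * (1 + θ / 4) / dist x y * (dist x y / 2) =
            Y.cnt A e * (1 + θ / 4) := by field_simp
        rw [e2, div_mul_eq_mul_div, le_div_iff₀ hd0]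
        linarith
      · rw [M1 j h, div_mul_eq_mul_div, ← mul_div_assoc, le_div_iff₀ hd0]
        nlinarith [mul_pos h0 ha, mul_pos (mul_pos h0 ha) h0]
      · rw [hpts]
        change ((120000 : ℝ≥0) : ℝ) * Y.M₁ j * (Y.M₂ j * L₀ j + Y.cnt A j + 1) ≤ 6 * θ * L j
        rw [← L4 j hf (hdim j h).ge]
        have e2 : ((120000 : ℝ≥0) : ℝ) ≤ c' := NNReal.coe_le_coe.2 (le_max_right _ _)
        gcongr)
  rw [hpts] at q5
  let u : A 0 ⊕ A 1 → E3 → ℝ := u₀
  replace q3 : ∀ (c : Y.K.ι) (s : Finset (A 0 ⊕ A 1)), (∀ i ∈ s, ∀ j ∈ s, i.isLeft = j.isLeft) →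
      PwLip (4 * L c) (fun x => ∑ i ∈ s, u i x) (Y.K.cell c) := q3
  replace q5 : ∀ e, Y.K.dim e = 1 → e ∉ Y.fro →
      (∀ (s : Finset (A 0 ⊕ A 1)) (ε : A 0 ⊕ A 1 → ℝ), (∀ i, ε i = 1 ∨ ε i = -1) →
        PwLip (Lm e) (fun x => ∑ i ∈ s, ε i * u i x) (Y.K.cell e)) ∧
      ∀ x y, Y.K.cell e = segment ℝ x y → Y.K.bd e = {x, y} → ∀ s : Finset (A 0 ⊕ A 1),
        ∑ i ∈ s, |u i y - u i x| ≤ 2 * (Y.cnt A e : ℝ) := q5
  replace q6 : ∀ j (h : j ∈ 𝓣), Fi.Shp (Fi.stair (fun i : A 0 ⊕ A 1 => if i.isLeft then 0 else 1)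
      (fun _ => 1) fun i v => u i ((χ j h).invFun v)) (Lm j) (6 * θ) ((120000 : ℝ≥0) : ℝ) :=
    fun j h => @q6 j h (inferInstance : Fintype (A 0 ⊕ A 1))
  set H : E3 → E3 := cmp (fun k y => b k + stp (A k) d y) G.toFun with hH
  let U₀ : E3 → ℝ := fun x => ∑ t : A 0, u (Sum.inl t) x
  let U₁ : E3 → ℝ := fun x => ∑ t : A 1, u (Sum.inr t) x
  have H0 : ∀ x ∈ pre g (Icc lo hi), H x 0 = b 0 + d / 2 * (A 0).card + d / 2 * U₀ x :=
    fun x hx => by
      simp only [hH, cmp, U₀, stp_eq _ d _ hlam, add_assoc]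
      congr 3
      exact Finset.sum_congr rfl fun t _ => (q2 (Sum.inl t) x hx).symm
  have H1 : ∀ x ∈ pre g (Icc lo hi), H x 1 = b 1 + d / 2 * (A 1).card + d / 2 * U₁ x :=
    fun x hx => by
      simp only [hH, cmp, U₁, stp_eq _ d _ hlam, add_assoc]
      congr 3
      exact Finset.sum_congr rfl fun t _ => (q2 (Sum.inr t) x hx).symm
  have H2 : ∀ x, H x 2 = b 2 := fun x => by
    simp only [hH, cmp, stp, hd.nil 2 Y.notJ, Finset.sum_empty, mul_zero, add_zero]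
  have hlip : ∀ c, Convex ℝ (Y.K.cell c) →
      lipc H (Y.K.cell c) ≤ ENNReal.ofReal (2 * d * L c) := fun c hc => by
    have a0 := Bd.lipg.1 hc (q3 c (Finset.univ.map Function.Embedding.inl) (by
      simp only [Finset.mem_map]
      rintro _ ⟨i, -, rfl⟩ _ ⟨j, -, rfl⟩
      rfl))
    have a1 := Bd.lipg.1 hc (q3 c (Finset.univ.map Function.Embedding.inr) (by
      simp only [Finset.mem_map]
      rintro _ ⟨i, -, rfl⟩ _ ⟨j, -, rfl⟩
      rfl))
    simp only [Finset.sum_map] at a0 a1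
    refine hA.le_of fun x hx y hy => ?_
    rw [edist_dist, edist_dist, ← ENNReal.ofReal_mul (by positivity)]
    refine ENNReal.ofReal_le_ofReal ((dist_pi_le_iff (by positivity)).2 fun k => ?_)
    have b0 : |U₀ x - U₀ y| ≤ 4 * L c * dist x y := a0.dist_le_mul x hx y hy
    have b1 : |U₁ x - U₁ y| ≤ 4 * L c * dist x y := a1.dist_le_mul x hx y hy
    have hh : ∀ s t : ℝ, |s - t| ≤ 4 * L c * dist x y → ∀ r, |r + d / 2 * s - (r + d / 2 * t)| ≤
        2 * d * L c * dist x y := fun s t h r => by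
      rw [add_sub_add_left_eq_sub, ← mul_sub, abs_mul, abs_of_pos (half_pos hd0)]
      nlinarith
    rw [Real.dist_eq]
    fin_cases k
    · change |H x 0 - H y 0| ≤ _
      rw [H0 x (hsub c hx), H0 y (hsub c hy)]
      exact hh _ _ b0 _
    · change |H x 1 - H y 1| ≤ _
      rw [H1 x (hsub c hx), H1 y (hsub c hy)]
      exact hh _ _ b1 _
    · change |H x 2 - H y 2| ≤ _
      rw [H2, H2, sub_self, abs_zero]
      positivity
  have hdif : ∀ x ∈ pre g (Icc lo hi), ∀ y ∈ pre g (Icc lo hi), |H x 0 - H y 0| + |H x 1 - H y 1| =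
      d / 2 * (|U₀ x - U₀ y| + |U₁ x - U₁ y|) := fun x hx y hy => by
    rw [H0 x hx, H0 y hy, H1 x hx, H1 y hy, add_sub_add_left_eq_sub, add_sub_add_left_eq_sub,
      ← mul_sub, ← mul_sub, abs_mul, abs_mul, abs_of_pos (half_pos hd0), mul_add]
  refine ⟨G, fun x hx => (q1 hx).trans (by rw [Y.gC_eq]), fun x hx => ?_,
    fun x y => (H2 x).trans (H2 y).symm, fun j hj hc => ?_, fun j x y hj hf hxy => ?_,
    fun j B hj hf hc hB => ?_, fun φ hφ hdp => ?_⟩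
  · obtain ⟨y, hy, e1, e2⟩ := q4 o Y.pos.le (by rw [Y.gC_eq]; exact Y.osc) x hx
    have hl : 2 * o + lam ≤ 3 * o := by rw [hlam]; linarith [hd.le]
    refine ⟨y, hy, by rwa [Y.gC_eq] at e1, fun k t ht κ hκ => ?_⟩
    fin_cases k
    · refine e2 (Sum.inl ⟨t, ht⟩) κ ?_
      rintro (j | j) hj
      · exact hl.trans_lt (hκ j j.2)
      · exact absurd hj (by simp [Site.base])
    · refine e2 (Sum.inr ⟨t, ht⟩) κ ?_
      rintro (j | j) hj
      · exact absurd hj (by simp [Site.base])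
      · exact hl.trans_lt (hκ j j.2)
    · exact absurd ht (by simp [hd.nil 2 Y.notJ])
  · refine (hlip j hc).trans (le_of_eq ?_)
    rw [L1 j hj, ← hlp, show 2 * d * ((lp j : ℝ) / (d / 20)) = ((40 * lp j : ℝ≥0) : ℝ) by
      push_cast; field_simp; ring, ENNReal.ofReal_coe_nnreal]
    push_cast
    rfl
  · have hc := Y.seg j hj hf
    obtain ⟨hne, hb, hdi⟩ := (hD.seg Y.K j hj hc).2 x y hxy
    have hpos : 0 < dist x y := dist_pos.2 hne
    obtain ⟨r1, r2⟩ := q5 j hj hf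
    refine ⟨fun v hv z hz => ?_, ?_⟩
    · have a0 := (Bd.lipg.1 hc (r1 Finset.univ (fun _ => 1) fun _ => Or.inl rfl)).dist_le_mul
        v hv z hz
      have a1 := (Bd.lipg.1 hc (r1 Finset.univ (Sum.elim (fun _ => 1) fun _ => -1) (by
        rintro (i | i)
        · exact Or.inl rfl
        · exact Or.inr rfl))).dist_le_mul v hv z hz
      have e0 : ∀ x, ∑ i : A 0 ⊕ A 1, 1 * u i x = U₀ x + U₁ x := fun x => by
        simp only [one_mul, Fintype.sum_sum_type, U₀, U₁]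
      have e1 : ∀ x, ∑ i : A 0 ⊕ A 1, Sum.elim (fun _ => (1 : ℝ)) (fun _ => -1) i * u i x =
          U₀ x - U₁ x := fun x => by
        simp only [Fintype.sum_sum_type, Sum.elim_inl, Sum.elim_inr, one_mul, neg_mul,
          Finset.sum_neg_distrib, U₀, U₁, sub_eq_add_neg]
      have b0 : |U₀ v + U₁ v - (U₀ z + U₁ z)| ≤ Lm j * dist v z := by
        rw [← e0, ← e0]; exact a0
      have b1 : |U₀ v - U₁ v - (U₀ z - U₁ z)| ≤ Lm j * dist v z := by
        rw [← e1, ← e1]; exact a1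
      have b2 : |U₀ v - U₀ z| + |U₁ v - U₁ z| ≤ Lm j * dist v z :=
        abs_add_abs_le (by convert b0 using 2; ring) (by convert b1 using 2; ring)
      rw [hdif v (hsub j hv) z (hsub j hz)]
      calc d / 2 * (|U₀ v - U₀ z| + |U₁ v - U₁ z|) * dist x y
          ≤ d / 2 * (Lm j * dist v z) * dist x y := by gcongr
        _ = _ := by rw [M2 j hj, hdi]; field_simp
    · have hx : x ∈ Y.K.cell j := hxy ▸ left_mem_segment ℝ x y
      have hy : y ∈ Y.K.cell j := hxy ▸ right_mem_segment ℝ x y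
      have a0 : ∑ i : A 0 ⊕ A 1, |u i y - u i x| ≤ 2 * (Y.cnt A j : ℝ) :=
        r2 x y hxy hb Finset.univ
      rw [Fintype.sum_sum_type] at a0
      have b0 : |U₀ y - U₀ x| ≤ ∑ t : A 0, |u (Sum.inl t) y - u (Sum.inl t) x| := by
        rw [← Finset.sum_sub_distrib]; exact Finset.abs_sum_le_sum_abs _ _
      have b1 : |U₁ y - U₁ x| ≤ ∑ t : A 1, |u (Sum.inr t) y - u (Sum.inr t) x| := by
        rw [← Finset.sum_sub_distrib]; exact Finset.abs_sum_le_sum_abs _ _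
      rw [hdif y (hsub j hy) x (hsub j hx)]
      nlinarith
  · refine (hlip j hc).trans (ENNReal.ofReal_le_ofReal ?_)
    let d' : ℝ≥0 := ⟨d, hd0.le⟩
    have e0 : L₀ j ≤ B / d' := hL₀ j _ fun e he hde => by
      have he1 : Y.K.dim e = 1 := by omega
      obtain ⟨s1, s2⟩ := hB e he1 (he.trans (Y.K.bd_subset j))
      rw [← NNReal.coe_le_coe, NNReal.coe_div]
      change (L e : ℝ) ≤ B / d
      rw [le_div_iff₀ hd0]
      by_cases hef : e ∈ Y.fro
      · have := s1 hef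
        rw [← hlp] at this
        have : (20 : ℝ) * lp e ≤ B := by exact_mod_cast this
        rw [L1 e hef]
        calc (lp e : ℝ) / (d / 20) * d = 20 * lp e := by field_simp
          _ ≤ B := this
      · obtain ⟨⟨x, y, hxy⟩, h⟩ := hD.seg Y.K e he1 (Y.seg e he1 hef)
        obtain ⟨hne, -, hdi⟩ := h x y hxy
        have hpos : 0 < dist x y := dist_pos.2 hne
        have := s2 hef x y hxy
        rw [L2 e hef he1, hdi, div_mul_eq_mul_div, div_le_iff₀ (by positivity)]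
        linarith
    have e1 : d * L₀ j ≤ B := by
      have : (L₀ j : ℝ) ≤ B / d := by exact_mod_cast e0
      rwa [le_div_iff₀ hd0, mul_comm] at this
    rw [L3 j hf hj.ge]
    calc 2 * d * (c' / (6 * θ) * Y.M₁ j * (Y.M₂ j * L₀ j + Y.cnt A j + 1))
        = 1 / 3 * (c' / θ * Y.M₁ j * (Y.M₂ j * (d * L₀ j) + d * Y.cnt A j + d)) := by
          field_simp; ring
      _ ≤ 1 * (c' / θ * Y.M₁ j * (Y.M₂ j * B + d * Y.cnt A j + d)) := by gcongr; norm_num
      _ = _ := one_mul _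
  · obtain ⟨j, χ₀, h₀⟩ := hS Y (hm φ hφ) hdp
    have hj : j ∈ 𝓣 := ⟨φ, ⟨hφ, hdp⟩, χ₀, h₀⟩
    have q := hχ j hj
    have hs := q6 j hj
    have e : ph j hj = φ := S.Q.cell_injective (q.same.1.symm.trans h₀.same.1)
    rw [M1 j hj] at hs
    have hin := q.inv
    rw [e] at hs hin
    have hmem : ∀ v ∈ Fi.Q, ψ φ v ∈ pre g (Icc lo hi) := fun v hv =>
      hsub j (hin v hv ▸ (χ j hj).mapsTo_inv hv)
    refine hshp (b := fun k => b k + d / 2 * (A k).card) hp h0 h1 (hm φ hφ).pos hd0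
      (by norm_num) (fun v hv i => ?_) (fun v _ => ?_) hs
    · fin_cases i
      · change H (ψ φ v) 0 = b 0 + d / 2 * (A 0).card + d / 2 * _
        rw [H0 _ (hmem v hv), ← hin v hv]
        simp [Fi.stair, Finset.sum_filter, Fintype.sum_sum_type, U₀]
      · change H (ψ φ v) 1 = b 1 + d / 2 * (A 1).card + d / 2 * _
        rw [H1 _ (hmem v hv), ← hin v hv]
        simp [Fi.stair, Finset.sum_filter, Fintype.sum_sum_type, U₁]
    · exact (H2 _).trans (by simp [hd.nil 2 Y.notJ])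

end P073.St
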