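import Vale.Agent.P073Y.St.Sk

/-!
# The energy of a face which is cut into pieces
-/

open Set Metric Topology Filter MeasureTheory
open scoped NNReal ENNReal

namespace P073.St

open P073.Top

namespace EnsA

theorem lipAt_le {h : E3 → E3} {X : Set E3} {x : E3} {B : ℝ≥0∞} {r : ℝ} (hr : 0 < r)
    (H : ∀ y ∈ X ∩ ball x r, edist (h y) (h x) ≤ B * edist y x) : lipAt h X x ≤ B :=
  (iInf₂_le r hr).trans (iSup₂_le fun y hy => ENNReal.div_le_of_le_mul (H y hy))

theorem lipAt_le_mul {g h : E3 → E3} {X : Set E3} {x : E3} {L : ℝ≥0} {r₀ : ℝ} (hr₀ : 0 < r₀)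
    (H : ∀ y ∈ X ∩ ball x r₀, edist (h y) (h x) ≤ L * edist (g y) (g x)) :
    lipAt h X x ≤ L * lipAt g X x := by
  rcases eq_or_ne (L : ℝ≥0∞) 0 with h0 | h0
  · rw [h0, zero_mul]
    refine lipAt_le hr₀ fun y hy => ?_
    have := H y hy
    rw [h0, zero_mul] at this
    rwa [zero_mul]
  · unfold lipAt
    simp only [ENNReal.mul_iInf_of_ne h0 ENNReal.coe_ne_top]
    refine le_iInf₂ fun r hr => (iInf₂_le (min r r₀) (lt_min hr hr₀)).trans
      (iSup₂_le fun y hy => ?_)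
    calc edist (h y) (h x) / edist y x ≤ L * edist (g y) (g x) / edist y x :=
          ENNReal.div_le_div_right (H y ⟨hy.1, ball_subset_ball (min_le_right _ _) hy.2⟩) _
      _ = L * (edist (g y) (g x) / edist y x) := mul_div_assoc _ _ _
      _ ≤ _ := mul_le_mul_right (le_iSup₂_of_le (f := fun (y : E3) (_ : y ∈ X ∩ ball x r) =>
          edist (g y) (g x) / edist y x) y
          ⟨hy.1, ball_subset_ball (min_le_left _ _) hy.2⟩ le_rfl) _

theorem exists_ball {C : Set E3} {x : E3} (hx : x ∈ C) (hb : x ∉ intrinsicFrontier ℝ C) :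
    ∃ r : ℝ, 0 < r ∧ ∀ y ∈ affineSpan ℝ C, dist y x < r → y ∈ C := by
  have hi : x ∈ intrinsicInterior ℝ C := by
    rw [← intrinsicClosure_sdiff_intrinsicFrontier]
    exact ⟨subset_intrinsicClosure hx, hb⟩
  obtain ⟨y, hy, rfl⟩ := mem_intrinsicInterior.1 hi
  obtain ⟨r, hr, hs⟩ := Metric.mem_nhds_iff.1 (mem_interior_iff_mem_nhds.1 hy)
  exact ⟨r, hr, fun z hz hd => hs (a := ⟨z, hz⟩) hd⟩

theorem span_eq {C X : Set E3} (hne : C.Nonempty) (hs : C ⊆ X)
    (hd : Module.finrank ℝ (vectorSpan ℝ C) = Module.finrank ℝ (vectorSpan ℝ X)) :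
    affineSpan ℝ C = affineSpan ℝ X := by
  refine AffineSubspace.eq_of_direction_eq_of_nonempty_of_le ?_
    (hne.mono (subset_affineSpan ℝ C)) (affineSpan_mono ℝ hs)
  rw [direction_affineSpan, direction_affineSpan]
  exact Submodule.eq_of_le_of_finrank_eq (vectorSpan_mono ℝ hs) hd

theorem lipc_le_lipAt {g : E3 → E3} {C X : Set E3} {x : E3} {r₀ : ℝ} (A : E3 →ᵃ[ℝ] E3)
    (hA : EqOn g A C) (hs : C ⊆ X) (hx : x ∈ C) (hr₀ : 0 < r₀)
    (H : ∀ y ∈ affineSpan ℝ C, dist y x < r₀ → y ∈ C) : lipc g C ≤ lipAt g X x := by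
  refine le_iInf₂ fun r hr => iSup₂_le fun y hy => iSup₂_le fun z hz => ?_
  rcases eq_or_ne y z with rfl | hne
  · simp
  have hn : 0 < ‖y - z‖ := norm_pos_iff.2 (sub_ne_zero.2 hne)
  have hm : 0 < min r r₀ := lt_min hr hr₀
  set t : ℝ := min r r₀ / (2 * ‖y - z‖) with ht
  have ht0 : 0 < t := by positivity
  have hw : t • (y - z) + x ∈ affineSpan ℝ C :=
    (affineSpan ℝ C).smul_vsub_vadd_mem t (subset_affineSpan ℝ C hy) (subset_affineSpan ℝ C hz)
      (subset_affineSpan ℝ C hx)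
  have hd : dist (t • (y - z) + x) x = min r r₀ / 2 := by
    rw [dist_eq_norm, add_sub_cancel_right, norm_smul, Real.norm_of_nonneg ht0.le, ht]
    field_simp
  have hwC : t • (y - z) + x ∈ C := H _ hw (by rw [hd]; linarith [min_le_right r r₀])
  have hwb : t • (y - z) + x ∈ ball x r := by
    rw [mem_ball, hd]; linarith [min_le_left r r₀]
  refine le_iSup₂_of_le (f := fun (y : E3) (_ : y ∈ X ∩ ball x r) =>
    edist (g y) (g x) / edist y x) (t • (y - z) + x) ⟨hs hwC, hwb⟩ (le_of_eq ?_)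
  have e1 : g (t • (y - z) + x) - g x = t • (g y - g z) := by
    rw [hA hwC, hA hx, hA hy, hA hz]
    have h1 : A (t • (y - z) + x) = A.linear (t • (y - z)) + A x := A.map_vadd x (t • (y - z))
    have h2 : A.linear (y - z) = A y - A z := A.linearMap_vsub y z
    rw [h1, map_smul, h2, add_sub_cancel_right]
  have ht1 : ‖t‖ₑ ≠ 0 := by simpa using ht0.ne'
  rw [edist_eq_enorm_sub, edist_eq_enorm_sub, edist_eq_enorm_sub, edist_eq_enorm_sub, e1,
    add_sub_cancel_right, enorm_smul, enorm_smul,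
    ENNReal.mul_div_mul_left _ _ ht1 enorm_ne_top]

theorem null_of_le_one {C : Set E3} (hd : Module.finrank ℝ (vectorSpan ℝ C) ≤ 1) :
    μH[((2 : ℕ) : ℝ)] C = 0 := by
  rcases C.eq_empty_or_nonempty with rfl | ⟨x, hx⟩
  · simp
  have hL : LipschitzWith 1 (fun v : vectorSpan ℝ C => (v : E3) + x) :=
    LipschitzWith.of_dist_le_mul fun a b => by
      rw [dist_add_right, NNReal.coe_one, one_mul]; exact le_of_eq rfl
  have hsub : C ⊆ range (fun v : vectorSpan ℝ C => (v : E3) + x) := fun y hy =>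
    ⟨⟨y - x, vsub_mem_vectorSpan ℝ hy hx⟩, sub_add_cancel y x⟩
  have h1 : dimH C ≤ 1 := by
    refine (dimH_mono hsub).trans (hL.dimH_range_le.trans ?_)
    rw [Real.dimH_univ_eq_finrank]
    exact_mod_cast hd
  have h2 : dimH C < ((2 : ℝ≥0) : ℝ≥0∞) := h1.trans_lt (by norm_num)
  have := hausdorffMeasure_of_dimH_lt h2
  simpa using this

theorem add_rpow {a b : ℝ≥0∞} {p : ℝ} (hp : 1 ≤ p) : (a + b) ^ p ≤ 2 ^ p * (a ^ p + b ^ p) := by
  refine (ENNReal.rpow_add_le_mul_rpow_add_rpow a b hp).trans (mul_le_mul_left ?_ _)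
  exact ENNReal.rpow_le_rpow_of_exponent_le (by norm_num) (by linarith)

end EnsA

open EnsA in
theorem ens_of (hA : Api) : ENS := by
  intro p K _ φ g h L s hp hφ _ hd H1 H2
  have hp0 : 0 ≤ p := by linarith
  have hN : μH[((2 : ℕ) : ℝ)]
      (⋃ j, ⋃ (_ : Module.finrank ℝ (vectorSpan ℝ (K.cell j)) ≤ 1), K.cell j) = 0 :=
    measure_iUnion_null fun j => measure_iUnion_null fun hj => null_of_le_one hj
  have hcl : IsClosed K.carrier := isClosed_iUnion_of_finite K.isClosed_cell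
  have key : ∀ᵐ x ∂(μH[((2 : ℕ) : ℝ)] : Measure E3).restrict φ,
      lipAt h φ x ^ p ≤ 2 ^ p * ((L : ℝ≥0∞) ^ p * lipAt g φ x ^ p + s ^ p) := by
    rw [ae_restrict_iff' hφ.measurableSet]
    filter_upwards [measure_eq_zero_iff_ae_notMem.1 hN] with x hxN hx
    have hb : lipAt h φ x ≤ L * lipAt g φ x + s := by
      by_cases hc : x ∈ K.carrier
      · obtain ⟨j, hj⟩ := K.exists_ocell hc
        obtain ⟨hs, ⟨-, hbd, -, A, hgA⟩, hl⟩ := H1 j ⟨x, hj, hx⟩
        have hle : Module.finrank ℝ (vectorSpan ℝ (K.cell j)) ≤ 2 :=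
          hd ▸ Submodule.finrank_mono (vectorSpan_mono ℝ hs)
        have hgt : ¬ Module.finrank ℝ (vectorSpan ℝ (K.cell j)) ≤ 1 := fun h1 =>
          hxN (mem_iUnion₂.2 ⟨j, h1, hj.1⟩)
        have he := span_eq ⟨x, hj.1⟩ hs (by omega)
        obtain ⟨r, hr, hball⟩ := exists_ball hj.1 (hbd ▸ hj.2)
        have h1 : lipAt h φ x ≤ lipc h (K.cell j) :=
          lipAt_le hr fun y hy =>
            hA.edist_le h (hball y (he ▸ subset_affineSpan ℝ φ hy.1) hy.2) hj.1
        have h2 := lipc_le_lipAt A hgA hs hj.1 hr hball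
        exact h1.trans (hl.trans (add_le_add_left (mul_le_mul_right h2 _) _))
      · obtain ⟨r, hr, hball⟩ := Metric.mem_nhds_iff.1 (hcl.isOpen_compl.mem_nhds hc)
        exact (lipAt_le_mul hr fun y hy => H2 y ⟨hy.1, hball hy.2⟩ x ⟨hx, hc⟩).trans le_self_add
    calc lipAt h φ x ^ p ≤ (L * lipAt g φ x + s) ^ p := ENNReal.rpow_le_rpow hb hp0
      _ ≤ 2 ^ p * ((L * lipAt g φ x) ^ p + s ^ p) := add_rpow hp
      _ = _ := by rw [ENNReal.mul_rpow_of_nonneg _ _ hp0]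
  refine (lintegral_mono_ae key).trans (le_of_eq ?_)
  rw [lintegral_const_mul' _ _ (ENNReal.rpow_ne_top_of_nonneg hp0 ENNReal.ofNat_ne_top),
    lintegral_add_right _ measurable_const,
    lintegral_const_mul' _ _ (ENNReal.rpow_ne_top_of_nonneg hp0 ENNReal.coe_ne_top),
    setLIntegral_const]
  rfl

end P073.St
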