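import Vale.Agent.P073Y.St.Sk

/-!
# The estimates after the engine
-/

open Set Metric Topology Filter MeasureTheory
open scoped NNReal ENNReal

namespace P073.St

open P073.Top

namespace EstA

theorem small (C : ℝ) {ε : ℝ} (hε : 0 < ε) : ∀ᶠ t in 𝓝[>] (0 : ℝ), C * t ≤ ε :=
  (((continuous_const.mul continuous_id : Continuous fun t : ℝ => C * t).tendsto' 0 0
    (mul_zero C)).mono_left nhdsWithin_le_nhds).eventually_le_const hε

theorem toR {d v : ℝ} {n : ℕ} (hd : 0 ≤ d) (hv : 0 ≤ v)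
    (h : ENNReal.ofReal d * n ≤ ENNReal.ofReal v) : d * n ≤ v := by
  rwa [← ENNReal.ofReal_natCast, ← ENNReal.ofReal_mul hd, ENNReal.ofReal_le_ofReal_iff hv] at h

theorem edist_add (a b a' b' : ℝ) :
    edist a b + edist a' b' = ENNReal.ofReal (|a - b| + |a' - b'|) := by
  rw [ENNReal.ofReal_add (abs_nonneg _) (abs_nonneg _), edist_dist, edist_dist, Real.dist_eq,
    Real.dist_eq]

theorem lat_le (hA : Api) {ϑ : ℝ} (hϑ : ϑ ≤ 1) (g : E3 → E3) (x y : E3) :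
    ENNReal.ofReal (1 + ϑ) * lat g x y ≤ 4 * lipc g (segment ℝ x y) * edist x y := by
  refine (mul_le_mul' (ENNReal.ofReal_le_ofReal (show 1 + ϑ ≤ 2 by linarith))
    (hA.lat g x y)).trans_eq ?_
  rw [ENNReal.ofReal_ofNat]
  ring

/-- the Lipschitz constant on a sharp wire -/
theorem lipc_le (hA : Api) {g H : E3 → E3} {x y : E3} {θ : ℝ} {η s : ℝ≥0∞} (hθ : θ ≤ 1)
    (hne : x ≠ y) (h : SharpE g H x y θ η) (hη : η ≤ s * edist x y) :
    lipc H (segment ℝ x y) ≤ 4 * lipc g (segment ℝ x y) + s := by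
  refine hA.le_of fun u hu w hw => ?_
  have h1 : edist (H u) (H w) ≤
      edist (H u 0) (H w 0) + edist (H u 1) (H w 1) + edist (H u 2) (H w 2) :=
    edist_pi_le_iff.2 fun i => by
      fin_cases i
      exacts [le_self_add.trans le_self_add, le_add_self.trans le_self_add, le_add_self]
  refine (ENNReal.mul_le_mul_iff_left (edist_pos.2 hne).ne' (edist_ne_top x y)).1
    ((mul_le_mul_left h1 _).trans ((h u hu w hw).trans ?_))
  rw [mul_right_comm, add_mul _ s]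
  exact mul_le_mul_left (add_le_add (lat_le hA hθ g x y) hη) _

variable {Ω Λ : Set E3} {S : Src Ω} {g : ConHomeo Ω Λ} {lo hi : E3} {o : ℝ} {J : Finset (Fin 3)}
  {Y : Site S g lo hi o J} {A : Fin 3 → Finset ℝ} {d ϑ θ s p c : ℝ} {c' : ℝ≥0} {𝓢 : Set S.Q.ι}
  {ψ : S.Q.ι → (E2 →ᵃ[ℝ] E3)} {a : S.Q.ι → ℝ} {H : E3 → E3}

/-- few points on a whole wire -/
theorem few_cnt (hF : Few Y A d ϑ s) {j : Y.K.ι} {e : S.Q.ι} {x y : E3} (hj : Y.K.dim j = 1)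
    (he : Y.K.cell j = S.Q.cell e) (hxy : Y.K.cell j = segment ℝ x y) :
    ENNReal.ofReal d * Y.cnt A j ≤
      ENNReal.ofReal (1 + ϑ) * lat g.toFun x y + ENNReal.ofReal s := by
  rw [Site.cnt, inter_assoc, inter_eq_right.2 (Y.K.cell_subset_skel hj.le), he]
  exact (hF e x y (he.symm.trans hxy) (he ▸ Y.K.cell_subset_skel hj.le)).2

theorem sharp (hθ : 0 < θ) (hθ' : θ ≤ 1 / 1000) (hϑ : 0 < ϑ) (hϑ' : ϑ ≤ θ) (hd : 0 ≤ d)
    (hF : Few Y A d (ϑ / 4) s) (hE : Eng Y p c θ c' A d 𝓢 ψ a H) {j : Y.K.ι} {e : S.Q.ι}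
    {x y : E3} (hj : Y.K.dim j = 1) (hf : j ∉ Y.fro) (he : Y.K.cell j = S.Q.cell e)
    (hxy : Y.K.cell j = segment ℝ x y) {η : ℝ≥0∞} (hη : ENNReal.ofReal (2 * s) ≤ η) :
    SharpE g.toFun H x y θ η ∧ Rise g.toFun H x y ϑ η := by
  have h1 := few_cnt hF hj he hxy
  obtain ⟨h2, h3⟩ := hE.wire j x y hj hf hxy
  rw [ENNReal.ofReal_mul zero_le_two, ENNReal.ofReal_ofNat] at hη
  refine ⟨fun u hu w hw => ?_, ?_⟩
  · have h4 := ENNReal.ofReal_le_ofReal (h2 u (hxy ▸ hu) w (hxy ▸ hw))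
    rw [ENNReal.ofReal_mul (by positivity), ENNReal.ofReal_mul (by positivity),
      ENNReal.ofReal_mul (by positivity), ENNReal.ofReal_mul hd, ENNReal.ofReal_natCast,
      ← edist_dist, ← edist_dist, ← edist_add] at h4
    rw [hE.flat u w, edist_self, add_zero]
    refine h4.trans (mul_le_mul_left ((mul_le_mul_left h1 _).trans ?_) _)
    rw [add_mul, mul_right_comm, ← ENNReal.ofReal_mul (by positivity), mul_comm (ENNReal.ofReal s)]
    refine add_le_add (mul_le_mul_left (ENNReal.ofReal_le_ofReal (by nlinarith)) _)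
      ((mul_le_mul_left ?_ _).trans hη)
    rw [← ENNReal.ofReal_ofNat]
    exact ENNReal.ofReal_le_ofReal (by linarith)
  · have h4 := ENNReal.ofReal_le_ofReal h3
    rw [ENNReal.ofReal_mul hd, ENNReal.ofReal_natCast, ← edist_add] at h4
    exact h4.trans (h1.trans (add_le_add
      (mul_le_mul_left (ENNReal.ofReal_le_ofReal (by linarith)) _)
      ((le_mul_of_one_le_left' one_le_two).trans hη)))

theorem okay_mono {g : E3 → E3} {X X' : Set E3} (h : Okay g X lo hi o J) (h' : X' ⊆ X) :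
    Okay g X' lo hi o J :=
  h.imp (fun h x hx => h x (h' hx)) fun h x hx => h x (h' hx)

/-- the wires of a whole face -/
theorem wire_cases (hD : Dim) {φ : S.Q.ι} {j e : Y.K.ι} (hφ : S.Q.dim φ = 2)
    (ho : Okay g.toFun (S.Q.cell φ) lo hi o J) (hj : Same Y.K S.Q j φ) (he : Y.K.dim e = 1)
    (hej : Y.K.cell e ⊆ Y.K.cell j) : ∃ e', S.Q.dim e' = 1 ∧ S.Q.cell e' ⊆ S.Q.cell φ ∧
      Y.K.cell e ⊆ S.Q.cell e' ∧ (e ∉ Y.fro → Y.K.cell e = S.Q.cell e') := by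
  obtain ⟨x, hx⟩ := Y.K.ocell_nonempty e
  obtain ⟨e', h1, h2, h3⟩ := hD.wire S.Q φ hφ x (hj.2.1 ▸ Y.K.subset_bd_of_dim_lt hej
    (by rw [he, hj.2.2, hφ]; exact one_lt_two) hx.1)
  have h4 := h2.trans (S.Q.bd_subset φ)
  refine ⟨e', h1, h4, ?_⟩
  rcases Y.trk e' (h1.trans_le one_le_two) (okay_mono ho h4) with ⟨j', -, h5⟩ | h5
  · obtain rfl : e = j' := Y.K.eq_of_subset_of_dim_le
      (Y.K.cell_subset_of_mem hx (h5.1 ▸ h3)) (by rw [h5.2.2, h1, he])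
    exact ⟨h5.1.subset, fun _ => h5.1⟩
  · exact ⟨(h5 e ⟨x, hx, h3⟩).2.1, fun h => absurd (h5 e ⟨x, hx, h3⟩).1 h⟩

theorem fin_wires (Y : Site S g lo hi o J) (j : Y.K.ι) :
    {e | S.Q.dim e = 1 ∧ S.Q.cell e ⊆ Y.K.bd j}.Finite :=
  (S.Q.finite_subset (Y.K.isCompact_bd j) fun _ hx => S.carrier.symm ▸
    (Y.carrier.subset (Y.K.cell_subset_carrier j (Y.K.bd_subset j hx))).1).subset fun _ h => h.2

/-- the number of points on the boundary of a whole face -/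
theorem cnt_face (hA : Api) (hD : Dim) (hϑ : ϑ ≤ 1) (hF : Few Y A d ϑ s) {φ : S.Q.ι}
    {j : Y.K.ι} (hφ : S.Q.dim φ = 2) (hj : Same Y.K S.Q j φ) :
    ENNReal.ofReal d * Y.cnt A j ≤ 8 * Y.M₂ j * S.A g.toFun φ +
      (fin_wires Y j).toFinset.card * ENNReal.ofReal s := by
  have h2 : Y.K.dim j = 2 := hj.2.2.trans hφ
  have h1 : ∀ x, x ∈ Y.K.bd j ↔ x ∈ Y.K.cell j ∧ x ∈ Y.K.skel 1 := fun x => by
    rw [← Y.K.cell_inter_skel (k := 1) h2, mem_inter_iff]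
  have h3 : pts g lo hi A ∩ Y.K.skel 1 ∩ Y.K.cell j =
      ⋃ e ∈ (fin_wires Y j).toFinset, pts g lo hi A ∩ S.Q.cell e := by
    ext x
    simp only [mem_iUnion₂, Finite.mem_toFinset, mem_ofPred_eq, mem_inter_iff, exists_prop]
    refine ⟨fun h => ?_, fun ⟨e, h, h'⟩ => ⟨⟨h'.1, ((h1 x).1 (h.2 h'.2)).2⟩,
      ((h1 x).1 (h.2 h'.2)).1⟩⟩
    obtain ⟨e, e1, e2, e3⟩ := hD.wire S.Q φ hφ x (hj.2.1 ▸ (h1 x).2 ⟨h.2, h.1.2⟩)
    exact ⟨e, ⟨e1, hj.2.1 ▸ e2⟩, h.1.1, e3⟩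
  have h4 := Finset.set_ncard_biUnion_le (fin_wires Y j).toFinset
    fun e => pts g lo hi A ∩ S.Q.cell e
  have h5 := (hA.area (h2 ▸ Y.chart j h2.ge)).2
  rw [Site.cnt, h3]
  refine (mul_le_mul_right (Nat.cast_le.2 h4) _).trans ?_
  rw [Nat.cast_sum, Finset.mul_sum]
  refine (Finset.sum_le_sum (g := fun e => 8 * Y.M₂ j * lipc g.toFun (S.Q.cell e) +
    ENNReal.ofReal s) fun e he => ?_).trans ?_
  · obtain ⟨e1, e2⟩ := (Finite.mem_toFinset _).1 he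
    obtain ⟨x, y, -, -, -, hxy, -⟩ := S.cvx.exists_segment e1
    have h6 : edist x y ≤ 2 * Y.M₂ j := by
      have := h5 x ((h1 x).1 (e2 (hxy ▸ left_mem_segment ℝ x y))).1
        y ((h1 y).1 (e2 (hxy ▸ right_mem_segment ℝ x y))).1
      rw [edist_nndist]
      exact_mod_cast this
    refine (hF e x y hxy fun u hu => ((h1 u).1 (e2 hu)).2).2.trans (add_le_add_left
      ((lat_le hA hϑ _ x y).trans ((mul_le_mul_right h6 _).trans_eq ?_)) _)
    rw [hxy]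
    ring
  · rw [Finset.sum_add_distrib, Finset.sum_const, nsmul_eq_mul, ← Finset.mul_sum]
    refine add_le_add_left (mul_le_mul_right (hA.wires S _ φ _ fun e he => ?_) _) _
    obtain ⟨e1, e2⟩ := (Finite.mem_toFinset _).1 he
    exact ⟨e1, e2.trans (hj.1 ▸ Y.K.bd_subset j)⟩

theorem face (hA : Api) (hD : Dim) {θ t s : ℝ≥0} (hθ : 0 < θ) (hθ' : (θ : ℝ) ≤ 1)
    (hϑ : ϑ ≤ 1) (ht : (t : ℝ) ≤ 1) (hd : 0 ≤ d) (hd' : d ≤ t * t) (hF : Few Y A d ϑ (t * t))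
    (hE : Eng Y p c θ c' A d 𝓢 ψ a H)
    (h1 : ∀ e, 0 < diam (Y.K.cell e) → 32 * (t : ℝ) ≤ θ * diam (Y.K.cell e)) {φ : S.Q.ι}
    {j : Y.K.ι} (h2 : (c' / θ * Y.M₁ j *
      (Y.M₂ j + (fin_wires Y j).toFinset.card + 1) : ℝ) * t ≤ s)
    (hφ : S.Q.dim φ = 2) (ho : Okay g.toFun (S.Q.cell φ) lo hi o J) (hf : j ∉ Y.fro)
    (hj : Same Y.K S.Q j φ) : lipc H (S.Q.cell φ) ≤
      (c' / θ * S.M φ ^ 2 * (128 / θ + 8) + 1 : ℝ≥0) * S.A g.toFun φ + s := by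
  rcases eq_or_ne (S.A g.toFun φ) ⊤ with h0 | h0
  · rw [h0, ENNReal.mul_top (ENNReal.coe_ne_zero.2 (by positivity)), top_add]
    exact le_top
  obtain ⟨α, hα⟩ : ∃ α : ℝ≥0, (α : ℝ≥0∞) = S.A g.toFun φ := ⟨_, ENNReal.coe_toNNReal h0⟩
  have hθ0 : (0 : ℝ) < θ := hθ
  have h3 := cnt_face hA hD hϑ hF hφ hj
  rw [← hα] at h3 ⊢
  replace h3 : d * Y.cnt A j ≤ 8 * Y.M₂ j * α + (fin_wires Y j).toFinset.card * (t * t) :=
    toR hd (by positivity) (h3.trans_eq (by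
      simp (disch := positivity) only [ENNReal.ofReal_add, ENNReal.ofReal_mul,
        ENNReal.ofReal_coe_nnreal, ENNReal.ofReal_natCast, ENNReal.ofReal_ofNat]))
  rw [← hj.1]
  refine (hE.face j (128 / θ * α + t) (hj.2.2.trans hφ) hf (hj.1 ▸ (S.cvx φ).1)
    fun e he hej => ?_).trans ?_
  · obtain ⟨e', e1, e2, e3, e4⟩ := wire_cases hD hφ ho hj he hej
    have h4 : lipc g.toFun (Y.K.cell e) ≤ α := by
      have := hA.wires S g.toFun φ {e'} fun _ h => Finset.mem_singleton.1 h ▸ ⟨e1, e2⟩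
      rw [Finset.sum_singleton, ← hα] at this
      exact (hA.mono _ e3).trans this
    refine ⟨fun _ => (mul_le_mul_right h4 _).trans ?_, fun h x y hxy => ?_⟩
    · have : (20 : ℝ) ≤ 128 / θ := (le_div_iff₀ hθ0).2 (by linarith)
      exact_mod_cast (show (20 * α : ℝ) ≤ 128 / θ * α + t from
        (mul_le_mul_of_nonneg_right this α.coe_nonneg).trans (le_add_of_nonneg_right t.coe_nonneg))
    · obtain ⟨hne, -, h5⟩ := (hD.seg Y.K e he (hxy ▸ convex_segment x y)).2 x y hxy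
      have h6 := h1 e (h5 ▸ dist_pos.2 hne)
      have h7 : d * Y.cnt A e ≤ 4 * α * dist x y + t * t := toR hd (by positivity)
        ((few_cnt hF he (e4 h) hxy).trans ((add_le_add_left ((lat_le hA hϑ _ x y).trans
          (mul_le_mul_left (mul_le_mul_right (hxy ▸ h4) _) _)) _).trans_eq (by
            simp (disch := positivity) only [ENNReal.ofReal_add, ENNReal.ofReal_mul, edist_dist,
              ENNReal.ofReal_coe_nnreal, ENNReal.ofReal_ofNat])))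
      rw [h5] at h6
      push_cast
      rw [mul_add, ← mul_assoc (θ : ℝ), mul_div_cancel₀ _ hθ0.ne']
      nlinarith [mul_le_mul_of_nonneg_right h6 t.coe_nonneg]
  · obtain ⟨m1, m2⟩ := Y.same j φ hj
    have h4 : (S.M φ : ℝ) ^ 2 = Y.M₁ j * Y.M₂ j := by
      have := (S.r_pos φ).ne'
      rw [m1, m2]
      push_cast
      field_simp
    rw [← ENNReal.coe_mul, ← ENNReal.coe_add, ← ENNReal.ofReal_coe_nnreal]
    refine ENNReal.ofReal_le_ofReal ?_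
    push_cast
    rw [h4]
    have h5 : (t : ℝ) * t ≤ t := mul_le_of_le_one_left t.coe_nonneg ht
    have h6 : (Y.M₂ j : ℝ) * (128 / θ * α + t) + d * Y.cnt A j + d ≤
        Y.M₂ j * (128 / θ + 8) * α + (Y.M₂ j + (fin_wires Y j).toFinset.card + 1) * t := by
      nlinarith [mul_le_mul_of_nonneg_left h5 (Nat.cast_nonneg (fin_wires Y j).toFinset.card)]
    nlinarith [mul_le_mul_of_nonneg_left h6 (show (0 : ℝ) ≤ c' / θ * Y.M₁ j by positivity), α.coe_nonneg]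

theorem fit (hS : SQR) (hθ : 0 < θ) (hθ' : θ ≤ 1 / 1000) (hϑ' : ϑ ≤ θ) (hd : 0 ≤ d)
    (hd' : d ≤ s) (hF : Few Y A d (ϑ / 4) s) (hM : ∀ φ ∈ 𝓢, Marked S g.toFun θ φ (ψ φ) (a φ))
    (hs : ∀ j, ∀ φ ∈ 𝓢, Same Y.K S.Q j φ → s ≤ θ * a φ) : Fit Y θ A d 𝓢 a := by
  intro φ hφ hp
  obtain ⟨j, χ, hq⟩ := hS Y (hM φ hφ) hp
  have h1 := hs j φ hφ hq.same
  have ha := (hM φ hφ).pos
  refine ⟨hd'.trans h1, fun e he he' => ?_⟩
  obtain ⟨x, y, e', h2, h3, h4, -⟩ := hq.wire e he (hq.same.1 ▸ he')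
  have h5 : d * Y.cnt A e ≤ (1 + θ / 4) * ((1 + θ) * (2 * a φ)) + θ * a φ :=
    toR hd (by positivity) ((few_cnt hF he h2.1 h3).trans (by
      rw [ENNReal.ofReal_add (q := θ * a φ) (by positivity) (by positivity),
        ENNReal.ofReal_mul (p := 1 + θ / 4) (by positivity)]
      exact add_le_add (mul_le_mul' (ENNReal.ofReal_le_ofReal (by linarith)) h4)
        (ENNReal.ofReal_le_ofReal h1)))
  refine (mul_le_mul_of_nonneg_right h5 (by positivity)).trans ?_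
  have h6 : ((1 + θ / 4) * ((1 + θ) * 2) + θ) * (1 + θ / 4) ≤ 2 * (1 + 3 * θ) := by
    nlinarith [mul_pos hθ hθ]
  nlinarith [mul_le_mul_of_nonneg_right h6 ha.le]

end EstA

open EstA

theorem est_of (hA : Api) (hD : Dim) (hS : SQR) : EST := by
  intro θ c' hθ hθ'
  lift θ to ℝ≥0 using hθ.le
  refine ⟨fun M => c' / θ * M ^ 2 * (128 / θ + 8) + 1, ?_⟩
  intro Ω Λ S g lo hi o J Y ϑ s 𝓢 ψ a hϑ hϑ' hs hM
  have := Y.fin
  have hs' : (0 : ℝ) < s := hs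
  have e1 : ∀ᶠ t in 𝓝[>] (0 : ℝ), ∀ e, 0 < diam (Y.K.cell e) → 32 * t ≤ θ * diam (Y.K.cell e) :=
    eventually_all.2 fun e => eventually_imp_distrib_left.2 fun h => small _ (mul_pos hθ h)
  have e2 : ∀ᶠ t in 𝓝[>] (0 : ℝ), ∀ j, (c' / θ * Y.M₁ j *
      (Y.M₂ j + (fin_wires Y j).toFinset.card + 1) : ℝ) * t ≤ s :=
    eventually_all.2 fun j => small _ hs'
  have e3 : ∀ᶠ t in 𝓝[>] (0 : ℝ), ∀ j, ∀ φ ∈ 𝓢, Same Y.K S.Q j φ → 1 * t ≤ θ * a φ :=
    eventually_all.2 fun j => by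
      by_cases h : ∃ φ ∈ 𝓢, Same Y.K S.Q j φ
      · obtain ⟨φ, h1, h2⟩ := h
        exact (small 1 (mul_pos hθ (hM φ h1).pos)).mono fun t ht φ' _ h3 =>
          S.Q.cell_injective (h2.1.symm.trans h3.1) ▸ ht
      · exact Eventually.of_forall fun t φ h1 h2 => absurd ⟨φ, h1, h2⟩ h
  obtain ⟨t, h0, h1, h2, h3, h4, h5⟩ := ((eventually_mem_nhdsWithin (a := (0 : ℝ))
    (s := Ioi 0)).and (e1.and (e2.and (e3.and ((small 1 one_pos).and (small 2 hs')))))).exists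
  have ht : 0 < t := h0
  lift t to ℝ≥0 using ht.le
  rw [one_mul] at h3 h4
  have h6 : (t : ℝ) * t ≤ t := mul_le_of_le_one_left t.coe_nonneg h4
  refine ⟨t * t, by positivity, fun A d hd hAd hF => ⟨fit hS hθ hθ' hϑ' hAd.pos.le hd hF hM
    fun j φ hφ hj => h6.trans (h3 j φ hφ hj), fun p c H hE => ⟨hE.soft, fun e j he hf hj => ?_,
    fun φ j hφ ho hf hj => face hA hD hθ (by linarith) (by linarith) h4 hAd.pos.le hd hF hE h1
      (h2 j) hφ ho hf hj, hE.sharp⟩⟩⟩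
  have hj1 : Y.K.dim j = 1 := hj.2.2.trans he
  refine ⟨?_, fun x y hxy => sharp hθ hθ' hϑ hϑ' hAd.pos.le hF hE hj1 hf hj.1 (hj.1.trans hxy)
    (ENNReal.ofReal_le_of_le_toReal (by rw [ENNReal.coe_toReal]; linarith))⟩
  obtain ⟨x, y, -, -, hne, hxy, -⟩ := S.cvx.exists_segment he
  have h7 := ((hD.seg Y.K j hj1 (hj.1 ▸ (S.cvx e).1)).2 x y (hj.1.trans hxy)).2.2
  have h8 := h1 j (h7 ▸ dist_pos.2 hne)
  rw [h7] at h8
  rw [hxy]
  refine lipc_le hA (by linarith) hne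
    (sharp hθ hθ' hϑ hϑ' hAd.pos.le hF hE hj1 hf hj.1 (hj.1.trans hxy) le_rfl).1 ?_
  rw [edist_dist, ← ENNReal.ofReal_coe_nnreal, ← ENNReal.ofReal_mul s.coe_nonneg]
  have h9 : (t : ℝ) ≤ dist x y := by nlinarith [dist_nonneg (x := x) (y := y)]
  exact ENNReal.ofReal_le_ofReal (by nlinarith [mul_le_mul h5 h9 t.coe_nonneg s.coe_nonneg])

end P073.St
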