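import Vale.Agent.P073Y.St.Sk

/-!
# Normalisation in one box: the final estimates
-/

open Set Metric Topology Filter MeasureTheory
open scoped NNReal ENNReal

namespace P073.St

open P073.Top

namespace Fn

theorem ev_small {B η : ℝ≥0∞} (hB : B ≠ ⊤) (hη : 0 < η) {p : ℝ} (hp : 0 < p) :
    ∀ᶠ s : ℝ≥0 in 𝓝 0, B * (s : ℝ≥0∞) ^ p ≤ η := by
  have h1 : Tendsto (fun s : ℝ≥0 => (s : ℝ≥0∞) ^ p) (𝓝 0) (𝓝 0) := by
    have := ((ENNReal.continuous_rpow_const (y := p)).comp ENNReal.continuous_coe).tendsto 0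
    rwa [Function.comp_apply, ENNReal.coe_zero, ENNReal.zero_rpow_of_pos hp] at this
  have h2 := ENNReal.Tendsto.const_mul h1 (Or.inr hB)
  rw [mul_zero] at h2
  exact h2.eventually_le_const hη

theorem exists_of_ev {P : ℝ≥0 → Prop} (h : ∀ᶠ s in 𝓝 0, P s) :
    ∃ s₀ : ℝ≥0, 0 < s₀ ∧ ∀ s, s ≤ s₀ → P s := by
  obtain ⟨a, ha, h⟩ := NNReal.nhds_zero_basis.eventually_iff.1 h
  exact ⟨a / 2, half_pos ha, fun s hs => h (hs.trans_lt (half_lt_self ha))⟩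

theorem add_rpow_le (a b : ℝ≥0∞) {p : ℝ} (hp : 1 ≤ p) : (a + b) ^ p ≤ 2 ^ p * (a ^ p + b ^ p) :=
  (ENNReal.rpow_add_le_mul_rpow_add_rpow a b hp).trans
    (mul_le_mul_left (ENNReal.rpow_le_rpow_of_exponent_le one_le_two (by linarith)) _)

variable {Ω Λ : Set E3} {S : Src Ω} {g : ConHomeo Ω Λ} {lo hi : E3} {o : ℝ} {J : Finset (Fin 3)}
  {C₁ s : ℝ≥0} {H h D : E3 → E3}

theorem cell_sub (S : Src Ω) (φ : S.Q.ι) : S.Q.cell φ ⊆ Ω :=
  (S.Q.cell_subset_carrier φ).trans S.carrier.le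

theorem kcell_sub (Y : Site S g lo hi o J) (j : Y.K.ι) : Y.K.cell j ⊆ pre g (Icc lo hi) :=
  (Y.K.cell_subset_carrier j).trans Y.carrier.le

theorem same_sub (Y : Site S g lo hi o J) {j : Y.K.ι} {φ : S.Q.ι} (h : Same Y.K S.Q j φ) :
    S.Q.cell φ ⊆ pre g (Icc lo hi) := h.1 ▸ kcell_sub Y j

theorem fin_meet (Y : Site S g lo hi o J) :
    {φ | (S.Q.cell φ ∩ pre g (Icc lo hi)).Nonempty}.Finite :=
  S.Q.finite_meet Y.ball.isCompact fun _ hx => S.carrier.ge hx.1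

theorem meet_of_sub {φ : S.Q.ι} (h : S.Q.cell φ ⊆ pre g (Icc lo hi)) :
    (S.Q.cell φ ∩ pre g (Icc lo hi)).Nonempty := by
  rw [inter_eq_left.2 h]
  exact S.Q.cell_nonempty φ

theorem lip_pert (hA : Api) (P : Pert g lo hi C₁ s H h D) {X : Set E3}
    (hX : X ⊆ pre g (Icc lo hi)) : lipc h X ≤ lipc H X + s := by
  rw [hA.congr (f' := fun x => H x + D x) fun x hx => P.eq x (hX hx)]
  exact (hA.add H D X).trans (add_le_add_right (hA.le_iff.2 (P.lip.mono hX)) _)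

theorem area (hA : Api) {φ : S.Q.ι} (hφ : S.Q.dim φ = 2) :
    μH[((2 : ℕ) : ℝ)] (S.Q.cell φ) ≤ 4 * ((S.M φ * S.r φ : ℝ≥0) : ℝ≥0∞) ^ 2 := by
  have h := S.chart φ hφ.ge
  rw [hφ] at h
  exact (hA.area h).1

variable {p c θ ϑ : ℝ} {CM₁ : ℝ≥0 → ℝ≥0} {𝓢 : Set S.Q.ι} {ψ : S.Q.ι → (E2 →ᵃ[ℝ] E3)}
  {a : S.Q.ι → ℝ} {Y : Site S g lo hi o J}

theorem soft (hA : Api) (hE : Est Y p c θ ϑ CM₁ s 𝓢 ψ a H) (P : Pert g lo hi C₁ s H h D)
    {j : Y.K.ι} (hj : j ∈ Y.fro) (hc : Convex ℝ (Y.K.cell j)) {L : ℝ≥0} (hL : 40 ≤ L) :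
    lipc h (Y.K.cell j) ≤ L * lipc g.toFun (Y.K.cell j) + s := by
  refine (lip_pert hA P (kcell_sub Y j)).trans (add_le_add_left ((hE.soft j hj hc).trans ?_) _)
  exact mul_le_mul_left (by exact_mod_cast hL) _

theorem wire (hA : Api) (hE : Est Y p c θ ϑ CM₁ s 𝓢 ψ a H) (P : Pert g lo hi C₁ s H h D)
    {L : ℝ≥0} (hL : 40 ≤ L) (hL' : C₁ ≤ L) {e : S.Q.ι} (he : S.Q.dim e = 1)
    (ho : Okay g.toFun (S.Q.cell e) lo hi o J) :
    lipc h (S.Q.cell e) ≤ L * lipc g.toFun (S.Q.cell e) + 2 * s := by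
  have := Y.fin
  rcases Y.trk e (by omega) ho with ⟨j, hj, hs⟩ | ht
  · refine (lip_pert hA P (same_sub Y hs)).trans ?_
    rw [two_mul, ← add_assoc]
    refine add_le_add_left ((hE.wire e j he hj hs).1.trans (add_le_add_left ?_ _)) _
    exact mul_le_mul_left (by exact_mod_cast le_trans (by norm_num) hL) _
  refine hA.cover (insert (S.Q.cell e ∩ g.toFun ⁻¹' (interior (Icc lo hi))ᶜ)
    (Y.K.cell '' {j | (Y.K.ocell j ∩ S.Q.cell e).Nonempty})) (S.cvx e).1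
    (((toFinite _).image _).insert _) ?_ fun x hx => ?_
  · rintro _ (rfl | ⟨j, hj, rfl⟩)
    · refine ⟨(g.cont.mono (cell_sub S e)).preimage_isClosed_of_isClosed (S.Q.isClosed_cell e)
        isOpen_interior.isClosed_compl, le_add_right (hA.le_of fun x hx y hy => ?_)⟩
      refine (P.outer x (cell_sub S e hx.1) y (cell_sub S e hy.1) hx.2 hy.2).trans ?_
      rw [mul_assoc]
      exact mul_le_mul' (by exact_mod_cast hL') (hA.edist_le _ hx.1 hy.1)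
    · obtain ⟨h1, h2, h3⟩ := ht j hj
      refine ⟨Y.K.isClosed_cell j, (soft hA hE P h1 h3.1 hL).trans (add_le_add
        (mul_le_mul_right (hA.mono _ h2) _) ?_)⟩
      rw [two_mul]
      exact le_self_add
  · by_cases hg : g.toFun x ∈ interior (Icc lo hi)
    · obtain ⟨j, hj⟩ := Y.K.exists_ocell (Y.carrier.ge ⟨cell_sub S e hx, interior_subset hg⟩)
      exact ⟨_, Or.inr ⟨j, ⟨x, hj, hx⟩, rfl⟩, hj.1⟩
    · exact ⟨_, Or.inl rfl, hx, hg⟩

theorem whole (hA : Api) (hp : 1 ≤ p) (hE : Est Y p c θ ϑ CM₁ s 𝓢 ψ a H)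
    (P : Pert g lo hi C₁ s H h D) {φ : S.Q.ι} (hφ : S.Q.dim φ = 2)
    (ho : Okay g.toFun (S.Q.cell φ) lo hi o J) {j : Y.K.ι} (hj : j ∉ Y.fro)
    (hs : Same Y.K S.Q j φ) :
    S.E p h φ ≤ (4 * S.M φ ^ 2 * (2 * CM₁ (S.M φ)) ^ p : ℝ≥0) * S.W p g.toFun φ +
      2 ^ p * 2 ^ p * μH[((2 : ℕ) : ℝ)] (S.Q.cell φ) * (s : ℝ≥0∞) ^ p := by
  have p0 : 0 ≤ p := by linarith
  have h1 : lipc h (S.Q.cell φ) ≤ CM₁ (S.M φ) * S.A g.toFun φ + 2 * s := by
    rw [two_mul, ← add_assoc]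
    exact (lip_pert hA P (same_sub Y hs)).trans (add_le_add_left (hE.face φ j hφ ho hj hs) _)
  refine (hA.en h (by linarith) (S.Q.isCompact_cell φ)).trans ?_
  refine (mul_le_mul_left ((ENNReal.rpow_le_rpow h1 p0).trans (add_rpow_le _ _ hp)) _).trans ?_
  rw [mul_add, add_mul]
  refine add_le_add ((mul_le_mul_right (area hA hφ) _).trans_eq ?_) (le_of_eq ?_)
  · rw [Src.W, ENNReal.coe_mul, ENNReal.coe_mul (_ * _), ENNReal.coe_rpow_of_nonneg _ p0,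
      ENNReal.coe_mul 2, ENNReal.mul_rpow_of_nonneg _ _ p0, ENNReal.mul_rpow_of_nonneg _ _ p0]
    push_cast
    ring
  · rw [ENNReal.mul_rpow_of_nonneg _ _ p0]
    ring

theorem cut (hA : Api) (hN : ENS) (hp : 1 ≤ p) (hE : Est Y p c θ ϑ CM₁ s 𝓢 ψ a H)
    (P : Pert g lo hi C₁ s H h D) {L : ℝ≥0} (hL : 40 ≤ L) (hL' : C₁ ≤ L) {φ : S.Q.ι}
    (hφ : S.Q.dim φ = 2) (ht : ∀ j, (Y.K.ocell j ∩ S.Q.cell φ).Nonempty →
      j ∈ Y.fro ∧ Y.K.cell j ⊆ S.Q.cell φ ∧ CvA Y.K g.toFun j) {s' : ℝ≥0∞}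
    (hs : (S.Q.cell φ ∩ pre g (Icc lo hi)).Nonempty → s ≤ s') :
    S.E p h φ ≤ ((2 * L) ^ p : ℝ≥0) * S.E p g.toFun φ +
      2 ^ p * 2 ^ p * μH[((2 : ℕ) : ℝ)] (S.Q.cell φ) * s' ^ p := by
  have := Y.fin
  have p0 : 0 ≤ p := by linarith
  have out : ∀ x ∈ S.Q.cell φ \ Y.K.carrier, x ∈ Ω ∧ g.toFun x ∉ interior (Icc lo hi) :=
    fun x hx => ⟨cell_sub S φ hx.1, fun hg =>
      hx.2 (Y.carrier.ge ⟨cell_sub S φ hx.1, interior_subset hg⟩)⟩
  refine (hN Y.K (g := g.toFun) (L := L) (s := s') hp (S.Q.isCompact_cell φ) (S.cvx φ).1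
    ((S.cvx φ).2.2.symm.trans hφ) (fun j hj => ?_) fun x hx y hy => ?_).trans ?_
  · obtain ⟨h1, h2, h3⟩ := ht j hj
    obtain ⟨x, hx, hx'⟩ := hj
    exact ⟨h2, h3, (soft hA hE P h1 h3.1 hL).trans
      (add_le_add_right (hs ⟨x, hx', kcell_sub Y j hx.1⟩) _)⟩
  · exact (P.outer x (out x hx).1 y (out y hy).1 (out x hx).2 (out y hy).2).trans
      (mul_le_mul_left (by exact_mod_cast hL') _)
  · rw [mul_add, ENNReal.coe_rpow_of_nonneg _ p0, ENNReal.coe_mul,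
      ENNReal.mul_rpow_of_nonneg _ _ p0]
    refine add_le_add (le_of_eq ?_) ?_
    · rw [mul_assoc]
      rfl
    · rw [mul_assoc, mul_assoc, mul_comm (s' ^ p)]
      exact mul_le_mul_right (le_mul_of_one_le_left' (ENNReal.one_le_rpow one_le_two (by linarith))) _

theorem co_le (P : Pert g lo hi C₁ s H h D) {u w : E3} (hu : u ∈ pre g (Icc lo hi))
    (hw : w ∈ pre g (Icc lo hi)) (k : Fin 3) :
    edist (h u k) (h w k) ≤ edist (H u k) (H w k) + s * edist u w := by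
  rw [P.eq u hu, P.eq w hw]
  exact (edist_add_add_le _ _ _ _).trans
    (add_le_add_right ((edist_le_pi_edist _ _ k).trans (P.lip hu hw)) _)

theorem sharp (P : Pert g lo hi C₁ s H h D) {x y : E3} (hs : segment ℝ x y ⊆ pre g (Icc lo hi))
    {η : ℝ≥0∞} (hη : (1 + 3 * edist x y) * s ≤ η) (h1 : SharpE g.toFun H x y θ s)
    (h2 : Rise g.toFun H x y ϑ s) : SharpE g.toFun h x y θ η ∧ Rise g.toFun h x y ϑ η := by
  refine ⟨fun u hu w hw => ?_, ?_⟩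
  · have k := co_le P (hs hu) (hs hw)
    calc _ ≤ (edist (H u 0) (H w 0) + s * edist u w + (edist (H u 1) (H w 1) + s * edist u w) +
            (edist (H u 2) (H w 2) + s * edist u w)) * edist x y :=
          mul_le_mul_left (add_le_add (add_le_add (k 0) (k 1)) (k 2)) _
      _ = (edist (H u 0) (H w 0) + edist (H u 1) (H w 1) + edist (H u 2) (H w 2)) * edist x y +
            3 * edist x y * s * edist u w := by ring
      _ ≤ (ENNReal.ofReal (1 + θ) * lat g.toFun x y + s) * edist u w +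
            3 * edist x y * s * edist u w := add_le_add_left (h1 u hu w hw) _
      _ = (ENNReal.ofReal (1 + θ) * lat g.toFun x y + (1 + 3 * edist x y) * s) * edist u w := by
          ring
      _ ≤ _ := mul_le_mul_left (add_le_add_right hη _) _
  · have k := co_le P (hs (right_mem_segment ℝ x y)) (hs (left_mem_segment ℝ x y))
    rw [edist_comm y x] at k
    calc _ ≤ edist (H y 0) (H x 0) + s * edist x y + (edist (H y 1) (H x 1) + s * edist x y) :=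
          add_le_add (k 0) (k 1)
      _ = edist (H y 0) (H x 0) + edist (H y 1) (H x 1) + 2 * edist x y * s := by ring
      _ ≤ ENNReal.ofReal (1 + ϑ) * lat g.toFun x y + s + 3 * edist x y * s :=
          add_le_add h2 (by gcongr; norm_num)
      _ = ENNReal.ofReal (1 + ϑ) * lat g.toFun x y + (1 + 3 * edist x y) * s := by ring
      _ ≤ _ := add_le_add_right hη _

theorem cor_mem (i : Fin 2) {s t : ℝ} (hs : s = 1 ∨ s = -1) (ht : t = 1 ∨ t = -1) :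
    cor i s t ∈ closedBall (0 : E2) 1 := by
  rw [mem_closedBall_zero_iff, pi_norm_le_iff_of_nonneg zero_le_one]
  intro k
  unfold cor
  split_ifs
  · rcases hs with rfl | rfl <;> simp
  · rcases ht with rfl | rfl <;> simp

theorem sharpF (hA : Api) (hp : 1 ≤ p) (P : Pert g lo hi C₁ s H h D) {ψ : E2 →ᵃ[ℝ] E3} {a : ℝ}
    (hs : ∀ v ∈ closedBall (0 : E2) 1, ψ v ∈ pre g (Icc lo hi)) {L : ℝ≥0} (hL : LipschitzWith L ψ)
    {η : ℝ≥0∞} (hθ : 0 < θ) (hc : 0 ≤ c) (ha : 0 < a) (h1 : (s : ℝ) ≤ θ * a)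
    (h2 : 2 ^ p * (L : ℝ≥0∞) ^ p * 4 * (s : ℝ≥0∞) ^ p ≤ η) (hF : SharpF p H ψ a (2 * θ) c 0) :
    SharpF p h ψ a θ (4 * c) η := by
  intro hh
  have p0 : 0 < p := by linarith
  have k1 := hF fun i t ht => by
    have m1 := hs _ (cor_mem i (Or.inl rfl) ht)
    have m2 := hs _ (cor_mem i (Or.inr rfl) ht)
    have k := hh i t ht
    rw [P.eq _ m1, P.eq _ m2, Pi.add_apply, Pi.add_apply] at k
    have b1 := abs_le.1 ((norm_le_pi_norm _ i.castSucc).trans (P.small _ m1))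
    have b2 := abs_le.1 ((norm_le_pi_norm _ i.castSucc).trans (P.small _ m2))
    linarith [b1.2, b2.1]
  have k2 : lipc (fun v => D (ψ v)) (closedBall (0 : E2) 1) ≤ (s * L : ℝ≥0) :=
    hA.le_iff.2 (P.lip.comp hL.lipschitzOnWith hs)
  have k3 := hA.en_add (fun v : E2 => H (ψ v) - a • (![v 0, v 1, 0] : E3)) (fun v => D (ψ v)) p0
    (isCompact_closedBall (0 : E2) 1)
  have k4 := hA.en_le (fun v : E2 => h (ψ v) - a • (![v 0, v 1, 0] : E3))
    (fun v : E2 => H (ψ v) - a • (![v 0, v 1, 0] : E3) + D (ψ v)) 1 p0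
    (isCompact_closedBall (0 : E2) 1) fun x hx y hy => by
      rw [P.eq _ (hs x hx), P.eq _ (hs y hy), ENNReal.coe_one, one_mul, add_sub_right_comm,
        add_sub_right_comm]
  rw [ENNReal.coe_one, ENNReal.one_rpow, one_mul] at k4
  rw [add_zero] at k1
  rw [hA.sq] at k3
  refine k4.trans (k3.trans ?_)
  rw [mul_add]
  refine add_le_add ((mul_le_mul_right k1 _).trans ?_) (le_trans ?_ h2)
  · have e : (2 : ℝ≥0∞) ^ p = ENNReal.ofReal (2 ^ p) := by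
      rw [← ENNReal.ofReal_rpow_of_pos two_pos, ENNReal.ofReal_ofNat]
    rw [e, ← ENNReal.ofReal_mul (by positivity)]
    refine ENNReal.ofReal_le_ofReal ?_
    have e2 : (4 * c * a) ^ p = 2 ^ p * (2 ^ p * (c * a) ^ p) := by
      rw [← Real.mul_rpow (by norm_num) (by positivity), ← Real.mul_rpow (by norm_num)
        (by positivity)]
      congr 1
      ring
    have e3 : (2 : ℝ) ≤ 2 ^ p := by
      simpa using Real.rpow_le_rpow_of_exponent_le one_le_two hp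
    have e4 : 0 ≤ 2 ^ p * (θ * (c * a) ^ p) := by positivity
    rw [e2]
    nlinarith [mul_le_mul_of_nonneg_right e3 e4]
  · refine (mul_le_mul_right (mul_le_mul_left (ENNReal.rpow_le_rpow k2 p0.le) _) _).trans_eq ?_
    rw [ENNReal.coe_mul, ENNReal.mul_rpow_of_nonneg _ _ p0.le]
    ring

end Fn

open Fn

theorem finb_of {p : ℝ} (hA : Api) (hE : ENS) (hp : 1 ≤ p) : FINB p := by
  intro C₁ CM₁
  refine ⟨max 40 C₁ + (2 * max 40 C₁) ^ p, fun M => 4 * M ^ 2 * (2 * CM₁ M) ^ p,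
    (le_max_right _ _).trans le_self_add, ?_⟩
  intro Ω Λ S g lo hi o J Y η hη
  have p0 : 0 < p := by linarith
  have t2 : (2 : ℝ≥0∞) ^ p ≠ ⊤ := ENNReal.rpow_ne_top_of_nonneg p0.le (by simp)
  have e1 := ev_small (B := 2) (by simp) hη one_pos
  have e2 : ∀ᶠ s : ℝ≥0 in 𝓝 0, ∀ φ ∈ {φ | (S.Q.cell φ ∩ pre g (Icc lo hi)).Nonempty},
      S.Q.dim φ = 2 → 2 ^ p * 2 ^ p * μH[((2 : ℕ) : ℝ)] (S.Q.cell φ) * (s : ℝ≥0∞) ^ p ≤ η := by
    refine (eventually_all_finite (fin_meet Y)).2 fun φ _ => ?_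
    by_cases hφ : S.Q.dim φ = 2
    · refine (ev_small (ENNReal.mul_ne_top (ENNReal.mul_ne_top t2 t2) (ne_top_of_le_ne_top ?_
        (area hA hφ))) hη p0).mono fun s hs _ => hs
      exact ENNReal.mul_ne_top (by simp) (ENNReal.pow_ne_top ENNReal.coe_ne_top)
    · exact Eventually.of_forall fun s h => (hφ h).elim
  obtain ⟨s₀, h0, hs₀⟩ := exists_of_ev (e1.and e2)
  refine ⟨s₀, h0, fun s hs => ?_⟩
  intro c θ ϑ 𝓢 ψ a H h D hEst P
  obtain ⟨k1, k2⟩ := hs₀ s hs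
  rw [ENNReal.rpow_one] at k1
  have hw : ∀ φ j, S.Q.dim φ = 2 → Okay g.toFun (S.Q.cell φ) lo hi o J → j ∉ Y.fro →
      Same Y.K S.Q j φ → S.E p h φ ≤
        (4 * S.M φ ^ 2 * (2 * CM₁ (S.M φ)) ^ p : ℝ≥0) * S.W p g.toFun φ + η :=
    fun φ j hφ ho hj hs => (whole hA hp hEst P hφ ho hj hs).trans
      (add_le_add_right (k2 φ (meet_of_sub (same_sub Y hs)) hφ) _)
  refine ⟨fun e he ho => ?_, fun φ hφ ho => ?_, fun φ hφ ho => ?_⟩
  · refine (wire hA hEst P (le_max_left _ _) (le_max_right _ _) he (Or.inl ho)).trans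
      (add_le_add (mul_le_mul_left ?_ _) k1)
    exact_mod_cast le_self_add
  · rcases Y.trk φ hφ.le (Or.inl ho) with ⟨j, hj, hs⟩ | ht
    · exact (hw φ j hφ (Or.inl ho) hj hs).trans (add_le_add_left le_add_self _)
    obtain ⟨s', b1, b2⟩ : ∃ s' : ℝ≥0∞, ((S.Q.cell φ ∩ pre g (Icc lo hi)).Nonempty → s ≤ s') ∧
        2 ^ p * 2 ^ p * μH[((2 : ℕ) : ℝ)] (S.Q.cell φ) * s' ^ p ≤ η := by
      by_cases hm : (S.Q.cell φ ∩ pre g (Icc lo hi)).Nonempty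
      · exact ⟨s, fun _ => le_rfl, k2 φ hm hφ⟩
      · exact ⟨0, fun h => (hm h).elim, by simp [ENNReal.zero_rpow_of_pos p0]⟩
    refine (cut hA hE hp hEst P (le_max_left _ _) (le_max_right _ _) hφ ht b1).trans
      (add_le_add (le_add_right (mul_le_mul_left ?_ _)) b2)
    exact_mod_cast le_add_self
  · obtain ⟨j, hj, hs⟩ := Y.deep φ ho
    exact hw φ j hφ (Or.inr ho) hj hs

theorem finc_of {p : ℝ} (hA : Api) (hp : 1 ≤ p) : FINC p := by
  intro Ω Λ S g lo hi o J Y η c θ 𝓢 ψ a hη hθ hc hM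
  have p0 : 0 < p := by linarith
  choose L hL using fun φ => (ψ φ).lipschitzWith_of_finiteDimensional
  have e1 : ∀ᶠ s : ℝ≥0 in 𝓝 0, ∀ φ ∈ {φ | (S.Q.cell φ ∩ pre g (Icc lo hi)).Nonempty},
      (1 + 3 * ediam (S.Q.cell φ)) * (s : ℝ≥0∞) ^ (1 : ℝ) ≤ η ∧
      2 ^ p * (L φ : ℝ≥0∞) ^ p * 4 * (s : ℝ≥0∞) ^ p ≤ η ∧ (φ ∈ 𝓢 → (s : ℝ) ≤ θ * a φ) := by
    refine (eventually_all_finite (fin_meet Y)).2 fun φ _ => ?_
    refine (ev_small ?_ hη one_pos).and ((ev_small ?_ hη p0).and ?_)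
    · exact ENNReal.add_ne_top.2 ⟨by simp, ENNReal.mul_ne_top (by simp)
        (isBounded_iff_ediam_ne_top.1 (S.Q.isCompact_cell φ).isBounded)⟩
    · exact ENNReal.mul_ne_top (ENNReal.mul_ne_top (ENNReal.rpow_ne_top_of_nonneg p0.le (by simp))
        (ENNReal.rpow_ne_top_of_nonneg p0.le ENNReal.coe_ne_top)) (by simp)
    · by_cases hφ : φ ∈ 𝓢
      · exact ((NNReal.continuous_coe.tendsto 0).eventually_le_const
          (mul_pos hθ (hM φ hφ).pos)).mono fun s hs _ => hs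
      · exact Eventually.of_forall fun s h => (hφ h).elim
  obtain ⟨s₀, h0, hs₀⟩ := exists_of_ev e1
  refine ⟨s₀, h0, fun s hs => ?_⟩
  intro ϑ C₁ CM₁ H h D hEst P
  refine ⟨fun e x y he hxy ho => ?_, fun φ hφ ho => ?_⟩
  · obtain ⟨j, hj, hs'⟩ := Y.deep e ho
    have k1 := (hs₀ s hs e (meet_of_sub (same_sub Y hs'))).1
    obtain ⟨k2, k3⟩ := (hEst.wire e j he hj hs').2 x y hxy
    rw [ENNReal.rpow_one] at k1
    refine sharp P (hxy ▸ same_sub Y hs') (le_trans ?_ k1) k2 k3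
    gcongr
    exact edist_le_ediam_of_mem (hxy ▸ left_mem_segment ℝ x y) (hxy ▸ right_mem_segment ℝ x y)
  · obtain ⟨j, -, hs'⟩ := Y.deep φ ho
    obtain ⟨-, k1, k2⟩ := hs₀ s hs φ (meet_of_sub (same_sub Y hs'))
    exact sharpF hA hp P (fun v hv => same_sub Y hs' ((hM φ hφ).cell ▸ mem_image_of_mem _ hv))
      (hL φ) hθ hc (hM φ hφ).pos (k2 hφ) k1 (hEst.sharp φ hφ ho)

end P073.St
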