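import Vale.Agent.P073Y.Top.Defs
import Vale.Agent.P073Z.PUSH.A
import Vale.Agent.P073Z.A2.PL

/-!
# The target side of a stage: the push and the ideal collapse
-/

open Set Metric Topology Filter
open scoped NNReal

namespace P073.St.Tg

open P073.Top

/-- clamp to `[u, v]` -/
def clp (u v s : ℝ) : ℝ := max u (min s v)

/-- the median of `w - d`, `v`, `w + d` -/
def med (w d v : ℝ) : ℝ := max (w - d) (min v (w + d))

/-- extension of `ζ` from `[l, u]` to the line, the identity off `[l - μ, u + μ]` -/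
noncomputable def ext (l u μ : ℝ) (ζ : ℝ → ℝ) (w : ℝ) : ℝ :=
  ζ (clp l u w) + (u + μ - ζ u) / μ * (clp u (u + μ) w - u) + (max w (u + μ) - (u + μ)) +
    (ζ l - (l - μ)) / μ * (clp (l - μ) l w - l) + (min w (l - μ) - (l - μ))

variable {l u μ w w' d d' v v' : ℝ} {ζ : ℝ → ℝ}

theorem clp_mono (u v : ℝ) {s s' : ℝ} (h : s ≤ s') : clp u v s ≤ clp u v s' :=
  max_le_max le_rfl (min_le_min h le_rfl)

theorem clp_of_le {u v s : ℝ} (h : s ≤ u) : clp u v s = u :=
  max_eq_left ((min_le_left _ _).trans h)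

theorem clp_of_ge {u v s : ℝ} (huv : u ≤ v) (h : v ≤ s) : clp u v s = v := by
  unfold clp; rw [min_eq_right h, max_eq_right huv]

theorem clp_of_mem {u v s : ℝ} (h1 : u ≤ s) (h2 : s ≤ v) : clp u v s = s := by
  unfold clp; rw [min_eq_left h2, max_eq_right h1]

theorem clp_mem {u v : ℝ} (huv : u ≤ v) (s : ℝ) : clp u v s ∈ Icc u v :=
  ⟨le_max_left _ _, max_le huv (min_le_right _ _)⟩

theorem split (hlu : l ≤ u) (hμ : 0 < μ) (w : ℝ) : w = clp l u w + (clp u (u + μ) w - u) +
    (max w (u + μ) - (u + μ)) + (clp (l - μ) l w - l) + (min w (l - μ) - (l - μ)) := by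
  unfold clp
  simp only [max_def, min_def]
  split_ifs <;> linarith

theorem ext_mem (hμ : 0 < μ) (h : w ∈ Icc l u) : ext l u μ ζ w = ζ w := by
  unfold ext
  rw [clp_of_mem h.1 h.2, clp_of_le h.2, max_eq_right (by linarith [h.2]),
    clp_of_ge (by linarith) h.1, min_eq_right (by linarith [h.1])]
  ring

theorem ext_ge (hlu : l ≤ u) (hμ : 0 < μ) (h : u + μ ≤ w) : ext l u μ ζ w = w := by
  unfold ext
  rw [clp_of_ge hlu (by linarith), clp_of_ge (by linarith) h, max_eq_left h,
    clp_of_ge (by linarith) (by linarith), min_eq_right (by linarith)]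
  field_simp
  ring

theorem ext_le (hlu : l ≤ u) (hμ : 0 < μ) (h : w ≤ l - μ) : ext l u μ ζ w = w := by
  unfold ext
  rw [clp_of_le (by linarith), clp_of_le (by linarith), max_eq_right (by linarith),
    clp_of_le h, min_eq_left h]
  field_simp
  ring

theorem ext_id (hlu : l ≤ u) (hμ : 0 < μ) (w : ℝ) : ext l u μ id w = w := by
  have h := split hlu hμ w
  unfold ext
  simp only [id]
  rw [show (u + μ - u) / μ = 1 by field_simp; ring, show (l - (l - μ)) / μ = 1 by field_simp; ring]
  linarith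

theorem ext_sub (l u μ : ℝ) (ζ : ℝ → ℝ) (w w' : ℝ) : ext l u μ ζ w' - ext l u μ ζ w =
    (ζ (clp l u w') - ζ (clp l u w)) +
    (u + μ - ζ u) / μ * (clp u (u + μ) w' - clp u (u + μ) w) +
    (max w' (u + μ) - max w (u + μ)) +
    (ζ l - (l - μ)) / μ * (clp (l - μ) l w' - clp (l - μ) l w) +
    (min w' (l - μ) - min w (l - μ)) := by
  unfold ext; ring

theorem ext_strictMono (hlu : l ≤ u) (hμ : 0 < μ) (hζ : StrictMonoOn ζ (Icc l u))
    (hu : ζ u < u + μ) (hl : l - μ < ζ l) : StrictMono (ext l u μ ζ) := by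
  intro w w' h
  have e := ext_sub l u μ ζ w w'
  have s1 := split hlu hμ w
  have s2 := split hlu hμ w'
  have d1 := clp_mono l u h.le
  have d2 := sub_nonneg.2 (clp_mono u (u + μ) h.le)
  have d3 : 0 ≤ max w' (u + μ) - max w (u + μ) := sub_nonneg.2 (max_le_max h.le le_rfl)
  have d4 := sub_nonneg.2 (clp_mono (l - μ) l h.le)
  have d5 : 0 ≤ min w' (l - μ) - min w (l - μ) := sub_nonneg.2 (min_le_min h.le le_rfl)
  have a1 : 0 < (u + μ - ζ u) / μ := div_pos (by linarith) hμ
  have a2 : 0 < (ζ l - (l - μ)) / μ := div_pos (by linarith) hμ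
  have m1 := hζ.monotoneOn (clp_mem hlu w) (clp_mem hlu w') d1
  have m2 := mul_nonneg a1.le d2
  have m4 := mul_nonneg a2.le d4
  by_contra hc
  have hc' := not_lt.1 hc
  have z1 : clp l u w = clp l u w' := by
    rcases d1.eq_or_lt with h1 | h1
    · exact h1
    · have := hζ (clp_mem hlu w) (clp_mem hlu w') h1
      linarith
  have z2 : clp u (u + μ) w' - clp u (u + μ) w = 0 := by
    rcases d2.eq_or_lt with h1 | h1
    · exact h1.symm
    · have := mul_pos a1 h1
      linarith
  have z4 : clp (l - μ) l w' - clp (l - μ) l w = 0 := by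
    rcases d4.eq_or_lt with h1 | h1
    · exact h1.symm
    · have := mul_pos a2 h1
      linarith
  linarith

theorem ext_lip {L : ℝ≥0} (hlu : l ≤ u) (hμ : 0 < μ) (hL : 1 ≤ L)
    (hζ : LipschitzOnWith L ζ (Icc l u)) (hu : |u + μ - ζ u| ≤ 10 * μ)
    (hl : |ζ l - (l - μ)| ≤ 10 * μ) (w w' : ℝ) :
    |ext l u μ ζ w' - ext l u μ ζ w| ≤ 10 * L * |w' - w| := by
  have hL' : (1 : ℝ) ≤ L := by exact_mod_cast hL
  wlog h : w ≤ w' generalizing w w'
  · rw [abs_sub_comm, abs_sub_comm w']
    exact this w' w (le_of_not_ge h)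
  have s1 := split hlu hμ w
  have s2 := split hlu hμ w'
  have d1 := sub_nonneg.2 (clp_mono l u h)
  have d2 := sub_nonneg.2 (clp_mono u (u + μ) h)
  have d3 : 0 ≤ max w' (u + μ) - max w (u + μ) := sub_nonneg.2 (max_le_max h le_rfl)
  have d4 := sub_nonneg.2 (clp_mono (l - μ) l h)
  have d5 : 0 ≤ min w' (l - μ) - min w (l - μ) := sub_nonneg.2 (min_le_min h le_rfl)
  have a1 : |(u + μ - ζ u) / μ| ≤ 10 := by
    rw [abs_div, abs_of_pos hμ, div_le_iff₀ hμ]; exact hu
  have a2 : |(ζ l - (l - μ)) / μ| ≤ 10 := by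
    rw [abs_div, abs_of_pos hμ, div_le_iff₀ hμ]; exact hl
  have m1 := hζ.dist_le_mul _ (clp_mem hlu w') _ (clp_mem hlu w)
  rw [Real.dist_eq, Real.dist_eq, abs_of_nonneg d1] at m1
  rw [ext_sub, abs_of_nonneg (sub_nonneg.2 h)]
  have es : w' - w = (clp l u w' - clp l u w) + (clp u (u + μ) w' - clp u (u + μ) w) +
      (max w' (u + μ) - max w (u + μ)) + (clp (l - μ) l w' - clp (l - μ) l w) +
      (min w' (l - μ) - min w (l - μ)) := by linarith
  rw [es]
  generalize clp l u w' - clp l u w = x1 at *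
  generalize clp u (u + μ) w' - clp u (u + μ) w = x2 at *
  generalize max w' (u + μ) - max w (u + μ) = x3 at *
  generalize clp (l - μ) l w' - clp (l - μ) l w = x4 at *
  generalize min w' (l - μ) - min w (l - μ) = x5 at *
  generalize (u + μ - ζ u) / μ = a at *
  generalize (ζ l - (l - μ)) / μ = b at *
  have b1 := abs_le.1 m1
  have b2 := abs_le.1 a1
  have b3 := abs_le.1 a2
  have n1 := mul_nonneg (sub_nonneg.2 hL') d1
  have n2 := mul_nonneg (sub_nonneg.2 hL') d2
  have n3 := mul_nonneg (sub_nonneg.2 hL') d3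
  have n4 := mul_nonneg (sub_nonneg.2 hL') d4
  have n5 := mul_nonneg (sub_nonneg.2 hL') d5
  have k1 := mul_le_mul_of_nonneg_right b2.1 d2
  have k2 := mul_le_mul_of_nonneg_right b2.2 d2
  have k3 := mul_le_mul_of_nonneg_right b3.1 d4
  have k4 := mul_le_mul_of_nonneg_right b3.2 d4
  rw [abs_le]
  constructor <;> nlinarith

theorem ext_close {ζ' : ℝ → ℝ} {ε : ℝ} (hlu : l ≤ u) (hμ : 0 < μ)
    (h : ∀ w ∈ Icc l u, |ζ w - ζ' w| ≤ ε) (w : ℝ) :
    |ext l u μ ζ w - ext l u μ ζ' w| ≤ 3 * ε := by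
  have h1 := abs_le.1 (h _ (clp_mem hlu w))
  have h2 := abs_le.1 (h u ⟨hlu, le_rfl⟩)
  have h3 := abs_le.1 (h l ⟨le_rfl, hlu⟩)
  have c2 := clp_mem (show u ≤ u + μ by linarith) w
  have c4 := clp_mem (show l - μ ≤ l by linarith) w
  have e : ext l u μ ζ w - ext l u μ ζ' w = (ζ (clp l u w) - ζ' (clp l u w)) -
      (ζ u - ζ' u) * ((clp u (u + μ) w - u) / μ) -
      (ζ l - ζ' l) * ((l - clp (l - μ) l w) / μ) := by
    unfold ext; ring
  have s1 : (clp u (u + μ) w - u) / μ ∈ Icc (0:ℝ) 1 :=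
    ⟨div_nonneg (by linarith [c2.1]) hμ.le, (div_le_one hμ).2 (by linarith [c2.2])⟩
  have s2 : (l - clp (l - μ) l w) / μ ∈ Icc (0:ℝ) 1 :=
    ⟨div_nonneg (by linarith [c4.2]) hμ.le, (div_le_one hμ).2 (by linarith [c4.1])⟩
  rw [e]
  generalize (clp u (u + μ) w - u) / μ = s at *
  generalize (l - clp (l - μ) l w) / μ = t at *
  have hε : 0 ≤ ε := by linarith [h2.1, h2.2]
  rw [abs_le]
  constructor <;> nlinarith [s1.1, s1.2, s2.1, s2.2, h1.1, h1.2, h2.1, h2.2, h3.1, h3.2]

theorem pl_clp (u v : ℝ) : PLOn (clp u v) univ := by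
  have hc := A2.conicalSet_univ (E := ℝ)
  exact A2.pl_max (A2.pl_const u hc) (A2.pl_min (A2.pl_id hc) (A2.pl_const v hc))

theorem pl_ext (l u μ : ℝ) (hζ : PLOn ζ univ) : PLOn (ext l u μ ζ) univ := by
  have hc := A2.conicalSet_univ (E := ℝ)
  exact A2.pl_add (A2.pl_add (A2.pl_add (A2.pl_add (A2.pl_comp_univ hζ (pl_clp l u))
    (A2.pl_mul _ (A2.pl_sub (pl_clp _ _) (A2.pl_const _ hc))))
    (A2.pl_sub (A2.pl_max (A2.pl_id hc) (A2.pl_const _ hc)) (A2.pl_const _ hc)))
    (A2.pl_mul _ (A2.pl_sub (pl_clp _ _) (A2.pl_const _ hc))))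
    (A2.pl_sub (A2.pl_min (A2.pl_id hc) (A2.pl_const _ hc)) (A2.pl_const _ hc))

/-! ### the collapse of the line -/

/-- the collapse of `[l, u]` to its midpoint -/
noncomputable def col (l u μ : ℝ) : ℝ → ℝ := ext l u μ fun _ => (l + u) / 2

theorem col_up (hlu : l ≤ u) (hμ : 0 < μ) (h : (l + u) / 2 ≤ w) :
    (l + u) / 2 ≤ col l u μ w ∧ col l u μ w ≤ w := by
  rcases le_total w u with h1 | h1
  · rw [col, ext_mem hμ ⟨by linarith, h1⟩]
    exact ⟨le_rfl, h⟩
  rcases le_total (u + μ) w with h2 | h2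
  · rw [col, ext_ge hlu hμ h2]
    exact ⟨h, le_rfl⟩
  have e : col l u μ w = (l + u) / 2 + (u + μ - (l + u) / 2) * ((w - u) / μ) := by
    unfold col ext
    rw [clp_of_mem h1 h2, max_eq_right h2,
      clp_of_ge (show l - μ ≤ l by linarith) (show l ≤ w by linarith),
      min_eq_right (show l - μ ≤ w by linarith)]
    ring
  have s0 : 0 ≤ (w - u) / μ := div_nonneg (by linarith) hμ.le
  have s1 : (w - u) / μ ≤ 1 := (div_le_one hμ).2 (by linarith)
  have s2 : μ * ((w - u) / μ) = w - u := by field_simp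
  rw [e]
  constructor <;> nlinarith

theorem col_down (hlu : l ≤ u) (hμ : 0 < μ) (h : w ≤ (l + u) / 2) :
    col l u μ w ≤ (l + u) / 2 ∧ w ≤ col l u μ w := by
  rcases le_total l w with h1 | h1
  · rw [col, ext_mem hμ ⟨h1, by linarith⟩]
    exact ⟨le_rfl, h⟩
  rcases le_total w (l - μ) with h2 | h2
  · rw [col, ext_le hlu hμ h2]
    exact ⟨h, le_rfl⟩
  have e : col l u μ w = (l + u) / 2 - ((l + u) / 2 - (l - μ)) * ((l - w) / μ) := by
    unfold col ext
    rw [clp_of_mem h2 h1, max_eq_right (by linarith), clp_of_le (show w ≤ u by linarith),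
      min_eq_right h2]
    ring
  have s0 : 0 ≤ (l - w) / μ := div_nonneg (by linarith) hμ.le
  have s1 : (l - w) / μ ≤ 1 := (div_le_one hμ).2 (by linarith)
  have s2 : μ * ((l - w) / μ) = l - w := by field_simp
  rw [e]
  constructor <;> nlinarith

theorem col_slope_up (hlu : l ≤ u) (hμ : 0 < μ) (h : (l + u) / 2 < col l u μ w) (hw : w ≤ w') :
    w' - w ≤ col l u μ w' - col l u μ w := by
  have hu : u ≤ w := by
    by_contra hc
    have hc' := not_le.1 hc
    rcases le_total w ((l + u) / 2) with h1 | h1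
    · linarith [(col_down hlu hμ h1).1]
    · rw [col, ext_mem hμ ⟨by linarith, hc'.le⟩] at h
      exact lt_irrefl _ h
  have s1 := split hlu hμ w
  have s2 := split hlu hμ w'
  have d2 := sub_nonneg.2 (clp_mono u (u + μ) hw)
  have a1 : 1 ≤ (u + μ - (l + u) / 2) / μ := by rw [one_le_div hμ]; linarith
  have m := mul_le_mul_of_nonneg_right a1 d2
  unfold col
  rw [ext_sub]
  rw [clp_of_ge hlu hu, clp_of_ge (show l - μ ≤ l by linarith) (show l ≤ w by linarith),
    min_eq_right (show l - μ ≤ w by linarith)] at s1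
  rw [clp_of_ge hlu (hu.trans hw), clp_of_ge (show l - μ ≤ l by linarith) (show l ≤ w' by linarith),
    min_eq_right (show l - μ ≤ w' by linarith)] at s2
  rw [clp_of_ge (show l - μ ≤ l by linarith) (show l ≤ w' by linarith),
    min_eq_right (show l - μ ≤ w' by linarith),
    clp_of_ge (show l - μ ≤ l by linarith) (show l ≤ w by linarith),
    min_eq_right (show l - μ ≤ w by linarith)]
  linarith

theorem col_slope_down (hlu : l ≤ u) (hμ : 0 < μ) (h : col l u μ w' < (l + u) / 2) (hw : w ≤ w') :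
    w' - w ≤ col l u μ w' - col l u μ w := by
  have hl : w' ≤ l := by
    by_contra hc
    have hc' := not_le.1 hc
    rcases le_total ((l + u) / 2) w' with h1 | h1
    · linarith [(col_up hlu hμ h1).1]
    · rw [col, ext_mem hμ ⟨hc'.le, by linarith⟩] at h
      exact lt_irrefl _ h
  have s1 := split hlu hμ w
  have s2 := split hlu hμ w'
  have d4 := sub_nonneg.2 (clp_mono (l - μ) l hw)
  have a1 : 1 ≤ ((l + u) / 2 - (l - μ)) / μ := by rw [one_le_div hμ]; linarith
  have m := mul_le_mul_of_nonneg_right a1 d4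
  unfold col
  rw [ext_sub]
  rw [clp_of_le (hw.trans hl), clp_of_le (show w ≤ u by linarith),
    max_eq_right (show w ≤ u + μ by linarith)] at s1
  rw [clp_of_le hl, clp_of_le (show w' ≤ u by linarith),
    max_eq_right (show w' ≤ u + μ by linarith)] at s2
  rw [clp_of_le (show w ≤ u by linarith), clp_of_le (show w' ≤ u by linarith),
    max_eq_right (show w ≤ u + μ by linarith), max_eq_right (show w' ≤ u + μ by linarith)]
  linarith

/-! ### medians -/

theorem med_self (hd : 0 ≤ d) : med w d w = w := by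
  unfold med
  rw [min_eq_left (by linarith), max_eq_right (by linarith)]

theorem med_zero (w v : ℝ) : med w 0 v = w := by
  unfold med
  rw [sub_zero, add_zero, max_eq_left (min_le_right _ _)]

theorem med_of_le (h : |v - w| ≤ d) : med w d v = v := by
  have := abs_le.1 h
  unfold med
  rw [min_eq_left (by linarith), max_eq_right (by linarith)]

theorem med_sub_le {a : ℝ} (h1 : |w - w'| + |d - d'| ≤ a) (h2 : |v - v'| ≤ a) :
    |med w d v - med w' d' v'| ≤ a := by
  have e1 : |w - d - (w' - d')| ≤ a := by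
    refine le_trans ?_ h1
    rw [show w - d - (w' - d') = (w - w') - (d - d') by ring]
    exact abs_sub _ _
  have e2 : |w + d - (w' + d')| ≤ a := by
    refine le_trans ?_ h1
    rw [show w + d - (w' + d') = (w - w') + (d - d') by ring]
    exact abs_add_le _ _
  exact (abs_max_sub_max_le_max _ _ _ _).trans
    (max_le e1 ((abs_min_sub_min_le_max _ _ _ _).trans (max_le h2 e2)))

theorem med_mem {m : ℝ} (hd : 0 ≤ d) (h : v ∈ uIcc m w) : med w d v ∈ uIcc m w := by
  unfold med
  rcases le_total m w with h1 | h1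
  · rw [uIcc_of_le h1] at h ⊢
    rw [min_eq_left (by linarith [h.2])]
    exact ⟨le_max_of_le_right h.1, max_le (by linarith) h.2⟩
  · rw [uIcc_of_ge h1] at h ⊢
    rw [max_eq_right (le_min (by linarith [h.1]) (by linarith))]
    exact ⟨le_min h.1 (by linarith), min_le_of_left_le h.2⟩

theorem col_mem (hlu : l ≤ u) (hμ : 0 < μ) (w : ℝ) : col l u μ w ∈ uIcc ((l + u) / 2) w := by
  rcases le_total ((l + u) / 2) w with h | h
  · rw [uIcc_of_le h]; exact col_up hlu hμ h
  · rw [uIcc_of_ge h]; exact ⟨(col_down hlu hμ h).2, (col_down hlu hμ h).1⟩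

theorem med_col_inv (hlu : l ≤ u) (hμ : 0 < μ) (hd : 0 ≤ d) (hd' : 0 ≤ d')
    (h : 0 < (med w d (col l u μ w) - (l + u) / 2) * (med w' d' (col l u μ w') - (l + u) / 2)) :
    |w - w'| ≤ |med w d (col l u μ w) - med w' d' (col l u μ w')| + |d - d'| := by
  wlog hw : w ≤ w' generalizing w w' d d'
  · rw [abs_sub_comm w, abs_sub_comm (med w d _), abs_sub_comm d]
    exact this hd' hd (by rwa [mul_comm]) (le_of_not_ge hw)
  have m1 := med_mem hd (col_mem hlu hμ w)
  have m2 := med_mem hd' (col_mem hlu hμ w')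
  have a1 := neg_le_abs (med w d (col l u μ w) - med w' d' (col l u μ w'))
  have a2 := neg_le_abs (d - d')
  have a3 := le_abs_self (d - d')
  rw [abs_sub_comm w, abs_of_nonneg (sub_nonneg.2 hw)]
  rcases mul_pos_iff.1 h with ⟨p1, p2⟩ | ⟨p1, p2⟩
  · have w1 : (l + u) / 2 ≤ w := by
      by_contra hc
      rw [uIcc_of_ge (not_le.1 hc).le] at m1
      linarith [m1.2]
    have c1 := col_up hlu hμ w1
    have c2 := col_up hlu hμ (w1.trans hw)
    have e1 : med w d (col l u μ w) = max (w - d) (col l u μ w) := by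
      unfold med; rw [min_eq_left (by linarith [c1.2])]
    have e2 : med w' d' (col l u μ w') = max (w' - d') (col l u μ w') := by
      unfold med; rw [min_eq_left (by linarith [c2.2])]
    have l1 := le_max_left (w' - d') (col l u μ w')
    have l2 := le_max_right (w' - d') (col l u μ w')
    rw [← e2] at l1 l2
    rcases le_total (w - d) (col l u μ w) with h1 | h1
    · rw [max_eq_right h1] at e1
      have := col_slope_up hlu hμ (by linarith) hw
      linarith [abs_nonneg (d - d')]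
    · rw [max_eq_left h1] at e1
      linarith
  · have w1 : w' ≤ (l + u) / 2 := by
      by_contra hc
      rw [uIcc_of_le (not_le.1 hc).le] at m2
      linarith [m2.1]
    have c1 := col_down hlu hμ (hw.trans w1)
    have c2 := col_down hlu hμ w1
    have e1 : med w d (col l u μ w) = min (col l u μ w) (w + d) := by
      unfold med; rw [max_eq_right (le_min (by linarith [c1.2]) (by linarith))]
    have e2 : med w' d' (col l u μ w') = min (col l u μ w') (w' + d') := by
      unfold med; rw [max_eq_right (le_min (by linarith [c2.2]) (by linarith))]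
    have l1 := min_le_left (col l u μ w) (w + d)
    have l2 := min_le_right (col l u μ w) (w + d)
    rw [← e1] at l1 l2
    rcases le_total (col l u μ w') (w' + d') with h1 | h1
    · rw [min_eq_left h1] at e2
      have := col_slope_down hlu hμ (by linarith) hw
      linarith [abs_nonneg (d - d')]
    · rw [min_eq_right h1] at e2
      linarith

/-! ### one step -/

/-- the distance of the coordinate `j` to the ends of the interval with margin -/
def mg (lo hi : E3) (μ : ℝ) (j : Fin 3) (y : E3) : ℝ := min (y j - lo j + μ) (hi j + μ - y j)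

/-- the room for the push in the direction `i` -/
def room (lo hi : E3) (μ : ℝ) (i : Fin 3) (y : E3) : ℝ :=
  20 * max 0 (min (mg lo hi μ (i + 1) y) (mg lo hi μ (i + 2) y))

/-- the push in the direction `i` -/
def step (lo hi : E3) (μ : ℝ) (e : Fin 3 → ℝ → ℝ) (i : Fin 3) (y : E3) : E3 :=
  Function.update y i (med (y i) (room lo hi μ i y) (e i (y i)))

variable {lo hi : E3} {e e' : Fin 3 → ℝ → ℝ} {i : Fin 3} {y y' : E3}

theorem room_nonneg (lo hi : E3) (μ : ℝ) (i : Fin 3) (y : E3) : 0 ≤ room lo hi μ i y :=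
  mul_nonneg (by norm_num) (le_max_left _ _)

theorem ne1 (i : Fin 3) : i + 1 ≠ i := by revert i; decide

theorem ne2 (i : Fin 3) : i + 2 ≠ i := by revert i; decide

theorem eq12 {i j : Fin 3} (h : j ≠ i) : j = i + 1 ∨ j = i + 2 := by revert i j; decide

theorem room_congr (h : ∀ j, j ≠ i → y j = y' j) : room lo hi μ i y = room lo hi μ i y' := by
  unfold room mg
  rw [h _ (ne1 i), h _ (ne2 i)]

theorem room_sub_le {a : ℝ} (h : ∀ j, j ≠ i → |y j - y' j| ≤ a) :
    |room lo hi μ i y - room lo hi μ i y'| ≤ 20 * a := by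
  have k : ∀ j, j ≠ i → |mg lo hi μ j y - mg lo hi μ j y'| ≤ a := fun j hj => by
    refine (abs_min_sub_min_le_max _ _ _ _).trans (max_le ?_ ?_)
    · rw [show y j - lo j + μ - (y' j - lo j + μ) = y j - y' j by ring]; exact h j hj
    · rw [show hi j + μ - y j - (hi j + μ - y' j) = -(y j - y' j) by ring, abs_neg]; exact h j hj
  have ha : 0 ≤ a := (abs_nonneg _).trans (h _ (ne1 i))
  unfold room
  rw [← mul_sub, abs_mul, abs_of_pos (by norm_num : (0:ℝ) < 20)]
  refine mul_le_mul_of_nonneg_left ?_ (by norm_num)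
  refine (abs_max_sub_max_le_max _ _ _ _).trans (max_le (by simpa using ha) ?_)
  exact (abs_min_sub_min_le_max _ _ _ _).trans (max_le (k _ (ne1 i)) (k _ (ne2 i)))

theorem room_zero {j : Fin 3} (hj : j ≠ i) (h : y j ≤ lo j - μ ∨ hi j + μ ≤ y j) :
    room lo hi μ i y = 0 := by
  have k : mg lo hi μ j y ≤ 0 := by
    rcases h with h | h
    · exact min_le_of_left_le (by linarith)
    · exact min_le_of_right_le (by linarith)
  unfold room
  rw [max_eq_left, mul_zero]
  rcases eq12 hj with rfl | rfl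
  · exact min_le_of_left_le k
  · exact min_le_of_right_le k

theorem room_ge (h : ∀ j, j ≠ i → lo j - μ / 2 ≤ y j ∧ y j ≤ hi j + μ / 2) :
    10 * μ ≤ room lo hi μ i y := by
  have k : ∀ j, j ≠ i → μ / 2 ≤ mg lo hi μ j y := fun j hj =>
    le_min (by linarith [(h j hj).1]) (by linarith [(h j hj).2])
  have := le_max_of_le_right (b := (0:ℝ)) (le_min (k _ (ne1 i)) (k _ (ne2 i)))
  unfold room
  linarith

theorem pl_room (lo hi : E3) (μ : ℝ) (i : Fin 3) : PLOn (room lo hi μ i) univ := by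
  have hc := A2.conicalSet_univ (E := E3)
  have k : ∀ j, PLOn (mg lo hi μ j) univ := fun j =>
    A2.pl_min (A2.pl_add (A2.pl_sub (A2.pl_proj j hc) (A2.pl_const _ hc)) (A2.pl_const _ hc))
      (A2.pl_sub (A2.pl_const _ hc) (A2.pl_proj j hc))
  exact A2.pl_mul 20 (A2.pl_max (A2.pl_const _ hc) (A2.pl_min (k _) (k _)))

theorem step_self : step lo hi μ e i y i = med (y i) (room lo hi μ i y) (e i (y i)) := by
  unfold step; rw [Function.update_self]

theorem step_ne {j : Fin 3} (h : j ≠ i) : step lo hi μ e i y j = y j := by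
  unfold step; rw [Function.update_of_ne h]

theorem step_dist {a : ℝ} (ha : 21 ≤ a) (he : ∀ w w', |e i w - e i w'| ≤ a * |w - w'|)
    (y y' : E3) : dist (step lo hi μ e i y) (step lo hi μ e i y') ≤ a * dist y y' := by
  have hd := dist_nonneg (x := y) (y := y')
  have k : ∀ j, |y j - y' j| ≤ dist y y' := fun j => dist_le_pi_dist y y' j
  refine (dist_pi_le_iff (by positivity)).2 fun j => ?_
  rw [Real.dist_eq]
  by_cases hj : j = i
  · subst hj
    rw [step_self, step_self]
    refine med_sub_le ?_ ((he _ _).trans (mul_le_mul_of_nonneg_left (k j) (by linarith)))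
    have := room_sub_le (lo := lo) (hi := hi) (μ := μ) (i := j) fun j _ => k j
    nlinarith [k j]
  · rw [step_ne hj, step_ne hj]
    nlinarith [k j]

theorem step_close {a : ℝ} (ha : 0 ≤ a) (he : ∀ w, |e i w - e' i w| ≤ a) (y : E3) :
    dist (step lo hi μ e i y) (step lo hi μ e' i y) ≤ a := by
  refine (dist_pi_le_iff ha).2 fun j => ?_
  rw [Real.dist_eq]
  by_cases hj : j = i
  · subst hj
    rw [step_self, step_self]
    exact med_sub_le (by simpa using ha) (he _)
  · rw [step_ne hj, step_ne hj]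
    simpa using ha

theorem mem_interior_mbox : y ∈ interior (mbox lo hi μ) ↔
    ∀ j, lo j - μ < y j ∧ y j < hi j + μ := by
  unfold mbox
  rw [← pi_univ_Icc, interior_pi_set finite_univ]
  simp [interior_Icc]

theorem step_off (he : ∀ w, w ≤ lo i - μ ∨ hi i + μ ≤ w → e i w = w)
    (h : y ∉ interior (mbox lo hi μ)) : step lo hi μ e i y = y := by
  rw [mem_interior_mbox] at h
  obtain ⟨j, hj⟩ := not_forall.1 h
  have hj' : y j ≤ lo j - μ ∨ hi j + μ ≤ y j := by
    by_contra hc
    rw [not_or, not_le, not_le] at hc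
    exact hj hc
  unfold step
  by_cases hji : j = i
  · subst hji
    rw [he _ hj', med_self (room_nonneg _ _ _ _ _), Function.update_eq_self]
  · rw [room_zero hji hj', med_zero, Function.update_eq_self]

theorem step_homeo (lo hi : E3) (μ : ℝ) (hp : PLOn (e i) univ) (hm : StrictMono (e i)) :
    ∃ Φ : ConHomeo (univ : Set E3) (univ : Set E3), ∀ y, Φ.toFun y = step lo hi μ e i y := by
  have hc := A2.conicalSet_univ (E := E3)
  have hr : ∀ (x : E3) s, room lo hi μ i (Function.update x i s) = room lo hi μ i x :=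
    fun x s => room_congr fun j hj => Function.update_of_ne hj _ _
  refine push_thm i (g := fun y => med (y i) (room lo hi μ i y) (e i (y i))) ?_ ?_ ?_
  · exact A2.pl_max (A2.pl_sub (A2.pl_proj i hc) (pl_room lo hi μ i))
      (A2.pl_min (A2.pl_comp_univ hp (A2.pl_proj i hc))
        (A2.pl_add (A2.pl_proj i hc) (pl_room lo hi μ i)))
  · intro x s t hst
    simp only [Function.update_self, hr]
    exact max_lt_max (by linarith) (min_lt_min (hm hst) (by linarith))
  · intro x
    simp only [Function.update_self, hr]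
    have hcont : Continuous (e i) := continuousOn_univ.1 hp.1
    refine Continuous.surjective ?_ ?_ ?_
    · unfold med; fun_prop
    · exact tendsto_atTop_mono (fun s => le_max_left _ _)
        (tendsto_atTop_add_const_right _ _ tendsto_id)
    · refine tendsto_atBot_mono (fun s => ?_)
        (tendsto_atBot_add_const_right _ (room lo hi μ i x) tendsto_id)
      exact max_le (by simp only [id]; linarith [room_nonneg lo hi μ i x]) (min_le_right _ _)

/-- the three pushes -/
def tri (lo hi : E3) (μ : ℝ) (e : Fin 3 → ℝ → ℝ) (y : E3) : E3 :=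
  step lo hi μ e 2 (step lo hi μ e 1 (step lo hi μ e 0 y))

theorem tri_dist {a : ℝ} (ha : 21 ≤ a) (he : ∀ i w w', |e i w - e i w'| ≤ a * |w - w'|)
    (y y' : E3) : dist (tri lo hi μ e y) (tri lo hi μ e y') ≤ a ^ 3 * dist y y' := by
  have h0 : 0 ≤ a := by linarith
  refine (step_dist ha (he 2) _ _).trans ?_
  refine (mul_le_mul_of_nonneg_left (step_dist ha (he 1) _ _) h0).trans ?_
  refine (mul_le_mul_of_nonneg_left (mul_le_mul_of_nonneg_left (step_dist ha (he 0) _ _) h0)
    h0).trans (le_of_eq (by ring))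

theorem tri_close {a : ℝ} (ha : 0 ≤ a) (he' : ∀ i w w', |e' i w - e' i w'| ≤ 21 * |w - w'|)
    (he : ∀ i w, |e i w - e' i w| ≤ a) (y : E3) :
    dist (tri lo hi μ e y) (tri lo hi μ e' y) ≤ 463 * a := by
  have h0 := step_close (lo := lo) (hi := hi) (μ := μ) ha (he 0) y
  have h1 := step_close (lo := lo) (hi := hi) (μ := μ) ha (he 1) (step lo hi μ e 0 y)
  have h2 := step_close (lo := lo) (hi := hi) (μ := μ) ha (he 2)
    (step lo hi μ e 1 (step lo hi μ e 0 y))
  have k1 := step_dist (lo := lo) (hi := hi) (μ := μ) le_rfl (he' 1) (step lo hi μ e 0 y)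
    (step lo hi μ e' 0 y)
  have k2 := step_dist (lo := lo) (hi := hi) (μ := μ) le_rfl (he' 2)
    (step lo hi μ e 1 (step lo hi μ e 0 y)) (step lo hi μ e' 1 (step lo hi μ e' 0 y))
  have t1 := dist_triangle (step lo hi μ e 1 (step lo hi μ e 0 y))
    (step lo hi μ e' 1 (step lo hi μ e 0 y)) (step lo hi μ e' 1 (step lo hi μ e' 0 y))
  have t2 := dist_triangle (tri lo hi μ e y)
    (step lo hi μ e' 2 (step lo hi μ e 1 (step lo hi μ e 0 y))) (tri lo hi μ e' y)
  unfold tri at t2 ⊢
  linarith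

theorem tri_off (he : ∀ i w, w ≤ lo i - μ ∨ hi i + μ ≤ w → e i w = w)
    (h : y ∉ interior (mbox lo hi μ)) : tri lo hi μ e y = y := by
  unfold tri
  rw [step_off (he 0) h, step_off (he 1) h, step_off (he 2) h]

theorem tri_apply (y : E3) (i : Fin 3) :
    ∃ d, 0 ≤ d ∧ tri lo hi μ e y i = med (y i) d (e i (y i)) := by
  unfold tri
  fin_cases i
  · exact ⟨_, room_nonneg _ _ _ _ _, by
      simp only [Fin.zero_eta]
      rw [step_ne (by decide), step_ne (by decide), step_self]⟩
  · exact ⟨_, room_nonneg _ _ _ _ _, by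
      simp only [Fin.mk_one]
      rw [step_ne (by decide), step_self, step_ne (by decide)]⟩
  · exact ⟨_, room_nonneg _ _ _ _ _, by
      simp only [Fin.reduceFinMk]
      rw [step_self, step_ne (by decide), step_ne (by decide)]⟩

theorem step_core (h : ∀ j, lo j - μ / 2 ≤ y j ∧ y j ≤ hi j + μ / 2)
    (h1 : |e i (y i) - y i| ≤ 10 * μ)
    (h2 : lo i - μ / 2 ≤ e i (y i) ∧ e i (y i) ≤ hi i + μ / 2) :
    step lo hi μ e i y = Function.update y i (e i (y i)) ∧
      ∀ j, lo j - μ / 2 ≤ step lo hi μ e i y j ∧ step lo hi μ e i y j ≤ hi j + μ / 2 := by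
  have e1 : step lo hi μ e i y = Function.update y i (e i (y i)) := by
    unfold step
    rw [med_of_le (h1.trans (room_ge fun j _ => h j))]
  refine ⟨e1, fun j => ?_⟩
  by_cases hj : j = i
  · subst hj
    rw [e1, Function.update_self]
    exact h2
  · rw [step_ne hj]; exact h j

theorem tri_core (hμ : 0 < μ) (hy : y ∈ Icc lo hi) (h1 : ∀ i, |e i (y i) - y i| ≤ 10 * μ)
    (h2 : ∀ i, lo i - μ / 2 ≤ e i (y i) ∧ e i (y i) ≤ hi i + μ / 2) (i : Fin 3) :
    tri lo hi μ e y i = e i (y i) := by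
  have s0 := step_core (fun j => ⟨by linarith [hy.1 j], by linarith [hy.2 j]⟩) (h1 0) (h2 0)
  have a1 : step lo hi μ e 0 y 1 = y 1 := step_ne (by decide)
  have s1 := step_core (i := 1) (e := e) s0.2 (by rw [a1]; exact h1 1) (by rw [a1]; exact h2 1)
  have a2 : step lo hi μ e 1 (step lo hi μ e 0 y) 2 = y 2 := by
    rw [step_ne (by decide), step_ne (by decide)]
  have s2 := step_core (i := 2) (e := e) s1.2 (by rw [a2]; exact h1 2) (by rw [a2]; exact h2 2)
  unfold tri
  rw [s2.1, a2, s1.1, a1, s0.1]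
  fin_cases i <;> simp

/-- the functions of the ideal collapse -/
noncomputable def ide (lo hi : E3) (μ : ℝ) (J : Finset (Fin 3)) (i : Fin 3) : ℝ → ℝ :=
  if i ∈ J then id else col (lo i) (hi i) μ

variable {J : Finset (Fin 3)}

theorem ide_lip (hμ : 0 < μ) (hle : ∀ i, lo i ≤ hi i) (hw : ∀ i, i ∉ J → hi i - lo i ≤ 16 * μ)
    (i : Fin 3) (w w' : ℝ) : |ide lo hi μ J i w - ide lo hi μ J i w'| ≤ 21 * |w - w'| := by
  unfold ide
  split_ifs with h
  · simp only [id]; linarith [abs_nonneg (w - w')]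
  · have h1 := hle i
    have h2 := hw i h
    have := ext_lip (L := 1) (ζ := fun _ => (lo i + hi i) / 2) h1 hμ le_rfl
      ((LipschitzWith.const' _).lipschitzOnWith) (abs_le.2 ⟨by linarith, by linarith⟩)
      (abs_le.2 ⟨by linarith, by linarith⟩) w' w
    simp only [NNReal.coe_one] at this
    unfold col
    linarith [abs_nonneg (w - w')]

theorem step_inv (hμ : 0 < μ) (hle : ∀ i, lo i ≤ hi i)
    (h : i ∉ J → 0 < (step lo hi μ (ide lo hi μ J) i y i - (lo i + hi i) / 2) *
      (step lo hi μ (ide lo hi μ J) i y' i - (lo i + hi i) / 2)) :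
    dist y y' ≤ 21 * dist (step lo hi μ (ide lo hi μ J) i y) (step lo hi μ (ide lo hi μ J) i y') := by
  set z := step lo hi μ (ide lo hi μ J) i y with hz
  set z' := step lo hi μ (ide lo hi μ J) i y' with hz'
  have hd := dist_nonneg (x := z) (y := z')
  have k : ∀ j, |z j - z' j| ≤ dist z z' := fun j => dist_le_pi_dist z z' j
  have k' : ∀ j, j ≠ i → |y j - y' j| ≤ dist z z' := fun j hj => by
    have := k j
    rwa [hz, hz', step_ne hj, step_ne hj] at this
  refine (dist_pi_le_iff (by positivity)).2 fun j => ?_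
  rw [Real.dist_eq]
  by_cases hj : j = i
  · subst hj
    have k1 := k j
    have k2 := room_sub_le (lo := lo) (hi := hi) (μ := μ) k'
    by_cases hJ : j ∈ J
    · rw [hz, hz', step_self, step_self, ide, if_pos hJ, id, id, med_self (room_nonneg _ _ _ _ _),
        med_self (room_nonneg _ _ _ _ _)] at k1
      linarith
    · have h1 := h hJ
      rw [hz, hz', step_self, step_self, ide, if_neg hJ] at k1 h1
      have := med_col_inv (hle j) hμ (room_nonneg _ _ _ _ _) (room_nonneg _ _ _ _ _) h1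
      linarith
  · linarith [k' j hj]

theorem coll (hμ : 0 < μ) (hle : ∀ i, lo i ≤ hi i) (hw : ∀ i, i ∉ J → hi i - lo i ≤ 16 * μ) :
    Coll lo hi μ J 10000 (tri lo hi μ (ide lo hi μ J)) where
  lip := LipschitzWith.of_dist_le_mul fun y y' => by
    have := tri_dist (lo := lo) (hi := hi) (μ := μ) le_rfl (ide_lip hμ hle hw) y y'
    have hd := dist_nonneg (x := y) (y := y')
    push_cast
    linarith
  off := fun y hy => tri_off (fun i w h => by
    unfold ide
    split_ifs
    · rfl
    · exact h.elim (ext_le (hle i) hμ) (ext_ge (hle i) hμ)) hy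
  fix := fun y i hi => by
    obtain ⟨d, hd, e⟩ := tri_apply (lo := lo) (μ := μ) (e := ide lo _ μ J) y i
    rw [e, ide, if_pos hi, id, med_self hd]
  mono := fun y i hi => by
    obtain ⟨d, hd, e⟩ := tri_apply (lo := lo) (μ := μ) (e := ide lo _ μ J) y i
    rw [e, ide, if_neg hi]
    exact med_mem hd (col_mem (hle i) hμ _)
  core := fun y hy i hJ => by
    have k : ∀ j, j ∉ J → ide lo hi μ J j (y j) = (lo j + hi j) / 2 := fun j hj => by
      rw [ide, if_neg hj, col, ext_mem hμ ⟨hy.1 j, hy.2 j⟩]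
    have k' : ∀ j ∈ J, ide lo hi μ J j (y j) = y j := fun j hj => by rw [ide, if_pos hj, id]
    rw [tri_core hμ hy, k i hJ]
    · intro j
      by_cases hj : j ∈ J
      · rw [k' j hj, sub_self, abs_zero]; positivity
      · rw [k j hj, abs_le]
        constructor <;> linarith [hy.1 j, hy.2 j, hw j hj]
    · intro j
      by_cases hj : j ∈ J
      · rw [k' j hj]
        constructor <;> linarith [hy.1 j, hy.2 j]
      · rw [k j hj]
        constructor <;> linarith [hle j]
  inv := fun y y' h => by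
    unfold tri at h ⊢
    have h2 := step_inv (i := 2) hμ hle (h 2)
    have h1 := step_inv (i := 1) (y := step lo hi μ (ide lo hi μ J) 0 y)
      (y' := step lo hi μ (ide lo hi μ J) 0 y') hμ hle (fun hJ => by
        have := h 1 hJ
        rwa [step_ne (i := 2) (by decide), step_ne (i := 2) (by decide)] at this)
    have h0 := step_inv (i := 0) (y := y) (y' := y') hμ hle (fun hJ => by
        have := h 0 hJ
        rwa [step_ne (i := 2) (by decide), step_ne (i := 2) (by decide),
          step_ne (i := 1) (by decide), step_ne (i := 1) (by decide)] at this)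
    have hd := dist_nonneg (x := step lo hi μ (ide lo hi μ J) 2 (step lo hi μ (ide lo hi μ J) 1
      (step lo hi μ (ide lo hi μ J) 0 y))) (y := step lo hi μ (ide lo hi μ J) 2
      (step lo hi μ (ide lo hi μ J) 1 (step lo hi μ (ide lo hi μ J) 0 y')))
    push_cast
    linarith

/-- a homeomorphism of the space which is the identity off `X` keeps every superset of `X` -/
theorem image_eq_of_off (Φ : ConHomeo (univ : Set E3) (univ : Set E3)) {X Y : Set E3}
    (h : ∀ y, y ∉ X → Φ.toFun y = y) (hXY : X ⊆ Y) : Φ.toFun '' Y = Y := by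
  have inj : ∀ y y', Φ.toFun y = Φ.toFun y' → y = y' :=
    fun y y' e => Φ.injOn (mem_univ y) (mem_univ y') e
  apply Subset.antisymm
  · rintro _ ⟨y, hy, rfl⟩
    by_contra hc
    have e := inj _ _ (h _ fun hx => hc (hXY hx))
    exact hc (by rw [e]; exact hy)
  · intro y hy
    refine ⟨Φ.invFun y, ?_, Φ.right_inv (mem_univ y)⟩
    by_contra hc
    have e := h _ fun hx => hc (hXY hx)
    rw [Φ.right_inv (mem_univ y)] at e
    exact hc (e ▸ hy)

end P073.St.Tg

namespace P073.St

open P073.Top Tg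

/-- the push `Φ` of the target which is `ζ` on the box, and the ideal collapse `Ψ` -/
theorem tgt {lo hi : E3} {μ ε : ℝ} {J : Finset (Fin 3)} {ζ : Fin 3 → ℝ → ℝ} {L : ℝ≥0}
    {Λ : Set E3} (hΛ : IsOpen Λ) (hsub : mbox lo hi μ ⊆ Λ) (hμ : 0 < μ) (hle : ∀ i, lo i ≤ hi i)
    (hw : ∀ i, i ∉ J → hi i - lo i ≤ 16 * μ) (hε : 2 * ε < μ) (hL : 1 ≤ L)
    (hp : ∀ i, PLOn (ζ i) univ) (hm : ∀ i, StrictMonoOn (ζ i) (Icc (lo i) (hi i)))
    (hl : ∀ i, LipschitzOnWith L (ζ i) (Icc (lo i) (hi i)))
    (hJ : ∀ i ∈ J, ∀ w ∈ Icc (lo i) (hi i), |ζ i w - w| ≤ ε)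
    (hJ' : ∀ i, i ∉ J → ∀ w ∈ Icc (lo i) (hi i), |ζ i w - (lo i + hi i) / 2| ≤ ε) :
    ∃ (Φ : ConHomeo Λ Λ) (Ψ : E3 → E3), Coll lo hi μ J 10000 Ψ ∧
      LipschitzWith (10000 * L ^ 3) Φ.toFun ∧
      (∀ y, y ∉ interior (mbox lo hi μ) → Φ.toFun y = y) ∧
      (∀ y ∈ Icc lo hi, ∀ i, Φ.toFun y i = ζ i (y i)) ∧
      ∀ y, dist (Φ.toFun y) (Ψ y) ≤ 10000 * ε := by
  have hL' : (1 : ℝ) ≤ L := by exact_mod_cast hL
  have b : ∀ i, ∀ w ∈ Icc (lo i) (hi i), |ζ i w - w| ≤ 9 * μ ∧ lo i - μ / 2 < ζ i w ∧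
      ζ i w < hi i + μ / 2 := fun i w hw' => by
    by_cases hi' : i ∈ J
    · have := abs_le.1 (hJ i hi' w hw')
      exact ⟨abs_le.2 ⟨by linarith, by linarith⟩, by linarith [hw'.1], by linarith [hw'.2]⟩
    · have := abs_le.1 (hJ' i hi' w hw')
      have h1 := hw i hi'
      exact ⟨abs_le.2 ⟨by linarith [hw'.2], by linarith [hw'.1]⟩, by linarith [hle i],
        by linarith [hle i]⟩
  have hε0 : 0 ≤ ε := by
    by_cases h0 : (0 : Fin 3) ∈ J
    · exact (abs_nonneg _).trans (hJ 0 h0 _ ⟨le_rfl, hle 0⟩)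
    · exact (abs_nonneg _).trans (hJ' 0 h0 _ ⟨le_rfl, hle 0⟩)
  set e : Fin 3 → ℝ → ℝ := fun i => ext (lo i) (hi i) μ (ζ i) with he
  have bl := fun i => b i _ ⟨le_rfl, hle i⟩
  have bu := fun i => b i _ ⟨hle i, le_rfl⟩
  have hom : ∀ i, ∃ Φ : ConHomeo (univ : Set E3) (univ : Set E3),
      ∀ y, Φ.toFun y = step lo hi μ e i y := fun i =>
    step_homeo lo hi μ (pl_ext _ _ _ (hp i)) (ext_strictMono (hle i) hμ (hm i)
      (by linarith [(bu i).2.2]) (by linarith [(bl i).2.1]))
  choose Φ hΦ using hom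
  have hT : ∀ y, (((Φ 0).trans (Φ 1)).trans (Φ 2)).toFun y = tri lo hi μ e y := fun y => by
    simp only [ConHomeo.trans_toFun, Function.comp, hΦ, tri]
  have off : ∀ y, y ∉ interior (mbox lo hi μ) → tri lo hi μ e y = y := fun y hy =>
    tri_off (fun i w h => h.elim (ext_le (hle i) hμ) (ext_ge (hle i) hμ)) hy
  have him := image_eq_of_off (((Φ 0).trans (Φ 1)).trans (Φ 2))
    (fun y hy => (hT y).trans (off y hy)) (interior_subset.trans hsub)
  have hfun : (((((Φ 0).trans (Φ 1)).trans (Φ 2)).restr (IsOpen.conicalSet hΛ) (subset_univ _)).cast rfl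
      him).toFun = tri lo hi μ e := funext hT
  refine ⟨((((Φ 0).trans (Φ 1)).trans (Φ 2)).restr (IsOpen.conicalSet hΛ) (subset_univ _)).cast rfl him,
    _, coll hμ hle hw, ?_, ?_, ?_, ?_⟩
  · rw [hfun]
    refine LipschitzWith.of_dist_le_mul fun y y' => ?_
    refine (tri_dist (a := 21 * L) (by linarith) (fun i w w' => ?_) y y').trans ?_
    · have h1 := abs_le.1 (bu i).1
      have h2 := abs_le.1 (bl i).1
      refine (ext_lip (hle i) hμ hL (hl i) (abs_le.2 ⟨by linarith, by linarith⟩)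
        (abs_le.2 ⟨by linarith, by linarith⟩) w' w).trans ?_
      exact mul_le_mul_of_nonneg_right (by linarith) (abs_nonneg _)
    · refine mul_le_mul_of_nonneg_right ?_ dist_nonneg
      have : (0:ℝ) ≤ (L:ℝ) ^ 3 := by positivity
      push_cast
      nlinarith
  · rw [hfun]; exact off
  · rw [hfun]
    intro y hy i
    have k : ∀ j, e j (y j) = ζ j (y j) := fun j => ext_mem hμ ⟨hy.1 j, hy.2 j⟩
    rw [tri_core hμ hy, k]
    · intro j
      rw [k]
      linarith [(b j _ ⟨hy.1 j, hy.2 j⟩).1]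
    · intro j
      rw [k]
      exact ⟨(b j _ ⟨hy.1 j, hy.2 j⟩).2.1.le, (b j _ ⟨hy.1 j, hy.2 j⟩).2.2.le⟩
  · rw [hfun]
    intro y
    refine (tri_close (a := 3 * ε) (by linarith) (ide_lip hμ hle hw) (fun i w => ?_) y).trans
      (by linarith)
    unfold ide
    split_ifs with h
    · rw [id, ← ext_id (hle i) hμ w]
      nth_rewrite 1 [ext_id (hle i) hμ w]
      exact ext_close (hle i) hμ (hJ i h) w
    · exact ext_close (hle i) hμ (hJ' i h) w

end P073.St
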