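import Vale.Agent.P073Y.St.Sk
import Vale.Agent.P073Y.St.Tgt
import Vale.Agent.P073Y.Rf.Glue
import Vale.Agent.P073Z.A1b

/-!
# The new homeomorphism
-/

open Set Metric Topology Filter
open scoped NNReal ENNReal

namespace P073.St

open P073.Top

namespace Ha

theorem coll_mono {lo hi : E3} {μ : ℝ} {J : Finset (Fin 3)} {C C' : ℝ≥0} {Ψ : E3 → E3}
    (h : Coll lo hi μ J C Ψ) (hC : C ≤ C') : Coll lo hi μ J C' Ψ where
  lip := h.lip.weaken hC
  off := h.off
  fix := h.fix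
  mono := h.mono
  core := h.core
  inv := fun y y' H => (h.inv y y' H).trans
    (mul_le_mul_of_nonneg_right (by exact_mod_cast hC) dist_nonneg)

theorem image_inv {Ω Λ Y : Set E3} (g : ConHomeo Ω Λ) (hY : Y ⊆ Λ) :
    g.symm.toFun '' Y = pre g Y := by
  apply Subset.antisymm
  · rintro _ ⟨y, hy, rfl⟩
    exact ⟨g.mapsTo_inv (hY hy), by
      show g.toFun (g.invFun y) ∈ Y
      rwa [g.right_inv (hY hy)]⟩
  · exact fun x hx => ⟨g.toFun x, hx.2, g.left_inv hx.1⟩

end Ha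

open Ha

theorem hat : HAT := by
  refine ⟨13310000, by norm_num, ?_⟩
  intro Ω Λ g lo hi μ ε J G ξ s hΩ hΛ hε hμ hlt hw hsub hs P
  have hRm : Icc lo hi ⊆ mbox lo hi μ := fun y hy =>
    ⟨fun i => by linarith [hy.1 i], fun i => by linarith [hy.2 i]⟩
  have hR : Icc lo hi ⊆ Λ := hRm.trans hsub
  have hloc : LocCone (Icc lo hi) := locCone_Icc_pi lo hi
  have him := image_inv g hR
  let γ : ConHomeo (Icc lo hi) (pre g (Icc lo hi)) :=
    (g.symm.restr hloc.conicalSet hR).cast rfl him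
  have hcpt : IsCompact (pre g (Icc lo hi)) := γ.isCompact_right isCompact_Icc
  have hlc : LocCone (pre g (Icc lo hi)) := by
    rw [← γ.image_eq]
    exact img isCompact_Icc hloc ⟨γ.cont, γ.conical⟩
  obtain ⟨M, hM⟩ := lip hcpt hlc ⟨G.cont, G.conical⟩
  obtain ⟨Ξ, x1, x2⟩ := Rf.glue (ι := Unit) (W := fun _ => Icc lo hi) (fun _ => γ.trans G) hΛ
    (fun _ => ⟨hR, isClosed_Icc, hloc⟩) (fun _ _ => ⟨univ, univ_mem, toFinite _⟩)
    (fun i j h => (h (Subsingleton.elim i j)).elim) (fun _ y hy => by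
      have hy' := hR (isClosed_Icc.frontier_subset hy)
      have e := g.right_inv hy'
      show G.toFun (g.invFun y) = y
      rw [P.bd ⟨g.mapsTo_inv hy', by rwa [e]⟩, e])
  have hG : ∀ x ∈ pre g (Icc lo hi), Ξ.toFun (g.toFun x) = G.toFun x := fun x hx => by
    rw [x1 () hx.2]
    show G.toFun (g.invFun (g.toFun x)) = G.toFun x
    rw [g.left_inv hx.1]
  have hout : ∀ x ∈ Ω, g.toFun x ∉ interior (Icc lo hi) → Ξ.toFun (g.toFun x) = g.toFun x :=
    fun x hx h => x2 _ (g.mapsTo hx) fun _ => h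
  have hs' : (0:ℝ) < s := by exact_mod_cast hs
  set B : ℝ := M + ‖hi - lo‖ + 1 with hB
  have hB1 : 1 ≤ B := by
    have := norm_nonneg (hi - lo)
    have := M.coe_nonneg
    linarith
  set σ : ℝ := min 1 (min (s:ℝ) ε) / B with hσ
  have hm : 0 < min 1 (min (s:ℝ) ε) := lt_min one_pos (lt_min hs' hε)
  have hσ0 : 0 < σ := div_pos hm (by linarith)
  have hσB : σ * B = min 1 (min (s:ℝ) ε) := div_mul_cancel₀ _ (by linarith)
  have hσ1 : σ ≤ 1 := by nlinarith [min_le_left 1 (min (s:ℝ) ε)]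
  have hσs : σ * B ≤ s := hσB ▸ (min_le_right _ _).trans (min_le_left _ _)
  have hσε : σ * B ≤ ε := hσB ▸ (min_le_right _ _).trans (min_le_right _ _)
  have hsm : ∀ k, ∀ w ∈ Icc (lo k) (hi k), |σ * (w - lo k)| ≤ σ * B := fun k w hw' => by
    have h1 : hi k - lo k ≤ ‖hi - lo‖ := (le_abs_self _).trans (norm_le_pi_norm (hi - lo) k)
    rw [abs_of_nonneg (mul_nonneg hσ0.le (sub_nonneg.2 hw'.1))]
    exact mul_le_mul_of_nonneg_left (by linarith [hw'.2, M.coe_nonneg]) hσ0.le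
  have hc := A2.conicalSet_univ (E := ℝ)
  obtain ⟨Φ, Ψ, c1, c2, c3, c4, c5⟩ := tgt (ζ := fun k w => ξ k w + σ * (w - lo k)) (L := 11)
    (ε := 2 * ε) hΛ hsub (by linarith) (fun i => (hlt i).le) hw (by linarith) (by norm_num)
    (fun k => A2.pl_add (P.pl k) (A2.pl_mul _ (A2.pl_sub (A2.pl_id hc) (A2.pl_const _ hc))))
    (fun k w _ w' _ h => by
      have h1 := P.mono k h.le
      have h2 := mul_pos hσ0 (sub_pos.2 h)
      show ξ k w + σ * (w - lo k) < ξ k w' + σ * (w' - lo k)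
      linarith)
    (fun k => LipschitzOnWith.of_dist_le_mul fun w _ w' _ => by
      have h1 := (P.lip k).dist_le_mul w w'
      rw [Real.dist_eq, Real.dist_eq] at h1 ⊢
      rw [show ξ k w + σ * (w - lo k) - (ξ k w' + σ * (w' - lo k)) =
        (ξ k w - ξ k w') + σ * (w - w') by ring]
      refine (abs_add_le _ _).trans ?_
      rw [abs_mul, abs_of_pos hσ0]
      have h2 := mul_le_mul_of_nonneg_right hσ1 (abs_nonneg (w - w'))
      push_cast at h1 ⊢
      linarith)
    (fun k hk w hw' => by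
      have h1 := abs_le.1 (P.near k hk w hw')
      have h2 := abs_le.1 (hsm k w hw')
      exact abs_le.2 ⟨by linarith [h1.1, h2.1], by linarith [h1.2, h2.2]⟩)
    (fun k hk w hw' => by
      have h2 := abs_le.1 (hsm k w hw')
      rw [P.const k hk]
      exact abs_le.2 ⟨by linarith [h2.1], by linarith [h2.2]⟩)
  have hh : ∀ x, (g.trans (Ξ.trans Φ)).toFun x = Φ.toFun (Ξ.toFun (g.toFun x)) := fun _ => rfl
  have hin : ∀ x ∈ pre g (Icc lo hi), ∀ k, (g.trans (Ξ.trans Φ)).toFun x k =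
      ξ k (G.toFun x k) + σ * (G.toFun x k - lo k) := fun x hx k => by
    rw [hh, hG x hx, c4 _ (G.mapsTo hx)]
  have c2' : LipschitzWith 13310000 Φ.toFun := c2.weaken (by norm_num)
  refine ⟨g.trans (Ξ.trans Φ), Ψ, fun x k => σ * (G.toFun x k - lo k),
    coll_mono c1 (by norm_num), fun x hx h => ?_, fun x hx => ?_,
    ⟨fun x hx => funext (hin x hx), ?_, fun x hx => ?_, fun x hx y hy h h' => ?_⟩⟩
  · rw [hh, hout x hx fun hc => h (interior_mono hRm hc), c3 _ h]
  · push_cast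
    by_cases hx' : g.toFun x ∈ Icc lo hi
    · refine (dist_pi_le_iff (by linarith)).2 fun k => ?_
      have hy := G.mapsTo (show x ∈ pre g (Icc lo hi) from ⟨hx, hx'⟩)
      have h2 := abs_le.1 (hsm k _ ⟨hy.1 k, hy.2 k⟩)
      rw [Real.dist_eq, hin x ⟨hx, hx'⟩]
      by_cases hk : k ∈ J
      · have h1 := abs_le.1 (P.drift x ⟨hx, hx'⟩ k hk)
        rw [c1.fix _ k hk]
        exact abs_le.2 ⟨by linarith [h1.1, h2.1], by linarith [h1.2, h2.2]⟩
      · rw [c1.core _ hx' k hk, P.const k hk]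
        exact abs_le.2 ⟨by linarith [h2.1], by linarith [h2.2]⟩
    · rw [hh, hout x hx fun hc => hx' (interior_subset hc)]
      linarith [c5 (g.toFun x)]
  · refine LipschitzOnWith.of_dist_le_mul fun x hx y hy => ?_
    have hd := dist_nonneg (x := x) (y := y)
    refine (dist_pi_le_iff (by positivity)).2 fun k => ?_
    have h1 := (dist_le_pi_dist (G.toFun x) (G.toFun y) k).trans (hM.dist_le_mul x hx y hy)
    rw [Real.dist_eq] at h1 ⊢
    rw [← mul_sub, abs_mul, abs_of_pos hσ0, sub_sub_sub_cancel_right]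
    refine (mul_le_mul_of_nonneg_left h1 hσ0.le).trans ?_
    rw [← mul_assoc]
    refine mul_le_mul_of_nonneg_right (le_trans ?_ hσs) hd
    exact mul_le_mul_of_nonneg_left (by linarith [norm_nonneg (hi - lo)]) hσ0.le
  · have hy := G.mapsTo hx
    exact (pi_norm_le_iff_of_nonneg hs'.le).2 fun k => (hsm k _ ⟨hy.1 k, hy.2 k⟩).trans hσs
  · rw [hh, hh, hout x hx h, hout y hy h']
    exact c2' _ _

end P073.St
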