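import Vale.Agent.P073Y.St.Sk
import Vale.Agent.P073Y.Cut.Box
import Vale.Agent.P073Z.TriU

/-!
# The aligned layers in the target box
-/

open Set Metric Topology Filter

namespace P073.St

open P073.Top

namespace Ly

/-- the form `y k - a` -/
noncomputable def frm (k : Fin 3) (a : ℝ) : E3 →ᵃ[ℝ] ℝ :=
  (LinearMap.proj k : E3 →ₗ[ℝ] ℝ).toAffineMap - AffineMap.const ℝ E3 a

theorem frm_apply (k : Fin 3) (a : ℝ) (y : E3) : frm k a y = y k - a := rfl

theorem neg_frm_apply (k : Fin 3) (a : ℝ) (y : E3) : (-frm k a) y = -(y k - a) := rfl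

/-- `y` lies on the same side of all planes as `x` -/
def Sd (A : Finset ℝ) (x y : E3) : Prop :=
  ∀ k, ∀ a ∈ A, (a ≤ x k → a ≤ y k) ∧ (x k ≤ a → y k ≤ a)

theorem Sd.eq {A : Finset ℝ} {x y : E3} (h : Sd A x y) {k : Fin 3} (hk : x k ∈ A) : y k = x k :=
  le_antisymm ((h k _ hk).2 le_rfl) ((h k _ hk).1 le_rfl)

/-- the complex which is cut out by the planes -/
theorem exists_grid (lo hi : E3) (A : Finset ℝ) (h1 : ∀ k, lo k ∈ A) (h2 : ∀ k, hi k ∈ A) :
    ∃ P : RCx E3, P.Cvx ∧ P.carrier = Icc lo hi ∧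
      ∀ c, ∀ x ∈ P.ocell c, ∀ y, y ∈ P.cell c ↔ Sd A x y := by
  classical
  obtain ⟨P, hP, hc, H⟩ := arr (E := E3) (μ := Unit) (fun _ => Icc lo hi)
    (fun _ => Finset.univ.image (fun k => frm k (hi k)) ∪
      Finset.univ.image fun k => -frm k (lo k))
    (fun _ => (Finset.univ ×ˢ A).image (fun q : Fin 3 × ℝ => frm q.1 q.2) ∪
      (Finset.univ ×ˢ A).image fun q : Fin 3 × ℝ => -frm q.1 q.2)
    (fun _ => by
      ext x
      constructor
      · intro hx ℓ hl
        rcases Finset.mem_union.1 hl with hl | hl <;>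
          obtain ⟨k, -, rfl⟩ := Finset.mem_image.1 hl
        · rw [frm_apply]
          linarith [hx.2 k]
        · rw [neg_frm_apply]
          linarith [hx.1 k]
      · intro hx
        refine ⟨fun k => ?_, fun k => ?_⟩
        · have h := hx _ (Finset.mem_union_right _
            (Finset.mem_image_of_mem _ (Finset.mem_univ k)))
          rw [neg_frm_apply] at h
          linarith
        · have h := hx _ (Finset.mem_union_left _
            (Finset.mem_image_of_mem _ (Finset.mem_univ k)))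
          rw [frm_apply] at h
          linarith)
    (fun _ => isCompact_Icc) (fun _ _ => ⟨univ, univ_mem, toFinite _⟩)
    (fun _ _ _ => Finset.union_subset_union
      (fun ℓ hl => by
        obtain ⟨k, -, rfl⟩ := Finset.mem_image.1 hl
        exact Finset.mem_image.2 ⟨(k, hi k), Finset.mk_mem_product (Finset.mem_univ k) (h2 k), rfl⟩)
      fun ℓ hl => by
        obtain ⟨k, -, rfl⟩ := Finset.mem_image.1 hl
        exact Finset.mem_image.2 ⟨(k, lo k), Finset.mk_mem_product (Finset.mem_univ k) (h1 k), rfl⟩)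
  rw [iUnion_const] at hc
  refine ⟨P, hP, hc, fun c x hx y => ?_⟩
  have hx' : x ∈ Icc lo hi := hc ▸ P.cell_subset_carrier c (P.ocell_subset c hx)
  rw [(H c x hx).2]
  constructor
  · intro h k a ha
    have h3 := h () hx' (frm k a) (Finset.mem_union_left _
      (Finset.mem_image.2 ⟨(k, a), Finset.mk_mem_product (Finset.mem_univ k) ha, rfl⟩))
    simpa only [frm_apply, sub_nonneg, sub_nonpos] using h3
  · intro h _ _ ℓ hl
    rcases Finset.mem_union.1 hl with hl | hl <;>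
      obtain ⟨⟨k, a⟩, hq, rfl⟩ := Finset.mem_image.1 hl
    · simpa only [frm_apply, sub_nonneg, sub_nonpos] using h k a (Finset.mem_product.1 hq).2
    · simpa only [neg_frm_apply, neg_sub, sub_nonneg, sub_nonpos] using
        (h k a (Finset.mem_product.1 hq).2).symm

/-- a fine set of values -/
theorem exists_vals (lo hi : E3) {o : ℝ} (ho : 0 < o) (B : Finset ℝ) :
    ∃ A : Finset ℝ, B ⊆ A ∧ ∀ x ∈ Icc lo hi, ∀ y y', Sd A x y → Sd A x y' → dist y y' ≤ o := by
  classical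
  obtain ⟨T, -, hT, hc⟩ := finite_cover_balls_of_compact (isCompact_Icc (a := lo) (b := hi))
    (half_pos ho)
  refine ⟨B ∪ ((hT.toFinset ×ˢ Finset.univ).image (fun q : E3 × Fin 3 => q.1 q.2 - o / 2) ∪
    (hT.toFinset ×ˢ Finset.univ).image fun q : E3 × Fin 3 => q.1 q.2 + o / 2),
    Finset.subset_union_left, fun x hx y y' hy hy' => ?_⟩
  obtain ⟨z, hz, hxz⟩ := mem_iUnion₂.1 (hc hx)
  rw [dist_pi_le_iff ho.le]
  intro k
  have h1 := abs_lt.1 ((dist_le_pi_dist x z k).trans_lt hxz)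
  have m : (z, k) ∈ hT.toFinset ×ˢ (Finset.univ : Finset (Fin 3)) :=
    Finset.mk_mem_product (hT.mem_toFinset.2 hz) (Finset.mem_univ k)
  have m1 := Finset.mem_union_right B (Finset.mem_union_left
    ((hT.toFinset ×ˢ Finset.univ).image fun q : E3 × Fin 3 => q.1 q.2 + o / 2)
    (Finset.mem_image_of_mem (fun q : E3 × Fin 3 => q.1 q.2 - o / 2) m))
  have m2 := Finset.mem_union_right B (Finset.mem_union_right
    ((hT.toFinset ×ˢ Finset.univ).image fun q : E3 × Fin 3 => q.1 q.2 - o / 2)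
    (Finset.mem_image_of_mem (fun q : E3 × Fin 3 => q.1 q.2 + o / 2) m))
  have a1 := (hy k _ m1).1 (by linarith [h1.1])
  have a2 := (hy k _ m2).2 (by linarith [h1.2])
  have a3 := (hy' k _ m1).1 (by linarith [h1.1])
  have a4 := (hy' k _ m2).2 (by linarith [h1.2])
  rw [Real.dist_eq, abs_le]
  constructor <;> linarith

theorem single_mem {A : Finset ℝ} {x : E3} {C : Set E3} (h : ∀ y, Sd A x y → y ∈ C) {k : Fin 3}
    (hk : x k ∉ A) : (Pi.single k 1 : E3) ∈ vectorSpan ℝ C := by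
  have h1 : ∀ᶠ s in 𝓝 (x k), ∀ a ∈ A, (a ≤ x k → a ≤ s) ∧ (x k ≤ a → s ≤ a) := by
    refine (eventually_all_finset A).2 fun a ha => ?_
    rcases lt_or_gt_of_ne (show a ≠ x k from fun e => hk (e ▸ ha)) with h2 | h2
    · exact (lt_mem_nhds h2).mono fun s hs => ⟨fun _ => hs.le, fun h3 => absurd h2 h3.not_gt⟩
    · exact (gt_mem_nhds h2).mono fun s hs => ⟨fun h3 => absurd h2 h3.not_gt, fun _ => hs.le⟩
  obtain ⟨s, hs, hne⟩ := ((h1.filter_mono (nhdsWithin_le_nhds (s := {x k}ᶜ))).and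
    self_mem_nhdsWithin).exists
  have h2 : Function.update x k s ∈ C := h _ fun j a ha => by
    rcases eq_or_ne j k with rfl | hj
    · rw [Function.update_self]
      exact hs a ha
    · rw [Function.update_of_ne hj]
      exact ⟨id, id⟩
  have h3 := (vectorSpan ℝ C).smul_mem (s - x k)⁻¹
    (vsub_mem_vectorSpan ℝ h2 (h x fun _ _ _ => ⟨id, id⟩))
  have h4 : (s - x k)⁻¹ • (Function.update x k s -ᵥ x) = (Pi.single k 1 : E3) := by
    funext j
    rcases eq_or_ne j k with rfl | hj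
    · rw [Pi.smul_apply, vsub_eq_sub, Pi.sub_apply, Function.update_self, Pi.single_eq_same,
        smul_eq_mul, inv_mul_cancel₀ (sub_ne_zero.2 hne)]
    · rw [Pi.smul_apply, vsub_eq_sub, Pi.sub_apply, Function.update_of_ne hj,
        Pi.single_eq_of_ne hj, sub_self, smul_zero]
  exact h4 ▸ h3

theorem two_le {V : Submodule ℝ E3} (h0 : (Pi.single 0 1 : E3) ∈ V)
    (h1 : (Pi.single 1 1 : E3) ∈ V) : 2 ≤ Module.finrank ℝ V := by
  have hm : ∀ j : Fin 2, Pi.basisFun ℝ (Fin 3) j.castSucc ∈ V := fun j => by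
    rw [Pi.basisFun_apply]
    fin_cases j
    exacts [h0, h1]
  have h : LinearIndependent ℝ fun j : Fin 2 => (⟨_, hm j⟩ : V) :=
    LinearIndependent.of_comp V.subtype
      ((Pi.basisFun ℝ (Fin 3)).linearIndependent.comp _ (Fin.castSucc_injective 2))
  simpa using h.fintype_card_le_finrank

theorem le_two {C : Set E3} {t : ℝ} (h : ∀ y ∈ C, y 2 = t) :
    Module.finrank ℝ (vectorSpan ℝ C) ≤ 2 := by
  have h1 : vectorSpan ℝ C ≤ LinearMap.ker (LinearMap.proj 2 : E3 →ₗ[ℝ] ℝ) := by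
    rw [vectorSpan_def, Submodule.span_le]
    rintro _ ⟨a, ha, b, hb, rfl⟩
    change a 2 - b 2 = 0
    rw [h a ha, h b hb, sub_self]
  have h2 : vectorSpan ℝ C ≠ ⊤ := fun e => by
    have h3 : (fun _ => 1 : E3) ∈ vectorSpan ℝ C := e ▸ Submodule.mem_top
    exact one_ne_zero (α := ℝ) (h1 h3)
  have h3 := Submodule.finrank_lt h2
  rw [Module.finrank_fin_fun] at h3
  omega

theorem near_rim {lo hi y : E3} {δ : ℝ} (hδ : 0 ≤ δ) (hy : y ∈ Icc lo hi)
    (h : y 2 ≤ lo 2 + δ ∨ hi 2 - δ ≤ y 2) : ∃ z ∈ Rim lo hi {0, 1}, dist y z ≤ δ := by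
  have key : ∀ t, t = lo 2 ∨ t = hi 2 → |y 2 - t| ≤ δ →
      ∃ z ∈ Rim lo hi {0, 1}, dist y z ≤ δ := fun t ht hd => by
    have h1 : lo 2 ≤ t ∧ t ≤ hi 2 := by
      rcases ht with rfl | rfl
      exacts [⟨le_rfl, (hy.1 2).trans (hy.2 2)⟩, ⟨(hy.1 2).trans (hy.2 2), le_rfl⟩]
    refine ⟨Function.update y 2 t, ⟨⟨fun j => ?_, fun j => ?_⟩, by decide, 2, by decide,
      by rwa [Function.update_self]⟩, (dist_pi_le_iff hδ).2 fun j => ?_⟩ <;>
      rcases eq_or_ne j 2 with rfl | hj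
    · rw [Function.update_self]
      exact h1.1
    · rw [Function.update_of_ne hj]
      exact hy.1 j
    · rw [Function.update_self]
      exact h1.2
    · rw [Function.update_of_ne hj]
      exact hy.2 j
    · rw [Function.update_self]
      exact hd
    · rw [Function.update_of_ne hj, dist_self]
      exact hδ
  rcases h with h | h
  · exact key _ (Or.inl rfl) (abs_le.2 ⟨by linarith [hy.1 2], by linarith⟩)
  · exact key _ (Or.inr rfl) (abs_le.2 ⟨by linarith, by linarith [hy.2 2]⟩)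

theorem mem_int {lo hi y : E3} (h : ∀ i, lo i < y i ∧ y i < hi i) : y ∈ interior (Icc lo hi) := by
  rw [← pi_univ_Icc, interior_pi_set finite_univ, mem_univ_pi]
  intro i
  rw [interior_Icc]
  exact h i

end Ly

open Ly

theorem lay : LAY := by
  classical
  intro lo hi o J ho hlh _
  obtain ⟨A, hB, hA⟩ := exists_vals lo hi ho
    (Finset.univ.image lo ∪ Finset.univ.image hi ∪ {lo 2 + o / 2, hi 2 - o / 2})
  have a1 : ∀ k, lo k ∈ A := fun k => hB (Finset.mem_union_left _ (Finset.mem_union_left _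
    (Finset.mem_image_of_mem _ (Finset.mem_univ k))))
  have a2 : ∀ k, hi k ∈ A := fun k => hB (Finset.mem_union_left _ (Finset.mem_union_right _
    (Finset.mem_image_of_mem _ (Finset.mem_univ k))))
  have a3 : lo 2 + o / 2 ∈ A := hB (Finset.mem_union_right _ (Finset.mem_insert_self _ _))
  have a4 : hi 2 - o / 2 ∈ A := hB (Finset.mem_union_right _
    (Finset.mem_insert_of_mem (Finset.mem_singleton_self _)))
  obtain ⟨P, hP, hc, H⟩ := exists_grid lo hi A a1 a2
  have hsub : ∀ c, P.cell c ⊆ Icc lo hi := fun c => hc ▸ P.cell_subset_carrier c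
  let W : Set P.ι := {c | J = {0, 1} ∧ ∃ x ∈ P.ocell c,
    (x 2 < lo 2 + o / 2 ∨ hi 2 - o / 2 < x 2) ∧ x 0 ∉ A ∧ x 1 ∉ A}
  have two : ∀ c ∈ W, 2 ≤ P.dim c := fun c ⟨_, x, hx, _, h0, h1⟩ => by
    rw [(hP c).2.2]
    exact two_le (single_mem (fun y => (H c x hx y).2) h0) (single_mem (fun y => (H c x hx y).2) h1)
  have lyr : ∀ c ∈ W, ∀ y ∈ P.cell c, y 2 ≤ lo 2 + o / 2 ∨ hi 2 - o / 2 ≤ y 2 :=
    fun c ⟨_, x, hx, h, _⟩ y hy => h.imp (fun h => ((H c x hx y).1 hy 2 _ a3).2 h.le)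
      fun h => ((H c x hx y).1 hy 2 _ a4).1 h.le
  refine ⟨{
    P := P
    cvx := hP
    fin := finite_univ_iff.1 ((P.finite_subset isCompact_Icc hc.ge).subset fun c _ => hsub c)
    carrier := hc
    sub := fun x hx => ?_
    W := W
    up := fun c ⟨hJ, x, hx, h2, h0, h1⟩ c' hcc => ?_
    two := two
    inn := {y | (∀ i, lo i < y i ∧ y i < hi i) ∧ lo 2 + o / 2 < y 2 ∧ y 2 < hi 2 - o / 2}
    inn_sub := fun y hy => mem_int hy.1
    disj := fun c hcW => disjoint_left.2 fun y hy hi' =>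
      (lyr c hcW y hy).elim hi'.2.1.not_ge hi'.2.2.not_ge
    deep := fun y hy => ⟨fun i => ⟨by linarith [(hy i).1], by linarith [(hy i).2]⟩,
      by linarith [(hy 2).1], by linarith [(hy 2).2]⟩
    out := fun y hy y' hy' hd => ?_
    rim := fun c hcW y hy => ?_
    diam := fun c ⟨_, x, hx, _⟩ y hy y' hy' => hA x (hsub c (P.ocell_subset c hx)) y y'
      ((H c x hx y).1 hy) ((H c x hx y').1 hy')
    Z := A
    Zfin := A.finite_toSet
    one := fun hJ c y hy hf => ?_ }⟩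
  · rw [Cut.Box.frontier_box] at hx ⊢
    obtain ⟨c, hxc⟩ := P.exists_ocell (hc ▸ hx.1)
    obtain ⟨i, hi'⟩ := hx.2
    refine ⟨c, P.ocell_subset c hxc, fun y hy => ⟨hsub c hy, i, ?_⟩⟩
    rwa [((H c x hxc y).1 hy).eq (hi'.elim (fun e => e ▸ a1 i) fun e => e ▸ a2 i)]
  · obtain ⟨x', hx'⟩ := P.ocell_nonempty c'
    have h := (H c' x' hx' x).1 (hcc (P.ocell_subset c hx))
    exact ⟨hJ, x', hx', h2.imp (fun h3 => not_le.1 fun h4 => h3.not_ge ((h 2 _ a3).1 h4))
      fun h3 => not_le.1 fun h4 => h3.not_ge ((h 2 _ a4).2 h4),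
      fun h3 => h0 (h.eq h3 ▸ h3), fun h3 => h1 (h.eq h3 ▸ h3)⟩
  · by_cases hJ : J = {0, 1}
    swap
    · exact Or.inr fun h => absurd h hJ
    subst hJ
    have hk : ∀ k, -o ≤ y k - y' k ∧ y k - y' k ≤ o := fun k =>
      abs_le.1 ((dist_le_pi_dist y y' k).trans hd)
    by_cases h2 : y' 2 ≤ lo 2 + 2 * o ∨ hi 2 - 2 * o ≤ y' 2
    · exact Or.inl (near_rim (by linarith) hy' h2)
    refine Or.inr fun _ => ?_
    by_contra h3
    have h4 : ∀ k ∈ ({0, 1} : Finset (Fin 3)), lo k + 2 * o < y' k ∧ y' k < hi k - 2 * o :=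
      fun k hk => ⟨not_le.1 fun h => h3 ⟨k, hk, Or.inl h⟩, not_le.1 fun h => h3 ⟨k, hk, Or.inr h⟩⟩
    rw [not_or, not_le, not_le] at h2
    have h5 : ∀ k, lo k + 2 * o < y' k ∧ y' k < hi k - 2 * o := fun k => by
      fin_cases k
      exacts [h4 0 (by decide), h4 1 (by decide), h2]
    exact hy ⟨fun i => ⟨by linarith [(hk i).1, (h5 i).1], by linarith [(hk i).2, (h5 i).2]⟩,
      by linarith [(hk 2).1, (h5 2).1], by linarith [(hk 2).2, (h5 2).2]⟩
  · rw [hcW.1]
    exact near_rim (by linarith) (hsub c hy)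
      ((lyr c hcW y hy).imp (fun h => by linarith) fun h => by linarith)
  · by_cases h0 : y 0 ∈ A
    · exact Or.inr ⟨0, by rw [hJ]; decide, h0⟩
    by_cases h1 : y 1 ∈ A
    · exact Or.inr ⟨1, by rw [hJ]; decide, h1⟩
    rw [Cut.Box.frontier_box] at hf
    obtain ⟨i, hi'⟩ := hf.2
    have hi2 : y i ∈ A := hi'.elim (fun e => e ▸ a1 i) fun e => e ▸ a2 i
    have e : i = 2 := by
      fin_cases i
      exacts [absurd hi2 h0, absurd hi2 h1, rfl]
    subst e
    have hW : c ∈ W := ⟨hJ, y, hy, hi'.imp (fun h => by linarith) fun h => by linarith, h0, h1⟩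
    refine Or.inl ⟨hW, le_antisymm ?_ (two c hW)⟩
    rw [(hP c).2.2]
    exact le_two fun z hz => ((H c y hy z).1 hz).eq hi2

end P073.St
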