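import Vale.Agent.P073Y.St.Sk

/-!
# Normalisation in one box: assembly of the blocks
-/

open Set Metric Topology Filter MeasureTheory
open scoped NNReal ENNReal

namespace P073.St

open P073.Top

theorem st1_of {p : ℝ} (hP : PICK) (hS : STP) (hE : ENG p) (hT : EST) : ST1 p := by
  obtain ⟨c, c', hc, hE⟩ := hE
  refine ⟨c, hc, fun θ h0 h1 => ?_⟩
  obtain ⟨CM, hT⟩ := hT θ c' h0 h1
  refine ⟨CM, fun ϑ k0 k1 => ?_⟩
  obtain ⟨K, hK, hP⟩ := hP (ϑ / 4) (by positivity) (by linarith)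
  refine ⟨⟨2 * K + 1, by positivity⟩, by
    change (1 : ℝ) ≤ 2 * K + 1
    linarith, ?_⟩
  intro Ω Λ S g lo hi o J Y s 𝓢 ψ a hs hm
  obtain ⟨s₁, hs₁, hT⟩ := hT Y s 𝓢 ψ a k0 k1 hs hm
  obtain ⟨A, d, hd, hA, hL, hF⟩ := hP Y s₁ s₁ hs₁ hs₁
  obtain ⟨hfit, hT⟩ := hT A d hd hA hF
  obtain ⟨G, hbd, hdr, hG⟩ := hE Y A d (fun k => if k ∈ J then lo k else (lo k + hi k) / 2)
    𝓢 ψ a h0 h1 hA hm hfit
  have ho := Y.pos
  have hstp := fun k (hk : k ∈ J) => hS hA.pos hA.le (by linarith : ϑ / 4 ≤ 1) (hL k hk)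
  have hnil : ∀ k, k ∉ J → ∀ y, stp (A k) d y = 0 := fun k hk y => by
    rw [stp, hA.nil k hk, Finset.sum_empty, mul_zero]
  have hKo : 2 * K * o ≤ (2 * K + 1) * o := by nlinarith
  refine ⟨G, fun k y => (if k ∈ J then lo k else (lo k + hi k) / 2) + stp (A k) d y, ⟨hbd,
    fun k => ?_, fun k => ?_, fun k => ?_, fun k hk y hy => ?_,
    fun k hk y => ?_, fun x hx k hk => ?_⟩, hT p c _ hG⟩
  · by_cases hk : k ∈ J
    · exact (hstp k hk).1.const_add _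
    · intro y y' _
      simp only [hnil k hk, le_refl]
  · by_cases hk : k ∈ J
    · exact ⟨continuousOn_const.add (hstp k hk).2.1.1,
        (conicalOn_const _ (IsOpen.conicalSet isOpen_univ)).add (hstp k hk).2.1.2⟩
    · simp only [hnil k hk]
      exact ⟨continuousOn_const, conicalOn_const _ (IsOpen.conicalSet isOpen_univ)⟩
  · refine LipschitzWith.of_dist_le_mul fun y y' => ?_
    rw [dist_add_left]
    by_cases hk : k ∈ J
    · exact (hstp k hk).2.2.1.dist_le_mul y y'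
    · rw [hnil k hk, hnil k hk, dist_self]
      positivity
  · simp only [if_pos hk]
    exact ((hstp k hk).2.2.2.2 y hy y ((hstp k hk).2.2.2.1 y)).trans hKo
  · simp only [if_neg hk, hnil k hk, add_zero]
  · obtain ⟨y, hy, hd, hk'⟩ := hdr x hx
    have e1 := (hstp k hk).2.2.2.2 (y k) ⟨hy.1 k, hy.2 k⟩ _ (hk' k)
    have e2 : |y k - g.toFun x k| ≤ o := (dist_le_pi_dist y (g.toFun x) k).trans hd
    simp only [if_pos hk]
    change _ ≤ (2 * K + 1) * o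
    have := abs_sub_le (lo k + stp (A k) d (G.toFun x k)) (y k) (g.toFun x k)
    linarith

theorem Coll.weaken {lo hi : E3} {μ : ℝ} {J : Finset (Fin 3)} {C C' : ℝ≥0} {Ψ : E3 → E3}
    (h : Coll lo hi μ J C Ψ) (hC : C ≤ C') : Coll lo hi μ J C' Ψ :=
  ⟨h.lip.weaken hC, h.off, h.fix, h.mono, h.core, fun y y' hy => (h.inv y y' hy).trans
    (mul_le_mul_of_nonneg_right (NNReal.coe_le_coe.2 hC) dist_nonneg)⟩

theorem stage0_of {p : ℝ} (h1 : LAY) (h2 : TRIC) (h3 : AMK) (h4 : SITE) (h5 : ST1 p) (h6 : HAT)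
    (h7 : FINB p) (h8 : FINC p) : STAGE0 p := by
  obtain ⟨c, hc, h5⟩ := h5
  obtain ⟨C₁, hC₁, h6⟩ := h6
  refine ⟨4 * c, by linarith, fun θ h0 hθ => ?_⟩
  obtain ⟨CM₁, h5⟩ := h5 θ h0 hθ
  obtain ⟨C, CM, hC, h7⟩ := h7 C₁ CM₁
  refine ⟨C, CM, hC₁.trans hC, fun ϑ k0 k1 => ?_⟩
  obtain ⟨K, hK, h5⟩ := h5 ϑ k0 k1
  have hK' : (1 : ℝ) ≤ K := hK
  have hC' : (1 : ℝ) ≤ C₁ := hC₁
  refine ⟨5 * C₁ * K, by
    change (1 : ℝ) ≤ 5 * C₁ * K
    nlinarith, ?_⟩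
  intro Ω Λ S g lo hi μ o J η 𝓢 ψ a hΩ hΛ hJ ho hμ hw hw' hsub hosc hη hm
  push_cast at hμ
  have e0 : 0 < (K : ℝ) * o := by positivity
  have e1 : 5 * ((K : ℝ) * o) ≤ μ := by nlinarith
  have e2 : 2 * o ≤ μ := by nlinarith
  have hbox : Icc lo hi ⊆ mbox lo hi μ :=
    Icc_subset_Icc (fun i => by linarith) fun i => by linarith
  have hlt : ∀ i, lo i < hi i := fun i => by linarith [hw i]
  obtain ⟨L⟩ := h1 lo hi o J ho (fun i => by linarith [hw i]) hJ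
  have := L.fin
  obtain ⟨τ⟩ := h2 S g L.P hΩ (by rw [L.carrier]; exact hbox.trans hsub)
  obtain ⟨am⟩ := h3 S g L τ
  obtain ⟨Y⟩ := h4 S g L τ am hlt ho hJ fun c hc =>
    hosc c (hc.mono (inter_subset_inter_right _ hbox))
  obtain ⟨s₁, hs₁, h7⟩ := h7 Y η hη
  obtain ⟨s₂, hs₂, h8⟩ := h8 Y η 𝓢 ψ a hη h0 (by linarith : 0 ≤ c) hm
  obtain ⟨G, ξ, hP, hE⟩ := h5 Y (min s₁ s₂) 𝓢 ψ a (lt_min hs₁ hs₂) hm
  obtain ⟨h, Ψ, D, q1, q2, q3, q4⟩ :=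
    h6 g G ξ (min s₁ s₂) hΩ hΛ e0 e1 hlt hw' hsub (lt_min hs₁ hs₂) hP
  obtain ⟨r1, r2, r3⟩ := h7 _ (min_le_left _ _) hE q4
  refine ⟨h, Ψ, Coll.weaken q1 hC, q2, fun x hx => (q3 x hx).trans ?_, r1, r2, r3,
    fun _ => h8 _ (min_le_right _ _) hE q4⟩
  push_cast
  nlinarith [mul_nonneg C₁.2 e0.le]

end P073.St
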