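import Vale.Agent.P073Y.Top.Defs
import Vale.Agent.P073Z.A2.PL

/-!
# Reduction of a stage to wall directions among the first two coordinates
-/

open Set Metric Topology Filter
open scoped NNReal ENNReal

namespace P073.St

open P073.Top

/-- the stage for the sets of directions which satisfy `H` -/
def STAGEH (p : ℝ) (H : Finset (Fin 3) → Prop) : Prop :=
  ∃ c : ℝ, 1 ≤ c ∧ ∀ θ : ℝ, 0 < θ → θ ≤ 1 / 1000 →
  ∃ (C : ℝ≥0) (CM : ℝ≥0 → ℝ≥0), 1 ≤ C ∧ ∀ ϑ : ℝ, 0 < ϑ → ϑ ≤ θ → ∃ K : ℝ≥0, 1 ≤ K ∧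
  ∀ {Ω Λ : Set E3} (S : Src Ω) (g : ConHomeo Ω Λ) (lo hi : E3) (μ o : ℝ) (J : Finset (Fin 3))
    (η : ℝ≥0∞) (𝓢 : Set S.Q.ι) (ψ : S.Q.ι → (E2 →ᵃ[ℝ] E3)) (a : S.Q.ι → ℝ),
  IsOpen Ω → IsOpen Λ → H J → 0 < o → K * o ≤ μ → (∀ i, lo i + μ ≤ hi i) →
  (∀ i, i ∉ J → hi i - lo i ≤ 16 * μ) → mbox lo hi μ ⊆ Λ → S.Osc g.toFun (mbox lo hi μ) o →
  0 < η → (∀ φ ∈ 𝓢, Marked S g.toFun θ φ (ψ φ) (a φ)) →
  ∃ (h : ConHomeo Ω Λ) (Ψ : E3 → E3), Coll lo hi μ J C Ψ ∧
    (∀ x ∈ Ω, g.toFun x ∉ interior (mbox lo hi μ) → h.toFun x = g.toFun x) ∧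
    (∀ x ∈ Ω, dist (h.toFun x) (Ψ (g.toFun x)) ≤ K * o) ∧
    (∀ e, S.Q.dim e = 1 → Away g.toFun (S.Q.cell e) (Rim lo hi J) (2 * o) →
      lipc h.toFun (S.Q.cell e) ≤ C * lipc g.toFun (S.Q.cell e) + η) ∧
    (∀ φ, S.Q.dim φ = 2 → Away g.toFun (S.Q.cell φ) (Rim lo hi J) (2 * o) →
      S.E p h.toFun φ ≤ C * S.E p g.toFun φ + CM (S.M φ) * S.W p g.toFun φ + η) ∧
    (∀ φ, S.Q.dim φ = 2 → Deep g.toFun (S.Q.cell φ) lo hi (2 * o) →
      S.E p h.toFun φ ≤ CM (S.M φ) * S.W p g.toFun φ + η) ∧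
    (J = {0, 1} →
      (∀ e x y, S.Q.dim e = 1 → S.Q.cell e = segment ℝ x y →
        Deep g.toFun (S.Q.cell e) lo hi (2 * o) →
          SharpE g.toFun h.toFun x y θ η ∧ Rise g.toFun h.toFun x y ϑ η) ∧
      ∀ φ ∈ 𝓢, Deep g.toFun (S.Q.cell φ) lo hi (2 * o) →
        SharpF p h.toFun (ψ φ) (a φ) θ c η)

namespace Pm

/-- the exchange of the coordinates `2` and `k` -/
def sw (k : Fin 3) (y : E3) : E3 := fun i => y (Equiv.swap 2 k i)

variable {k : Fin 3}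

@[simp] theorem sw_sw (y : E3) : sw k (sw k y) = y := by
  funext i; simp [sw]

theorem dist_sw_le (y y' : E3) : dist (sw k y) (sw k y') ≤ dist y y' :=
  (dist_pi_le_iff dist_nonneg).2 fun _ => dist_le_pi_dist y y' _

theorem dist_sw (y y' : E3) : dist (sw k y) (sw k y') = dist y y' :=
  le_antisymm (dist_sw_le y y') (by
    have := dist_sw_le (k := k) (sw k y) (sw k y')
    rwa [sw_sw, sw_sw] at this)

theorem edist_sw (y y' : E3) : edist (sw k y) (sw k y') = edist y y' := by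
  rw [edist_dist, edist_dist, dist_sw]

theorem cont_sw : Continuous (sw k) := continuous_pi fun _ => continuous_apply _

theorem pl_sw {X : Set E3} (hX : ConicalSet X) : PLOn (sw k) X :=
  A2.pl_pi hX fun _ => A2.pl_proj _ hX

/-- the exchange as a homeomorphism of sets -/
def con (k : Fin 3) {Λ : Set E3} (hΛ : IsOpen Λ) : ConHomeo Λ (sw k ⁻¹' Λ) where
  toFun := sw k
  invFun := sw k
  mapsTo := fun y hy => by simpa using hy
  mapsTo_inv := fun _ hy => hy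
  left_inv := fun y _ => sw_sw y
  right_inv := fun y _ => sw_sw y
  cont := cont_sw.continuousOn
  cont_inv := cont_sw.continuousOn
  conical := (pl_sw (IsOpen.conicalSet hΛ)).2

theorem mem_Icc_sw {lo hi y : E3} : sw k y ∈ Icc (sw k lo) (sw k hi) ↔ y ∈ Icc lo hi := by
  have key : ∀ {a b : E3}, sw k a ≤ sw k b ↔ a ≤ b := fun {a b} =>
    ⟨fun h i => by simpa [sw] using h (Equiv.swap 2 k i), fun h i => h _⟩
  simp only [mem_Icc, key]

theorem mem_mbox_sw {lo hi y : E3} {μ : ℝ} :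
    sw k y ∈ mbox (sw k lo) (sw k hi) μ ↔ y ∈ mbox lo hi μ :=
  mem_Icc_sw (lo := fun i => lo i - μ) (hi := fun i => hi i + μ)

theorem mem_int_sw {lo hi y : E3} {μ : ℝ} :
    sw k y ∈ interior (mbox (sw k lo) (sw k hi) μ) ↔ y ∈ interior (mbox lo hi μ) := by
  have key : ∀ {lo hi y : E3}, y ∈ interior (mbox lo hi μ) →
      sw k y ∈ interior (mbox (sw k lo) (sw k hi) μ) := fun {lo hi y} h => by
    rw [mem_interior_iff_mem_nhds] at h ⊢
    have h1 : sw k ⁻¹' mbox lo hi μ ∈ 𝓝 (sw k y) :=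
      cont_sw.continuousAt.preimage_mem_nhds (by rwa [sw_sw])
    exact mem_of_superset h1 fun z hz => by
      rw [← sw_sw (k := k) z]; exact mem_mbox_sw.2 hz
  refine ⟨fun h => ?_, key⟩
  have := key h
  rwa [sw_sw, sw_sw, sw_sw] at this

theorem lipc_sw (g : E3 → E3) (X : Set E3) : lipc (sw k ∘ g) X = lipc g X := by
  simp only [lipc, Function.comp, edist_sw]

theorem en_sw (d : ℕ) (p : ℝ) (g : E3 → E3) (X : Set E3) : En d p (sw k ∘ g) X = En d p g X := by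
  simp only [En, lipAt, Function.comp, edist_sw]

theorem W_sw {Ω : Set E3} (S : Src Ω) (p : ℝ) (g : E3 → E3) (φ : S.Q.ι) :
    S.W p (sw k ∘ g) φ = S.W p g φ := by
  simp only [Src.W, Src.A, lipc_sw]

/-- the directions after the exchange -/
def dir (k : Fin 3) (J : Finset (Fin 3)) : Finset (Fin 3) := J.map (Equiv.swap 2 k).toEmbedding

theorem mem_dir {J : Finset (Fin 3)} {i : Fin 3} : i ∈ dir k J ↔ Equiv.swap 2 k i ∈ J := by
  simp [dir, Finset.mem_map_equiv]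

theorem mem_rim {lo hi y : E3} {J : Finset (Fin 3)}
    (h : y ∈ Rim (sw k lo) (sw k hi) (dir k J)) : sw k y ∈ Rim lo hi J := by
  obtain ⟨h1, h2, i, hi1, hi2⟩ := h
  refine ⟨mem_Icc_sw.1 (by rwa [sw_sw]), by simpa [dir] using h2, Equiv.swap 2 k i,
    fun hc => hi1 (mem_dir.2 hc), ?_⟩
  simpa [sw] using hi2

theorem away_sw {lo hi : E3} {J : Finset (Fin 3)} {g : E3 → E3} {X : Set E3} {d : ℝ}
    (h : Away g X (Rim lo hi J) d) : Away (sw k ∘ g) X (Rim (sw k lo) (sw k hi) (dir k J)) d :=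
  fun x hx y hy => by
    have := h x hx _ (mem_rim hy)
    rwa [← dist_sw (k := k), sw_sw] at this

theorem coll_sw {lo hi : E3} {μ : ℝ} {J : Finset (Fin 3)} {C : ℝ≥0} {Ψ : E3 → E3}
    (h : Coll (sw k lo) (sw k hi) μ (dir k J) C Ψ) : Coll lo hi μ J C (sw k ∘ Ψ ∘ sw k) where
  lip := LipschitzWith.of_dist_le_mul fun y y' => by
    have := h.lip.dist_le_mul (sw k y) (sw k y')
    rwa [dist_sw, ← dist_sw (k := k)] at this
  off := fun y hy => by
    simp only [Function.comp]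
    rw [h.off _ fun hc => hy (mem_int_sw.1 hc), sw_sw]
  fix := fun y i hi => by
    have := h.fix (sw k y) (Equiv.swap 2 k i) (mem_dir.2 (by simpa using hi))
    simpa [sw] using this
  mono := fun y i hi => by
    have := h.mono (sw k y) (Equiv.swap 2 k i) fun hc => hi (by simpa using mem_dir.1 hc)
    simpa [sw] using this
  core := fun y hy i hi => by
    have := h.core (sw k y) (mem_Icc_sw.2 hy) (Equiv.swap 2 k i)
      fun hc => hi (by simpa using mem_dir.1 hc)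
    simpa [sw] using this
  inv := fun y y' H => by
    have := h.inv (sw k y) (sw k y') fun i hi => by
      have := H (Equiv.swap 2 k i) fun hc => hi (mem_dir.2 hc)
      simpa [sw] using this
    simp only [Function.comp]
    rwa [dist_sw, ← dist_sw (k := k) (Ψ _)] at this

end Pm

open Pm

/-- it is enough to treat walls in the directions `0` and `1` -/
theorem stage_of_two {p : ℝ} (H : STAGEH p fun J => (2 : Fin 3) ∉ J) : STAGE p := by
  obtain ⟨c, hc, H⟩ := H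
  refine ⟨c, hc, fun θ h0 h1 => ?_⟩
  obtain ⟨C, CM, hC, H⟩ := H θ h0 h1
  refine ⟨C, CM, hC, fun ϑ h2 h3 => ?_⟩
  obtain ⟨K, hK, H⟩ := H ϑ h2 h3
  refine ⟨K, hK, ?_⟩
  intro Ω Λ S g lo hi μ o J η 𝓢 ψ a hΩ hΛ hJ ho hμ hlo hw hm hosc hη hS
  by_cases h2J : (2 : Fin 3) ∈ J
  swap
  · exact H S g lo hi μ o J η 𝓢 ψ a hΩ hΛ h2J ho hμ hlo hw hm hosc hη hS
  obtain ⟨k, hk⟩ : ∃ k, k ∉ J := by
    by_contra hcon
    have : J = Finset.univ := Finset.eq_univ_of_forall fun k => by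
      by_contra hk; exact hcon ⟨k, hk⟩
    rw [this] at hJ
    simp at hJ
  obtain ⟨h, Ψ, c1, c2, c3, c4, c5, c6, -⟩ := H S (g.trans (con k hΛ)) (sw k lo) (sw k hi) μ o
    (dir k J) η ∅ ψ a hΩ (hΛ.preimage cont_sw) (fun hc => hk (by simpa using mem_dir.1 hc)) ho hμ
    (fun i => hlo _) (fun i hi => hw _ fun hc => hi (mem_dir.2 hc))
    (fun y hy => hm (mem_mbox_sw.1 (by rwa [sw_sw])))
    (fun c hc x hx y hy => by
      obtain ⟨_, ⟨u, hu, rfl⟩, hz⟩ := hc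
      exact (dist_sw _ _).trans_le (hosc c ⟨_, ⟨u, hu, rfl⟩, mem_mbox_sw.1 hz⟩ x hx y hy))
    hη (fun φ hφ => hφ.elim)
  have e1 : (g.trans (con k hΛ)).toFun = sw k ∘ g.toFun := rfl
  have e2 : (h.trans (con k hΛ).symm).toFun = sw k ∘ h.toFun := rfl
  rw [e1] at c2 c3 c4 c5 c6
  refine ⟨h.trans (con k hΛ).symm, _, coll_sw c1, ?_, ?_, ?_, ?_, ?_, ?_⟩
  · intro x hx hg
    rw [e2, Function.comp, c2 x hx fun hc => hg (mem_int_sw.1 hc), Function.comp, sw_sw]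
  · intro x hx
    rw [e2]
    exact (dist_sw _ _).trans_le (c3 x hx)
  · intro e he ha
    have := c4 e he (away_sw ha)
    rwa [e2, lipc_sw, ← lipc_sw (k := k) g.toFun]
  · intro φ hφ ha
    have := c5 φ hφ (away_sw ha)
    rw [W_sw] at this
    unfold Src.E at this ⊢
    rwa [e2, en_sw, ← en_sw (k := k) 2 p g.toFun]
  · intro φ hφ ha
    have := c6 φ hφ fun x hx i => ha x hx _
    rw [W_sw] at this
    unfold Src.E at this ⊢
    rwa [e2, en_sw]
  · intro hJ'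
    rw [hJ'] at h2J
    simp at h2J

end P073.St
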