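import Vale.Agent.P073Y.St.Sk
import Vale.Agent.P073Y.St.Perm

/-!
# Exchange of coordinates
-/

namespace P073.St

theorem perm : PERM := fun _ H => stage_of_two H

end P073.St
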