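import Vale.Agent.P073Y.St.Sk
import Vale.Agent.P073Y.Bd.Gen
import Vale.Agent.P073Z.SQ.Len

/-!
# Counting points on wires, the choice of the levels
-/

open Set Metric Topology Filter MeasureTheory
open scoped NNReal ENNReal

namespace P073.St

open P073.Bd (Gen1)
open P073.Top

theorem Pick.card_le_var {ι : Type} [DecidableEq ι] (F : ℝ → ℝ) (σ : ℝ → ι) (δ : ℝ≥0∞) (T : Finset ℝ)
    (H : ∀ t ∈ T, ∀ b ∈ T, ∀ a ∈ T, t ≤ b → b < a → σ t = σ a → δ ≤ edist (F b) (F a)) :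
    δ * T.card ≤ eVariationOn F T + δ * (T.image σ).card := by
  induction T using Finset.induction_on_max with
  | empty => simp
  | insert a T ha ih =>
    have ih' := ih fun t ht b hb c hc => H t (Finset.mem_insert_of_mem ht) b
      (Finset.mem_insert_of_mem hb) c (Finset.mem_insert_of_mem hc)
    rw [Finset.card_insert_of_notMem fun h => (ha a h).false, Finset.image_insert, Nat.cast_succ,
      mul_add, mul_one]
    by_cases h : σ a ∈ T.image σ
    · obtain ⟨t, ht, e⟩ := Finset.mem_image.1 h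
      have hb := T.max'_mem ⟨t, ht⟩
      have h1 := H t (Finset.mem_insert_of_mem ht) _ (Finset.mem_insert_of_mem hb) a
        (Finset.mem_insert_self _ _) (T.le_max' t ht) (ha _ hb) e
      have h2 := eVariationOn.add_le_union F (s := (T : Set ℝ)) (t := {T.max' ⟨t, ht⟩, a})
        fun x hx y hy => hy.elim (fun e => e ▸ T.le_max' x hx) fun e => e ▸ (ha x hx).le
      have h3 := eVariationOn.edist_le F (s := {T.max' ⟨t, ht⟩, a}) (mem_insert _ _)
        (mem_insert_of_mem _ rfl)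
      have h4 := eVariationOn.mono F (t := (T : Set ℝ) ∪ {T.max' ⟨t, ht⟩, a})
        (s := (insert a T : Finset ℝ)) (by
          rw [Finset.coe_insert]
          exact union_subset (subset_insert _ _) (pair_subset (mem_insert_of_mem _ hb)
            (mem_insert _ _)))
      rw [Finset.insert_eq_of_mem h]
      refine (add_le_add ih' (h1.trans h3)).trans ?_
      rw [add_right_comm]
      exact add_le_add (h2.trans h4) le_rfl
    · rw [Finset.card_insert_of_notMem h, Nat.cast_succ, mul_add, mul_one, ← add_assoc]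
      exact add_le_add (ih'.trans (add_le_add (eVariationOn.mono F
        (Finset.coe_subset.2 (Finset.subset_insert _ _))) le_rfl)) le_rfl

open Pick

theorem cnt : CNT := by
  intro f X hf
  classical
  by_cases hX : ∃ x y, X = segment ℝ x y
  swap
  · exact ⟨0, fun x y h => (hX ⟨x, y, h⟩).elim⟩
  obtain ⟨𝒮, h1, h2⟩ : ∃ 𝒮 : Finset (Finset E3), X = ⋃ s ∈ 𝒮, convexHull ℝ (s : Set E3) ∧
      ∀ s ∈ 𝒮, ∃ A : E3 →ᵃ[ℝ] ℝ, EqOn f A (convexHull ℝ (s : Set E3)) := by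
    obtain ⟨x, y, rfl⟩ := hX
    exact (stm (Sq.isCompact_segment x y) (Sq.locCone_segment x y) hf).imp fun _ h => h.2
  refine ⟨𝒮.card, fun x y hxy A δ hδ hA => ?_⟩
  by_cases hU : {u ∈ X | f u ∈ A}.Finite
  swap
  · rw [Infinite.ncard hU]; simp
  have e1 : ∀ u, ∃ s : ℝ, u ∈ X → s ∈ Icc (0:ℝ) 1 ∧ AffineMap.lineMap x y s = u := fun u => by
    by_cases hu : u ∈ X
    · obtain ⟨s, hs⟩ := (segment_eq_image_lineMap ℝ x y ▸ hxy ▸ hu :)
      exact ⟨s, fun _ => hs⟩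
    · exact ⟨0, fun h => (hu h).elim⟩
  have e2 : ∀ u, ∃ s : Finset E3, u ∈ X → s ∈ 𝒮 ∧ u ∈ convexHull ℝ (s : Set E3) := fun u => by
    by_cases hu : u ∈ X
    · obtain ⟨s, hs, h⟩ := mem_iUnion₂.1 (h1 ▸ hu :)
      exact ⟨s, fun _ => ⟨hs, h⟩⟩
    · exact ⟨∅, fun h => (hu h).elim⟩
  choose τ hτ using e1
  choose σ hσ using e2
  have hT : ∀ s ∈ hU.toFinset.image τ, s ∈ Icc (0:ℝ) 1 ∧ AffineMap.lineMap x y s ∈ X ∧
      f (AffineMap.lineMap x y s) ∈ A ∧ τ (AffineMap.lineMap x y s) = s := fun s hs => by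
    obtain ⟨u, hu, rfl⟩ := Finset.mem_image.1 hs
    rw [Finite.mem_toFinset] at hu
    rw [(hτ u hu.1).2]
    exact ⟨(hτ u hu.1).1, hu.1, hu.2, rfl⟩
  have key := card_le_var (fun s => f (AffineMap.lineMap x y s))
    (fun s => σ (AffineMap.lineMap x y s)) (ENNReal.ofReal δ) (hU.toFinset.image τ)
    fun t ht b hb a ha htb hba e => by
      obtain ⟨-, t1, -⟩ := hT t ht
      obtain ⟨-, b1, b2, b3⟩ := hT b hb
      obtain ⟨-, a1, a2, a3⟩ := hT a ha
      rw [edist_dist, Real.dist_eq]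
      refine ENNReal.ofReal_le_ofReal (hA _ b2 _ a2 fun h => hU.not_infinite ?_)
      obtain ⟨c1, c2⟩ := hσ _ a1
      obtain ⟨B, hB⟩ := h2 _ c1
      have c3 := (hσ _ t1).2
      rw [e] at c3
      have c4 : AffineMap.lineMap x y b ∈ convexHull ℝ (σ (AffineMap.lineMap x y a) : Set E3) :=
        ((convex_convexHull ℝ _).affine_preimage (AffineMap.lineMap x y)).ordConnected.out c3 c2
          ⟨htb, hba.le⟩
      have hne : AffineMap.lineMap x y b ≠ (AffineMap.lineMap x y a : E3) := fun h =>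
        hba.ne (by rw [← b3, h, a3])
      refine Infinite.mono ?_ ((Icc_infinite (zero_lt_one' ℝ)).image
        (AffineMap.lineMap_injective ℝ hne).injOn)
      rintro _ ⟨s, hs, rfl⟩
      have c5 := (convex_convexHull ℝ _).lineMap_mem c4 c2 hs
      refine ⟨h1 ▸ mem_biUnion c1 c5, ?_⟩
      rw [hB c5, B.apply_lineMap, ← hB c4, ← hB c2, h, AffineMap.lineMap_same_apply]
      exact a2
  rw [Finset.card_image_of_injOn fun u hu u' hu' e => by
    rw [← (hτ u (hU.mem_toFinset.1 hu).1).2, e, (hτ u' (hU.mem_toFinset.1 hu').1).2]] at key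
  rw [ncard_eq_toFinset_card _ hU]
  refine key.trans (add_le_add (eVariationOn.mono _ fun s hs => (hT s hs).1)
    (mul_le_mul_right (Nat.cast_le.2 (Finset.card_le_card fun s hs => ?_)) _))
  obtain ⟨t, ht, rfl⟩ := Finset.mem_image.1 hs
  exact (hσ _ (hT t ht).2.1).1

theorem Pick.plOn_coord {X Y Z : Set E3} (g : ConHomeo X Y) (hZ : ConicalSet Z) (h : Z ⊆ X)
    (k : Fin 3) : PLOn (fun x => g.toFun x k) Z :=
  ⟨(continuous_apply k).comp_continuousOn (g.cont.mono h),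
    (conicalOn_linear (LinearMap.proj k : E3 →ₗ[ℝ] ℝ) (IsOpen.conicalSet isOpen_univ)).comp
      (g.conical.mono hZ h) (mapsTo_univ _ _) (g.cont.mono h)⟩

theorem pick_of (hL : LEV) (hC : CNT) : PICK := by
  intro ϑ hϑ hϑ1
  obtain ⟨K, hK, h1⟩ := hL ϑ hϑ hϑ1
  refine ⟨K, hK, fun {Ω Λ S g lo hi o J} Y s d₁ hs hd₁ => ?_⟩
  classical
  have := Y.fin
  choose d₀ h2 h3 using fun k => h1 (lo k) (hi k) o Y.Z (Y.lt k).le Y.pos Y.Zfin
  choose m hm using fun (k : Fin 3) (e : S.Q.ι) => hC (plOn_coord g (S.Q.ball e).conicalSet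
    ((S.Q.cell_subset_carrier e).trans S.carrier.subset) k)
  have hfin : {e | S.Q.cell e ⊆ pre g (Icc lo hi)}.Finite :=
    S.Q.finite_subset Y.ball.isCompact ((sep_subset _ _).trans S.carrier.superset)
  obtain ⟨M, hM⟩ := (hfin.image fun e => m 0 e + m 1 e).bddAbove
  obtain ⟨d, hd⟩ : ∃ d, d = min (min d₁ o) (min (min (d₀ 0) (d₀ 1)) (s / (M + 1))) := ⟨_, rfl⟩
  have d0 : 0 < d := by
    have := Y.pos; have := h2 0; have := h2 1
    rw [hd]; positivity
  obtain ⟨⟨d1, d2⟩, ⟨d3, d4⟩, d5⟩ : (d ≤ d₁ ∧ d ≤ o) ∧ (d ≤ d₀ 0 ∧ d ≤ d₀ 1) ∧ d ≤ s / (M + 1) := by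
    simpa only [le_min_iff] using hd.le
  have hg : ∀ k, PLOn (fun x => g.toFun x k) Y.K.carrier := fun k => by
    rw [Y.carrier, ← Y.gC_eq]
    exact plOn_coord Y.gC Y.ball.conicalSet Subset.rfl k
  choose T hT hG using fun k => (Bd.gen Y.K (hg k)).1
  have one : ∀ k, d ≤ d₀ k → ∀ W : Set ℝ, W.Finite → ∃ A : Finset ℝ, (k ∉ J → A = ∅) ∧
      (k ∈ J → Levs (lo k) (hi k) o d ϑ K Y.Z A) ∧ ∀ t ∈ A, t ∉ W := fun k hk W hW => by
    by_cases hJ : k ∈ J
    · obtain ⟨A, a1, a2⟩ := h3 k d d0 hk W hW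
      exact ⟨A, fun h => (h hJ).elim, fun _ => a1, a2⟩
    · exact ⟨∅, fun _ => rfl, fun h => (hJ h).elim, by simp⟩
  obtain ⟨A₀, a1, a2, a3⟩ := one 0 d3 _ (hT 0)
  choose W hW hW' using fun t : A₀ => (Bd.gen Y.K (hg 1)).2 _ (hG 0 t (a3 t t.2))
  obtain ⟨A₁, b1, b2, b3⟩ := one 1 d4 _ ((hT 1).union (finite_iUnion hW))
  have c1 : ∀ k, k ∉ J → ![A₀, A₁, ∅] k = ∅ := fun k => by
    fin_cases k
    exacts [a1, b1, fun _ => rfl]
  have c2 : ∀ k ∈ J, Levs (lo k) (hi k) o d ϑ K Y.Z (![A₀, A₁, ∅] k) := fun k => by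
    fin_cases k
    exacts [a2, b2, fun h => (Y.notJ h).elim]
  have c3 : ∀ k, ∀ t ∈ ![A₀, A₁, ∅] k, Levs (lo k) (hi k) o d ϑ K Y.Z (![A₀, A₁, ∅] k) :=
    fun k t ht => c2 k (by_contra fun h => by simp [c1 k h] at ht)
  have c4 : ∀ k, ∀ t ∈ ![A₀, A₁, ∅] k, Gen1 Y.K {x ∈ pre g (Icc lo hi) | g.toFun x k = t} :=
    fun k => by
    rw [← Y.carrier]
    fin_cases k
    exacts [fun t ht => hG 0 t (a3 t ht), fun t ht => hG 1 t fun h => b3 t ht (Or.inl h),
      fun t ht => by simp at ht]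
  refine ⟨![A₀, A₁, ∅], d, d1, ⟨d0, d2, c1, fun k t ht => (c3 k t ht).far t ht,
    fun k t ht => (c3 k t ht).ins t ht, fun k t ht t' ht' h => ((c3 k t ht).sep t ht t' ht' h).trans
      (mul_le_mul_of_nonneg_right (by linarith) (abs_nonneg _)), c4, fun t ht t' ht' => ?_⟩, c2,
    fun e x y he hsk => ?_⟩
  · have := hW' ⟨t, ht⟩ t' fun h => b3 t' ht' (Or.inr (mem_iUnion.2 ⟨_, h⟩))
    simpa only [Y.carrier, mem_ofPred_eq, and_assoc] using this
  generalize ![A₀, A₁, ∅] = A at c3 c4 ⊢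
  have hsub : S.Q.cell e ⊆ pre g (Icc lo hi) := Y.carrier ▸ hsk.trans (Y.K.skel_subset_carrier 1)
  have f1 : ∀ k, {u ∈ S.Q.cell e | g.toFun u k ∈ A k}.Finite := fun k =>
    ((A k).finite_toSet.biUnion fun t ht => (c4 k t ht).fin).subset fun u hu =>
      mem_biUnion hu.2 ⟨⟨hsub hu.1, rfl⟩, hsk hu.1⟩
  have f2 : pts g lo hi A ∩ S.Q.cell e ⊆
      {u ∈ S.Q.cell e | g.toFun u 0 ∈ A 0} ∪ {u ∈ S.Q.cell e | g.toFun u 1 ∈ A 1} :=
    fun u hu => hu.1.2.imp (fun h => ⟨hu.2, h⟩) fun h => ⟨hu.2, h⟩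
  have f3 : ∀ k, ENNReal.ofReal d * ({u ∈ S.Q.cell e | g.toFun u k ∈ A k}.ncard : ℕ) ≤
      ENNReal.ofReal (1 + ϑ) * segVar (fun u => g.toFun u k) x y + ENNReal.ofReal d * m k e :=
    fun k => by
    have h4 := mul_le_mul_right (hm k e x y he (A k) (d / (1 + ϑ)) (by positivity)
      fun t ht t' ht' h => (div_le_iff₀' (by linarith)).2 ((c3 k t ht).sep t ht t' ht' h))
      (ENNReal.ofReal (1 + ϑ))
    rwa [mul_add, ← mul_assoc, ← mul_assoc, ← ENNReal.ofReal_mul (by linarith),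
      mul_div_cancel₀ _ (by linarith)] at h4
  refine ⟨((f1 0).union (f1 1)).subset f2, ?_⟩
  have f4 := (ncard_le_ncard f2 ((f1 0).union (f1 1))).trans (ncard_union_le _ _)
  refine (mul_le_mul_right (Nat.cast_le.2 f4) _).trans ?_
  rw [Nat.cast_add, mul_add]
  refine (add_le_add (f3 0) (f3 1)).trans ?_
  rw [add_add_add_comm, ← mul_add, ← mul_add, ← Nat.cast_add]
  refine add_le_add le_rfl ?_
  rw [← ENNReal.ofReal_natCast, ← ENNReal.ofReal_mul d0.le]
  have f5 : ((m 0 e + m 1 e : ℕ) : ℝ) ≤ M := by exact_mod_cast hM (mem_image_of_mem _ hsub)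
  rw [le_div_iff₀ (by positivity)] at d5
  exact ENNReal.ofReal_le_ofReal (by nlinarith)

end P073.St
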