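import Vale.Agent.P073Y.St.Sk

/-!
# Spreading the points and running the engine
-/

open Set Metric Topology Filter MeasureTheory
open scoped NNReal ENNReal

namespace P073.St

open P073.Bd (Band cl PwLip Gen1)
open P073.Wb (Base lvl)

namespace Run

variable {X : Base}

theorem cell_sub (c : X.K.ι) : X.K.cell c ⊆ X.Ω := fun x hx => by
  rw [← X.cover]
  exact Or.inl (mem_iUnion.2 ⟨c, hx⟩)

theorem pw_congr {L : ℝ≥0} {f f' : E3 → ℝ} {C : Set E3} (hC : IsClosed C) (h : EqOn f f' C)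
    (hf : PwLip L f C) : PwLip L f' C := by
  classical
  obtain ⟨𝒞, h1, h2⟩ := hf
  refine ⟨𝒞.image (fun Y => Y ∩ C), ?_, ?_⟩
  · intro Y hY
    obtain ⟨Y', hY', rfl⟩ := Finset.mem_image.1 hY
    refine ⟨(h1 Y' hY').1.inter hC, fun x hx y hy => ?_⟩
    rw [← h hx.2, ← h hy.2]
    exact (h1 Y' hY').2 hx.1 hy.1
  · intro x hx
    obtain ⟨Y, hY, hxY⟩ := mem_iUnion₂.1 (h2 hx)
    exact mem_iUnion₂.2 ⟨Y ∩ C, Finset.mem_image.2 ⟨Y, hY, rfl⟩, hxY, hx⟩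

section theta

variable {Θ : ConHomeo X.Ω X.Ω}

theorem inv_mem (hΘ : ∀ c, Θ.toFun '' X.K.cell c = X.K.cell c) {c : X.K.ι} {x : E3}
    (hx : x ∈ X.K.cell c) : Θ.invFun x ∈ X.K.cell c := by
  rw [← hΘ c] at hx
  obtain ⟨y, hy, rfl⟩ := hx
  rw [Θ.left_inv (cell_sub c hy)]
  exact hy

theorem to_mem (hΘ : ∀ c, Θ.toFun '' X.K.cell c = X.K.cell c) {c : X.K.ι} {x : E3}
    (hx : x ∈ X.K.cell c) : Θ.toFun x ∈ X.K.cell c := by
  rw [← hΘ c]
  exact mem_image_of_mem _ hx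

theorem image_eq (hΘ : ∀ c, Θ.toFun '' X.K.cell c = X.K.cell c) {D D' : X.ι → Set E3}
    (hD : ∀ i, D i ⊆ X.Ω) (h : ∀ i, D' i = Θ.toFun '' D i) (c : X.K.ι) :
    (⋃ i, D' i) ∩ X.K.skel 1 ∩ X.K.cell c =
      Θ.toFun '' ((⋃ i, D i) ∩ X.K.skel 1 ∩ X.K.cell c) := by
  ext x
  constructor
  · rintro ⟨⟨h1, h2⟩, h3⟩
    obtain ⟨i, hi⟩ := mem_iUnion.1 h1
    rw [h i] at hi
    obtain ⟨y, hy, rfl⟩ := hi
    obtain ⟨j, hj, hxj⟩ := mem_iUnion₂.1 h2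
    have e := Θ.left_inv (hD i hy)
    refine ⟨y, ⟨⟨mem_iUnion.2 ⟨i, hy⟩, mem_iUnion₂.2 ⟨j, hj, ?_⟩⟩, ?_⟩, rfl⟩
    · rw [← e]
      exact inv_mem hΘ hxj
    · rw [← e]
      exact inv_mem hΘ h3
  · rintro ⟨y, ⟨⟨h1, h2⟩, h3⟩, rfl⟩
    obtain ⟨i, hi⟩ := mem_iUnion.1 h1
    obtain ⟨j, hj, hxj⟩ := mem_iUnion₂.1 h2
    refine ⟨⟨mem_iUnion.2 ⟨i, ?_⟩, mem_iUnion₂.2 ⟨j, hj, to_mem hΘ hxj⟩⟩, to_mem hΘ h3⟩
    rw [h i]
    exact mem_image_of_mem _ hi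

theorem ncard_eq (hΘ : ∀ c, Θ.toFun '' X.K.cell c = X.K.cell c) {D D' : X.ι → Set E3}
    (hD : ∀ i, D i ⊆ X.Ω) (h : ∀ i, D' i = Θ.toFun '' D i) (c : X.K.ι) :
    ((⋃ i, D' i) ∩ X.K.skel 1 ∩ X.K.cell c).ncard =
      ((⋃ i, D i) ∩ X.K.skel 1 ∩ X.K.cell c).ncard := by
  rw [image_eq hΘ hD h c]
  exact (Θ.left_inv.injOn.mono fun x hx => cell_sub c hx.2).ncard_image

end theta

/-- the level function is `1` or `-1` at the ends of a wire -/
theorem end_val {b : Band E3} (hon : b.On X.Ω) (hk : ∀ c, b.Keeps (X.K.cell c)) {e : X.K.ι}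
    (he : X.K.dim e = 1) {x : E3} (hx : x ∈ X.K.bd e) : b.u x = 1 ∨ b.u x = -1 := by
  obtain ⟨j, -, hj⟩ := X.K.vertex_of_mem_bd he hx
  have hxj : x ∈ X.K.cell j := by rw [hj]; rfl
  refine hon.out x (cell_sub j hxj) fun hB => ?_
  have h1 : (1 : ℝ) ∈ Bd.I := ⟨by norm_num, le_rfl⟩
  have h2 := hk j x hB 1 h1 hxj
  rw [hj] at h2
  have h3 := (hon.ok.Mmem x hB 1 h1).2
  have h0 : (0 : ℝ) ∈ Bd.I := ⟨by norm_num, by norm_num⟩
  have h4 := hk j x hB 0 h0 hxj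
  rw [hj] at h4
  have h5 := (hon.ok.Mmem x hB 0 h0).2
  rw [mem_singleton_iff.1 h2] at h3
  rw [mem_singleton_iff.1 h4, h3] at h5
  norm_num at h5

/-- a change of sign gives a point of the wall -/
theorem exists_wall {b : Band E3} (hon : b.On X.Ω) {x y : E3} (hs : segment ℝ x y ⊆ X.Ω)
    (hx : b.u x = 1 ∨ b.u x = -1) (hy : b.u y = 1 ∨ b.u y = -1) (hne : b.u y ≠ b.u x) :
    ∃ p ∈ segment ℝ x y, p ∈ b.W := by
  have hc : ContinuousOn b.u (segment ℝ x y) := hon.upl.1.mono hs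
  have hp : IsPreconnected (segment ℝ x y) := (convex_segment x y).isPreconnected
  have hex : ∃ p ∈ segment ℝ x y, b.u p = 0 := by
    rcases hx with hx | hx
    · rcases hy with hy | hy
      · exact absurd (hy.trans hx.symm) hne
      · exact hp.intermediate_value (right_mem_segment ℝ x y) (left_mem_segment ℝ x y) hc
          ⟨by rw [hy]; norm_num, by rw [hx]; norm_num⟩
    · rcases hy with hy | hy
      · exact hp.intermediate_value (left_mem_segment ℝ x y) (right_mem_segment ℝ x y) hc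
          ⟨by rw [hx]; norm_num, by rw [hy]; norm_num⟩
      · exact absurd (hy.trans hx.symm) hne
  obtain ⟨p, hps, hp0⟩ := hex
  refine ⟨p, hps, ?_, hp0⟩
  by_contra hB
  rcases hon.out p (hs hps) hB with h | h
  · rw [hp0] at h
    norm_num at h
  · rw [hp0] at h
    norm_num at h

/-- the total rise along a wire -/
theorem rise {lo hi : E3} {g G : ConHomeo X.Ω (Icc lo hi)} {t : X.ι → ℝ} {lam : ℝ}
    {b : X.ι → Band E3} (h : Wf.Out X g G t lam b) (hg : ∀ i, Gen1 X.K (lvl g t i)) {e : X.K.ι}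
    (he : X.K.dim e = 1) {x y : E3} (hs : X.K.cell e = segment ℝ x y) (hb : X.K.bd e = {x, y})
    (s : Finset X.ι) : ∑ i ∈ s, |(b i).u y - (b i).u x| ≤
      2 * (((⋃ i, lvl g t i) ∩ X.K.skel 1 ∩ X.K.cell e).ncard : ℕ) := by
  classical
  have := X.finι
  have hx : ∀ i, (b i).u x = 1 ∨ (b i).u x = -1 := fun i =>
    end_val (h.on i) (h.keep i) he (by rw [hb]; simp)
  have hy : ∀ i, (b i).u y = 1 ∨ (b i).u y = -1 := fun i =>
    end_val (h.on i) (h.keep i) he (by rw [hb]; simp)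
  have hsk : X.K.cell e ⊆ X.K.skel 1 := fun z hz => mem_iUnion₂.2 ⟨e, he.le, hz⟩
  have hex : ∀ i, ∃ p, (b i).u y ≠ (b i).u x → p ∈ X.K.cell e ∧ p ∈ lvl G t i := fun i => by
    by_cases hne : (b i).u y ≠ (b i).u x
    · obtain ⟨p, hp, hw⟩ := exists_wall (h.on i) (hs ▸ cell_sub e) (hx i) (hy i) hne
      exact ⟨p, fun _ => ⟨hs ▸ hp, h.wall i ▸ hw⟩⟩
    · exact ⟨x, fun h' => absurd h' hne⟩
  choose p hp using hex
  have hfin : ((⋃ i, lvl g t i) ∩ X.K.skel 1 ∩ X.K.cell e).Finite := by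
    refine Finite.subset (finite_iUnion fun i => (hg i).fin) ?_
    rintro z ⟨⟨h1, h2⟩, -⟩
    obtain ⟨i, hi⟩ := mem_iUnion.1 h1
    exact mem_iUnion.2 ⟨i, hi, h2⟩
  set s' := s.filter fun i => (b i).u y ≠ (b i).u x with hs'
  have hcard : s'.card ≤ ((⋃ i, lvl g t i) ∩ X.K.skel 1 ∩ X.K.cell e).ncard := by
    rw [← ncard_coe_finset]
    refine ncard_le_ncard_of_injOn p (fun i hi => ?_) (fun i hi j hj hij => ?_) hfin
    · have hi' := hp i (Finset.mem_filter.1 hi).2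
      obtain ⟨j, hj⟩ := h.le.pts i (p i) ⟨hi'.2, hsk hi'.1⟩
      exact ⟨⟨mem_iUnion.2 ⟨j, hj⟩, hsk hi'.1⟩, hi'.1⟩
    · by_contra hne
      have hi' := hp i (Finset.mem_filter.1 hi).2
      have hj' := hp j (Finset.mem_filter.1 hj).2
      exact disjoint_left.1 (h.gen₂ i j hne).1 ⟨hi'.2, hij ▸ hj'.2⟩ (hsk hi'.1)
  have h1 : ∑ i ∈ s, |(b i).u y - (b i).u x| = ∑ i ∈ s', |(b i).u y - (b i).u x| := by
    rw [hs']
    refine (Finset.sum_filter_of_ne fun i _ hne => ?_).symm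
    intro h0
    apply hne
    rw [h0, sub_self, abs_zero]
  have h2 : ∑ i ∈ s', |(b i).u y - (b i).u x| ≤ s'.card • (2 : ℝ) := by
    refine Finset.sum_le_card_nsmul _ _ _ fun i _ => ?_
    rcases hx i with a | a <;> rcases hy i with a' | a' <;> rw [a, a'] <;> norm_num
  rw [h1]
  refine h2.trans ?_
  rw [nsmul_eq_mul, mul_comm]
  exact mul_le_mul_of_nonneg_left (by exact_mod_cast hcard) (by norm_num)

end Run

theorem run_of {c₀ c : ℝ≥0} (h1 : Fi.INIT1S) (h2 : Fi.W2S c₀ c) : RUN c₀ c := by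
  intro X lo hi g t lam fro w Λ ζ₁ ζ₂ 𝓢 χ hraw hζ₁ hζ₁' hζ₂ hζ₂' hseg hsq
  obtain ⟨g', Θ, hg', hid, hcell, hlvl, hraw', z, hz, hwide⟩ := h1 g t hζ₁ hζ₁' hraw hseg
  have hnc := Run.ncard_eq hcell (D := lvl g t) (D' := lvl g' t) (fun i x hx => hx.1) hlvl
  have hsq' : ∀ φ (h : φ ∈ 𝓢),
      Fi.Sqr X fro ((⋃ i, lvl g' t i) ∩ X.K.skel 1) Λ c ζ₂ φ (χ φ h) := fun φ h =>
    { hsq φ h with L_ge := by rw [hnc φ]; exact (hsq φ h).L_ge }
  obtain ⟨G, b, hout, -, -, -, -, hE, hW⟩ :=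
    h2 X g' t lam fro w z Λ ζ₂ 𝓢 χ hraw' hz hζ₂ hζ₂' hwide hsq'
  have hval : ∀ x, g'.toFun x = g.toFun (Θ.invFun x) := fun x => by rw [hg']; rfl
  have hU : ∀ x ∈ X.Ω, x ∈ X.U → g'.toFun x = g.toFun x := fun x hx hxU => by
    have e1 : Θ.toFun x = x := hid (Or.inl hxU)
    have e2 := Θ.left_inv hx
    rw [e1] at e2
    rw [hval, e2]
  refine ⟨G, fun i => (b i).u, fun x hx => ?_, fun i x hx => (hout.nat i x hx).2,
    fun c s hs => ?_, fun o ho hosc x hx => ?_, fun e he hfro => ⟨hE e he hfro, ?_⟩,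
    fun φ h => hW φ h⟩
  · rw [hout.bd hx, hU x (X.ball.1 hx) (X.bd_sub hx)]
  · refine Run.pw_congr (X.K.ball c).isCompact.isClosed (fun x hx => ?_) (hout.lip c s hs)
    exact Finset.sum_congr rfl fun i _ => (hout.nat i x (Run.cell_sub c hx)).2.symm
  · refine ⟨g'.toFun x, g'.mapsTo hx, ?_, fun i κ hκ => ?_⟩
    · have hx' : x ∈ X.K.carrier ∪ X.U := by rw [X.cover]; exact hx
      rcases hx' with hx' | hx'
      · obtain ⟨c, hc⟩ := mem_iUnion.1 hx'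
        rw [hval]
        exact hosc c _ (Run.inv_mem hcell hc) _ hc
      · rw [hU x hx hx', dist_self]
        exact ho
    · refine hout.drift i o κ ho (fun c y hy y' hy' => ?_) hκ x hx
      rw [hval, hval, ← Real.dist_eq]
      exact (dist_le_pi_dist _ _ _).trans
        (hosc c _ (Run.inv_mem hcell hy) _ (Run.inv_mem hcell hy'))
  · intro x y hs hb s
    rw [← hnc e]
    exact Run.rise hout hraw'.gen he hs hb s

end P073.St
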