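import Vale.Agent.P073Y.St.Sk

/-!
# From the stair to the sharp clause
-/

open Set Metric Topology Filter MeasureTheory
open scoped NNReal ENNReal

namespace P073.St

open P073.Top

namespace Sp

theorem pt_mem (i : Fin 2) {s t : ℝ} (hs : |s| ≤ 1) (ht : |t| ≤ 1) : Fi.pt i s t ∈ Fi.Q := by
  refine mem_closedBall_zero_iff.2 ((pi_norm_le_iff_of_nonneg zero_le_one).2 fun k => ?_)
  simp only [Fi.pt, Real.norm_eq_abs]
  split_ifs
  exacts [hs, ht]

theorem num {p θ a c : ℝ} (hp : 1 ≤ p) (h0 : 0 < θ) (h1 : θ ≤ 1 / 1000) (ha : 0 < a)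
    (hc : 1 ≤ c) : 2 ^ p * (6 * θ * (c * a * (1 + 3 * θ)) ^ p + (3 * θ * a) ^ p * 4) ≤
      2 * θ * (24 * c * a) ^ p := by
  have hp0 : 0 ≤ p := by linarith
  have hca : a ≤ c * a := le_mul_of_one_le_left ha.le hc
  have e1 : (c * a * (1 + 3 * θ)) ^ p ≤ (2 * (c * a)) ^ p :=
    Real.rpow_le_rpow (by positivity) (by nlinarith) hp0
  have e2 : (3 * θ * a) ^ p ≤ 3 * θ / 2 * (2 * (c * a)) ^ p := by
    rw [show 3 * θ * a = 3 * θ / 2 * (2 * a) by ring, Real.mul_rpow (by positivity) (by positivity)]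
    refine mul_le_mul ?_ (Real.rpow_le_rpow (by positivity) (by linarith) hp0) (by positivity)
      (by positivity)
    simpa using Real.rpow_le_rpow_of_exponent_ge (by positivity : 0 < 3 * θ / 2) (by linarith) hp
  have e3 : (6 : ℝ) ≤ 6 ^ p := by
    simpa using Real.rpow_le_rpow_of_exponent_le (by norm_num : (1 : ℝ) ≤ 6) hp
  rw [show 24 * c * a = 2 * (6 * (2 * (c * a))) by ring,
    Real.mul_rpow (x := 2) (y := 6 * _) (by positivity) (by positivity),
    Real.mul_rpow (x := 6) (by positivity) (by positivity)]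
  have u0 : 0 ≤ (2 * (c * a)) ^ p := by positivity
  have v0 : 0 ≤ (2 : ℝ) ^ p := by positivity
  generalize (2 * (c * a)) ^ p = u at *
  generalize (2 : ℝ) ^ p = v at *
  calc _ ≤ v * (6 * θ * u + 3 * θ / 2 * u * 4) := by gcongr
    _ = 2 * θ * (v * (6 * u)) := by ring
    _ ≤ _ := by gcongr

end Sp

theorem sharp_of (hA : Api) {p θ a d c : ℝ} (hp : 1 ≤ p) (h0 : 0 < θ) (h1 : θ ≤ 1 / 1000)
    (ha : 0 < a) (hd : 0 < d) (hc : 1 ≤ c) {st : E2 → E2} {H : E3 → E3} {ψ : E2 →ᵃ[ℝ] E3} {b : E3}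
    (hH : ∀ v ∈ Fi.Q, ∀ i : Fin 2, H (ψ v) i.castSucc = b i.castSucc + d / 2 * st v i)
    (h2 : ∀ v ∈ Fi.Q, H (ψ v) 2 = b 2)
    (hs : Fi.Shp st (2 * a / d * (1 + 3 * θ)) (6 * θ) c) :
    Top.SharpF p H ψ a (2 * θ) (24 * c) 0 := by
  intro hn
  have hp0 : 0 < p := by linarith
  have hQ : IsCompact Fi.Q := isCompact_closedBall _ _
  have net : Fi.Net st (2 * a / d * (1 + 3 * θ)) (6 * θ) := fun i r hr => by
    have hr' : |r| ≤ 1 := by rcases hr with rfl | rfl <;> simp
    have h3 : (1 - 2 * θ) * (2 * a) ≤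
        H (ψ (Fi.pt i 1 r)) i.castSucc - H (ψ (Fi.pt i (-1) r)) i.castSucc := hn i r hr
    rw [hH _ (Sp.pt_mem i (by simp) hr'), hH _ (Sp.pt_mem i (by simp) hr')] at h3
    refine le_of_mul_le_mul_left ?_ (by positivity : 0 < d / 2)
    rw [show d / 2 * (2 * (2 * a / d * (1 + 3 * θ)) * (1 - 6 * θ)) =
      2 * a * ((1 + 3 * θ) * (1 - 6 * θ)) by field_simp]
    nlinarith [mul_pos ha h0, mul_pos ha (mul_pos h0 h0)]
  have e0 := hs net p hp
  set Λ := 2 * a / d * (1 + 3 * θ) with hΛ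
  have e1 := hA.en_le (fun v => (d / 2) • (st v - Λ • v)) (fun v => st v - Λ • v)
    (d / 2).toNNReal hp0 hQ fun x _ y _ => by
      rw [edist_dist, edist_dist, dist_smul₀, Real.norm_of_nonneg (by positivity),
        ENNReal.ofReal_mul (by positivity)]
      rfl
  have e2 := hA.en_add (fun v => (d / 2) • (st v - Λ • v)) (fun v : E2 => (3 * θ * a) • v) hp0 hQ
  have e3 : lipc (fun v : E2 => (3 * θ * a) • v) Fi.Q ≤ ENNReal.ofReal (3 * θ * a) :=
    hA.le_of fun x _ y _ => by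
      rw [edist_dist, edist_dist, dist_smul₀, Real.norm_of_nonneg (by positivity),
        ENNReal.ofReal_mul (by positivity)]
  have co : ∀ v ∈ Fi.Q, ∀ i : Fin 2, (H (ψ v) - a • (![v 0, v 1, 0] : E3)) i.castSucc =
      b i.castSucc + ((d / 2) • (st v - Λ • v) + (3 * θ * a) • v) i := fun v hv i => by
    have : (![v 0, v 1, 0] : E3) i.castSucc = v i := by fin_cases i <;> rfl
    simp only [Pi.sub_apply, Pi.add_apply, Pi.smul_apply, smul_eq_mul, hH v hv, this, hΛ]
    field_simp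
    ring
  have e4 := hA.en_le (fun v : E2 => H (ψ v) - a • (![v 0, v 1, 0] : E3))
    (fun v => (d / 2) • (st v - Λ • v) + (3 * θ * a) • v) 1 hp0 hQ fun x hx y hy => by
      rw [ENNReal.coe_one, one_mul, edist_pi_le_iff]
      intro i
      refine Fin.lastCases ?_ (fun i => ?_) i
      · have : ∀ v ∈ Fi.Q, (H (ψ v) - a • (![v 0, v 1, 0] : E3)) (Fin.last 2) = b 2 :=
          fun v hv => by
            rw [← h2 v hv]
            exact (congrArg (fun s => H (ψ v) 2 - s) (smul_zero a)).trans (sub_zero _)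
        rw [this x hx, this y hy, edist_self]
        exact zero_le
      · rw [co x hx, co y hy, edist_add_left]
        exact edist_le_pi_edist _ _ i
  rw [ENNReal.coe_one, ENNReal.one_rpow, one_mul] at e4
  rw [hA.sq] at e2
  rw [add_zero]
  refine e4.trans (e2.trans ?_)
  calc _ ≤ 2 ^ p * (ENNReal.ofReal (d / 2) ^ p * ENNReal.ofReal (6 * θ * (c * Λ) ^ p) +
        ENNReal.ofReal (3 * θ * a) ^ p * 4) := by
        gcongr
        exact e1.trans (by gcongr; rfl)
    _ = ENNReal.ofReal (2 ^ p * (6 * θ * (c * a * (1 + 3 * θ)) ^ p + (3 * θ * a) ^ p * 4)) := by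
        have e5 : (d / 2) ^ p * (6 * θ * (c * Λ) ^ p) = 6 * θ * (c * a * (1 + 3 * θ)) ^ p := by
          rw [show c * a * (1 + 3 * θ) = d / 2 * (c * Λ) by rw [hΛ]; field_simp,
            Real.mul_rpow (x := d / 2) (by positivity) (by positivity)]
          ring
        rw [ENNReal.ofReal_rpow_of_pos (by positivity), ENNReal.ofReal_rpow_of_pos (by positivity),
          ← ENNReal.ofReal_mul (by positivity), e5, ENNReal.ofReal_mul (p := 2 ^ p) (by positivity),
          ENNReal.ofReal_add (by positivity) (by positivity),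
          ENNReal.ofReal_mul (q := 4) (by positivity),
          ← ENNReal.ofReal_rpow_of_pos (x := 2) (by positivity)]
        simp
    _ ≤ _ := ENNReal.ofReal_le_ofReal (Sp.num hp h0 h1 ha hc)

end P073.St
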