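import Vale.Agent.P073Y.St.Sk
import Vale.Agent.P073Y.Cut.Box

/-!
# The complex for the engine
-/

open Set Metric Topology Filter

namespace P073.St

open P073.Top

namespace SiteA

variable {Ω Λ : Set E3} {S : Src Ω} {g : ConHomeo Ω Λ} {lo hi : E3} {o : ℝ} {J : Finset (Fin 3)}
  {L : Lay lo hi o J} {τ : Tri S g L.P}

theorem same_ocell {K Q : RCx E3} {j : K.ι} {φ : Q.ι} (h : Same K Q j φ) :
    K.ocell j = Q.ocell φ := by rw [RCx.ocell, h.1, h.2.1, RCx.ocell]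

theorem pull_ocell {K P : RCx E3} {j : K.ι} {c : P.ι} (h : Pull K P g j c) :
    K.ocell j = pre g (P.ocell c) := by
  rw [RCx.ocell, h.1, h.2.1]
  ext x
  exact ⟨fun hx => ⟨hx.1.1, hx.1.2, fun hb => hx.2 ⟨hx.1.1, hb⟩⟩,
    fun hx => ⟨⟨hx.1, hx.2.1⟩, fun hb => hx.2.2 hb.2⟩⟩

theorem pre_mono {Y Y' : Set E3} (h : Y ⊆ Y') : pre g Y ⊆ pre g Y' := fun _ hx => ⟨hx.1, h hx.2⟩

theorem fr_sub : frontier (Icc lo hi) ⊆ Icc lo hi := isClosed_Icc.frontier_subset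

theorem image_pre (τ : Tri S g L.P) {Y : Set E3} (hY : Y ⊆ L.P.carrier) :
    τ.gC.toFun '' pre g Y = Y := by
  refine Subset.antisymm ?_ fun y hy => ⟨τ.gC.invFun y, ⟨(τ.gC.mapsTo_inv (hY hy)).1, ?_⟩,
    τ.gC.right_inv (hY hy)⟩
  · rintro _ ⟨x, hx, rfl⟩
    rw [τ.gC_eq]
    exact hx.2
  · rw [← τ.gC_eq, τ.gC.right_inv (hY hy)]
    exact hy

theorem skel_finite (K : RCx E3) [Finite K.ι] : (K.skel 0).Finite :=
  finite_iUnion fun i => finite_iUnion fun h => by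
    have hb := K.ball i
    rw [Nat.le_zero.1 h] at hb
    obtain ⟨a, ha⟩ := hb.zero_eq.1
    rw [ha]
    exact finite_singleton a

theorem whole_of_deep (ho : 0 < o) (hO : S.Osc g.toFun (Icc lo hi) o) {φ : S.Q.ι}
    (h : Deep g.toFun (S.Q.cell φ) lo hi (2 * o)) : Whole S g.toFun L.inn φ := by
  intro c hc x hx
  obtain ⟨y, hy⟩ := S.Q.cell_nonempty φ
  have h1 := hO c ⟨_, ⟨y, hc hy, rfl⟩, fun i => by linarith [(h y hy i).1],
    fun i => by linarith [(h y hy i).2]⟩ x hx y (hc hy)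
  refine L.deep _ fun i => ?_
  have h2 := abs_le.1 ((dist_le_pi_dist (g.toFun x) (g.toFun y) i).trans h1)
  constructor <;> linarith [(h y hy i).1, (h y hy i).2, h2.1, h2.2]

variable (A : Am S g L τ)

/-- the cells of the subdivision which are kept -/
def Kept (j : A.K.ι) : Prop := (∃ i, Same A.K τ.T j i) ∧
  (∀ φ, Whole S g.toFun L.inn φ → Disjoint (A.K.cell j) (S.Q.ocell φ)) ∧
  ∀ c ∈ L.W, Disjoint (A.K.cell j) (pre g (L.P.ocell c))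

/-- the soft cells -/
def fro : Set A.K.ι := {j | A.K.cell j ⊆ pre g (frontier (Icc lo hi)) ∨ (Kept A j ∧ A.K.dim j ≤ 2 ∧
  ∀ x ∈ A.K.cell j, J = {0, 1} → Side lo hi J (2 * o) (g.toFun x))}

theorem cell_pre (j : A.K.ι) : A.K.cell j ⊆ pre g (Icc lo hi) :=
  A.carrier ▸ A.K.cell_subset_carrier j

variable {A} {j c : A.K.ι}

theorem Kept.face (h : Kept A c) (hj : A.K.cell j ⊆ A.K.cell c) : Kept A j := by
  obtain ⟨x, hx⟩ := A.K.ocell_nonempty j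
  rcases A.cases j with ⟨φ, h1, h2⟩ | ⟨d, h1, h2⟩ | h1
  · exact (disjoint_left.1 (h.2.1 φ h1) (hj hx.1) (same_ocell h2 ▸ hx)).elim
  · exact (disjoint_left.1 (h.2.2 d h1) (hj hx.1) (pull_ocell h2 ▸ hx)).elim
  · exact h1

theorem Kept.cva (h : Kept A j) : CvA A.K g.toFun j := by
  obtain ⟨i, h1, h2, h3⟩ := h.1
  rw [CvA, h1, h2, h3]
  exact ⟨(τ.cvx i).1, (τ.cvx i).2.1, (τ.cvx i).2.2, τ.aff i⟩

theorem Kept.sub (h : Kept A j) {X : Set E3} (hX : τ.T.Sub X) {x : E3} (hx : x ∈ A.K.ocell j)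
    (hxX : x ∈ X) : A.K.cell j ⊆ X := by
  obtain ⟨i, hi⟩ := h.1
  rw [hi.1]
  exact hX.cell_subset (same_ocell hi ▸ hx) hxX

theorem Kept.subQ (h : Kept A j) {φ : S.Q.ι} {x : E3} (hx : x ∈ A.K.ocell j)
    (hφ : x ∈ S.Q.cell φ) : A.K.cell j ⊆ S.Q.cell φ :=
  (h.sub (τ.subQ φ) hx ⟨hφ, L.carrier.symm ▸ cell_pre A j hx.1⟩).trans inter_subset_left

theorem not_fro {φ : S.Q.ι} (hφ : Whole S g.toFun L.inn φ) (h : Same A.K S.Q j φ) : j ∉ fro A := by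
  obtain ⟨x, hx⟩ := A.K.ocell_nonempty j
  rintro (h1 | h1)
  · exact (h1 hx.1).2.2 (L.inn_sub (hφ φ Subset.rfl x (h.1 ▸ hx.1)))
  · exact disjoint_left.1 (h1.1.2.1 φ hφ) hx.1 (same_ocell h ▸ hx)

theorem sub_fr (A : Am S g L τ) : A.K.Sub (pre g (frontier (Icc lo hi))) := by
  intro x hx
  obtain ⟨j, hj⟩ := A.K.exists_ocell (A.carrier.symm ▸ pre_mono fr_sub hx)
  refine ⟨j, hj.1, ?_⟩
  rcases A.cases j with ⟨φ, h1, h2⟩ | ⟨d, -, h2⟩ | h1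
  · exact (hx.2.2 (L.inn_sub (h1 φ Subset.rfl x (h2.1 ▸ hj.1)))).elim
  · rw [h2.1]
    exact pre_mono (L.sub.cell_subset (pull_ocell h2 ▸ hj : x ∈ pre g _).2 hx.2)
  · obtain ⟨d, h2, h3⟩ := L.sub _ hx.2
    exact (Kept.sub h1 (τ.subP d) hj ⟨hx.1, h2⟩).trans (pre_mono h3)

theorem osc (hO : S.Osc g.toFun (Icc lo hi) o) (j : A.K.ι) :
    ∀ x ∈ A.K.cell j, ∀ y ∈ A.K.cell j, dist (g.toFun x) (g.toFun y) ≤ o := by
  obtain ⟨z, hz⟩ := A.K.ocell_nonempty j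
  have key : ∀ φ, A.K.cell j ⊆ S.Q.cell φ →
      ∀ x ∈ A.K.cell j, ∀ y ∈ A.K.cell j, dist (g.toFun x) (g.toFun y) ≤ o := fun φ h x hx y hy =>
    hO φ ⟨_, ⟨x, h hx, rfl⟩, (cell_pre A j hx).2⟩ x (h hx) y (h hy)
  rcases A.cases j with ⟨φ, -, h2⟩ | ⟨d, h1, h2⟩ | h1
  · exact key φ h2.1.le
  · rw [h2.1]
    exact fun x hx y hy => L.diam d h1 _ hx.2 _ hy.2
  · obtain ⟨φ, hφ⟩ := S.Q.mem_carrier.1 (S.carrier.symm ▸ (cell_pre A j hz.1).1)
    exact key φ (Kept.subQ h1 hz hφ)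

theorem lin (h : c ∈ fro A) :
    Nt.Lin (A.K.cell c) (A.K.bd c) fun (k : Fin 3) x => g.toFun x k := by
  rcases A.cases c with ⟨φ, h1, h2⟩ | ⟨d, -, h2⟩ | h1
  · exact (not_fro h1 h2 h).elim
  · have h3 := L.P.cell_subset_carrier d
    refine ⟨L.P.cell d, (τ.gC.restr (A.K.ball c).conicalSet (h2.1 ▸ pre_mono h3)).cast rfl
      (by rw [h2.1, image_pre τ h3]), fun k => AffineMap.proj k, (L.cvx d).1, ?_,
      fun k x _ => (congrFun (congrFun τ.gC_eq x) k).symm⟩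
    show τ.gC.toFun '' _ = _
    rw [h2.2.1, ← (L.cvx d).2.1]
    exact image_pre τ ((L.P.bd_subset d).trans h3)
  · obtain ⟨h2, h3, -, B, hB⟩ := Kept.cva h1
    exact ⟨_, ConHomeo.refl (A.K.ball c).conicalSet, fun k => (AffineMap.proj k).comp B, h2,
      (image_id' _).trans h3, fun k x hx => congrFun (hB hx) k⟩

theorem trk (hD : Dim) (hO : S.Osc g.toFun (Icc lo hi) o) {φ : S.Q.ι} (hφ : S.Q.dim φ ≤ 2)
    (hA : Away g.toFun (S.Q.cell φ) (Rim lo hi J) (2 * o)) (hW : ¬ Whole S g.toFun L.inn φ)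
    (hj : (A.K.ocell j ∩ S.Q.cell φ).Nonempty) :
    j ∈ fro A ∧ A.K.cell j ⊆ S.Q.cell φ ∧ CvA A.K g.toFun j := by
  obtain ⟨x, hx, hxφ⟩ := hj
  rcases A.cases j with ⟨φ', h1, h2⟩ | ⟨d, h1, h2⟩ | h1
  · exact (hW fun c hc => h1 c ((S.Q.cell_subset_of_mem (same_ocell h2 ▸ hx) hxφ).trans hc)).elim
  · obtain ⟨z, hz, h3⟩ := L.rim d h1 _ (h2.1 ▸ hx.1 : x ∈ pre g _).2
    exact ((hA x hxφ z hz).not_ge h3).elim
  · have h2 := Kept.subQ h1 hx hxφ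
    refine ⟨Or.inr ⟨h1, (hD.mono (A.K.ball j) (S.Q.ball φ) h2).trans hφ, fun y hy => ?_⟩, h2,
      Kept.cva h1⟩
    simp only [Whole, not_forall] at hW
    obtain ⟨c, hc, x', hx', h3⟩ := hW
    have h4 := (cell_pre A j hy).2
    refine (L.out _ h3 _ h4 (hO c ⟨_, ⟨y, hc (h2 hy), rfl⟩, h4⟩ x' hx' y (hc (h2 hy)))).resolve_left
      fun ⟨z, hz, h5⟩ => (hA y (h2 hy) z hz).not_ge h5

end SiteA

open SiteA in
theorem site_of (hD : Dim) : SITE := by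
  intro Ω Λ S g lo hi o J L τ A hlt ho hJ hO
  have := A.fin
  have hb : ConBall 3 (pre g (Icc lo hi)) (pre g (frontier (Icc lo hi))) :=
    Cut.Box.ball_of (τ.gC.cast (by rw [L.carrier]) L.carrier)
      ((Cut.Box.frontier_box lo hi).symm ▸ Cut.Box.conBall_Icc hlt) (pre_mono fr_sub)
      fun x hx => by
        show _ ↔ τ.gC.toFun x ∈ _
        rw [τ.gC_eq]
        exact ⟨fun h => h.2, fun h => ⟨hx.1, h⟩⟩
  obtain ⟨b1, b2, b3, b4⟩ := hD.ball A.K (A.carrier.symm ▸ hb)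
  obtain ⟨M₁, M₂, c1, c2⟩ := hD.chart S A.K
  have fd : ∀ c ∈ fro A, A.K.dim c ≤ 2 := by
    rintro c (h | h)
    · exact Nat.lt_succ_iff.1 (lt_of_le_of_ne (b2 c) fun e => b3 c e h)
    · exact h.2.1
  have hw : ∀ φ, Whole S g.toFun L.inn φ → ∃ j, j ∉ fro A ∧ Same A.K S.Q j φ := fun φ h =>
    (A.whole φ h).imp fun j hj => ⟨not_fro h hj, hj⟩
  refine ⟨⟨hlt, ho, hJ, τ.gC.cast (by rw [L.carrier]) L.carrier, τ.gC_eq, A.K, A.fin, A.carrier, hb,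
    b1, sub_fr A, b3, b2, b4, M₁, M₂, c1, c2, osc hO, fro A, ?_, fun c h => Or.inl h, fd,
    fun c h => lin h, L.Z ∪ ⋃ k, (fun x => g.toFun x k) '' A.K.skel 0,
    L.Zfin.union (finite_iUnion fun k => (skel_finite A.K).image _),
    fun x hx k => Or.inr (mem_iUnion.2 ⟨k, x, hx, rfl⟩), ?_, fun e h1 h2 => ?_, fun φ h1 h2 => ?_,
    fun φ h => hw φ (whole_of_deep ho hO h)⟩⟩
  · rintro c (h | h) j hj
    · exact Or.inl (hj.trans h)
    · exact Or.inr ⟨h.1.face hj, (A.K.dim_le hj).trans h.2.1, fun x hx => h.2.2 x (hj hx)⟩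
  · intro hJ c hc x hx h
    rcases id hc with h1 | h1
    · obtain ⟨d, hd⟩ := L.P.exists_ocell (L.carrier.symm ▸ fr_sub (h1 hx).2)
      rcases L.one hJ d _ hd (h1 hx).2 with ⟨h2, h3⟩ | ⟨k, hk, h2⟩
      · obtain ⟨j, hj⟩ := A.lay d h2
        have h4 : x ∈ A.K.ocell j := pull_ocell hj ▸ ⟨(h1 hx).1, hd⟩
        have h5 := hj.2.2
        have h6 := fd c hc
        rcases h with h | h | h
        · have := A.K.dim_lt (A.K.subset_bd_of_mem h4 h)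
          omega
        · have := A.K.dim_le (A.K.cell_subset_of_mem h4 hx)
          omega
        · exact (h h1).elim
      · exact Or.inl ⟨k, hk, Or.inl h2⟩
    · exact Or.inr (h1.2.2 x hx hJ)
  · rcases A.cases e with ⟨φ, -, h3⟩ | ⟨d, h3, h4⟩ | h3
    · exact h3.1 ▸ (S.cvx φ).1
    · have := L.two d h3
      have := h4.2.2
      omega
    · exact (Kept.cva h3).1
  · by_cases hW : Whole S g.toFun L.inn φ
    · exact Or.inl (hw φ hW)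
    · exact Or.inr fun j hj =>
        trk hD hO h1 (h2.resolve_right fun h => hW (whole_of_deep ho hO h)) hW hj

end P073.St
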