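import Vale.Agent.P073Z.Defs

/-!
# The choice of the levels
-/

open Set

namespace P073.St

/-- a system of levels in `[lo, hi]` with period `b`, buffers `β`, rise `ρ` and spacing `δ` -/
structure Lv (lo hi b β ρ δ : ℝ) {ι : Type} (s : Finset ι) (t : ι → ℝ) : Prop where
  inside : ∀ i ∈ s, lo + β ≤ t i ∧ t i + β ≤ hi
  sep : ∀ i ∈ s, ∀ j ∈ s, i ≠ j → δ ≤ |t i - t j|
  near : ∀ w ∈ Icc lo hi, ∀ u : ι → ℝ, (∀ i, |u i| ≤ 1) →
    (∀ κ, (∀ j ∈ s, β ≤ |t j - κ|) → ∀ i ∈ s,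
      (t i < κ → κ ≤ w → u i = 1) ∧ (κ < t i → w ≤ κ → u i = -1)) →
    |lo + ρ / 2 * ∑ i ∈ s, (u i + 1) - w| ≤ b

/-- the coordinate of a family -/
def cof (f : Bool) : Fin 3 := if f then 0 else 1

namespace Le

theorem Lv_map {lo hi b β ρ δ : ℝ} {ι κ : Type} {s : Finset ι} {t : ι → ℝ} (f : ι ↪ κ)
    {t' : κ → ℝ} (e : ∀ i, t' (f i) = t i) (h : Lv lo hi b β ρ δ s t) :
    Lv lo hi b β ρ δ (s.map f) t' where
  inside := fun k hk => by
    obtain ⟨i, hi', rfl⟩ := Finset.mem_map.1 hk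
    rw [e]; exact h.inside i hi'
  sep := fun k hk l hl hkl => by
    obtain ⟨i, hi', rfl⟩ := Finset.mem_map.1 hk
    obtain ⟨j, hj, rfl⟩ := Finset.mem_map.1 hl
    rw [e, e]; exact h.sep i hi' j hj fun hij => hkl (by rw [hij])
  near := fun w hw u hu H => by
    rw [Finset.sum_map]
    refine h.near w hw (fun i => u (f i)) (fun i => hu _) fun κ hκ i hi' => ?_
    have := H κ (fun l hl => by
      obtain ⟨j, hj, rfl⟩ := Finset.mem_map.1 hl
      rw [e]; exact hκ j hj) (f i) (Finset.mem_map_of_mem f hi')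
    rwa [e] at this

/-- the levels of one period -/
theorem period (V : Finset ℝ) {F : Set ℝ} (hF : F.Finite) (a : ℝ) {δ s : ℝ} (hs : 0 < s)
    (hsδ : 2 * s ≤ δ) (N : ℕ) : ∃ t : Fin N → ℝ,
    (∀ j, a ≤ t j ∧ t j ≤ a + (N + V.card) * (δ + s)) ∧ (∀ i j, i ≠ j → δ ≤ |t i - t j|) ∧
    (∀ j, ∀ v ∈ V, δ / 4 < |t j - v|) ∧ ∀ j, t j ∉ F := by
  classical
  set P : ℕ → Prop := fun m => ∃ v ∈ V, v - δ / 4 - s ≤ a + m * (δ + s) ∧ a + m * (δ + s) ≤ v + δ / 4
    with hP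
  have hbad : ((Finset.range (N + V.card)).filter P).card ≤ V.card := by
    have : ∀ m, ∃ v, P m → v ∈ V ∧ v - δ / 4 - s ≤ a + m * (δ + s) ∧
        a + m * (δ + s) ≤ v + δ / 4 := fun m => by
      by_cases h : P m
      · obtain ⟨v, hv⟩ := h
        exact ⟨v, fun _ => hv⟩
      · exact ⟨0, fun h' => (h h').elim⟩
    choose v hv using this
    refine Finset.card_le_card_of_injOn v (fun m hm => (hv m (Finset.mem_filter.1 hm).2).1) ?_
    intro m hm m' hm' e
    have h1 := (hv m (Finset.mem_filter.1 hm).2).2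
    have h2 := (hv m' (Finset.mem_filter.1 hm').2).2
    rw [e] at h1
    have k1 : (m : ℝ) < m' + 1 := by
      by_contra hc
      nlinarith [h1.2, h2.1, not_lt.1 hc]
    have k2 : (m' : ℝ) < m + 1 := by
      by_contra hc
      nlinarith [h1.1, h2.2, not_lt.1 hc]
    have k3 : m < m' + 1 := by exact_mod_cast k1
    have k4 : m' < m + 1 := by exact_mod_cast k2
    omega
  have hgood : N ≤ ((Finset.range (N + V.card)).filter fun m => ¬ P m).card := by
    have := Finset.card_filter_add_card_filter_not (s := Finset.range (N + V.card)) P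
    rw [Finset.card_range] at this
    omega
  obtain ⟨G, hG, hc⟩ := Finset.exists_subset_card_eq hgood
  let m : Fin N → ℕ := fun j => G.orderEmbOfFin hc j
  have hm : ∀ j, m j < N + V.card ∧ ¬ P (m j) := fun j => by
    have := Finset.mem_filter.1 (hG (G.orderEmbOfFin_mem hc j))
    exact ⟨Finset.mem_range.1 this.1, this.2⟩
  have hinj : Function.Injective m := (G.orderEmbOfFin hc).injective
  have hx : ∀ j, ∃ x ∈ Icc (a + m j * (δ + s)) (a + m j * (δ + s) + s), x ∉ F := fun j =>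
    (Icc_infinite (by linarith)).exists_notMem_finite hF
  choose t ht htF using hx
  have hd : 0 < δ + s := by linarith
  refine ⟨t, fun j => ⟨?_, ?_⟩, fun i j hij => ?_, fun j v hv => ?_, htF⟩
  · have : (0:ℝ) ≤ m j * (δ + s) := by positivity
    linarith [(ht j).1]
  · have h1 : (m j : ℝ) + 1 ≤ N + V.card := by exact_mod_cast (hm j).1
    nlinarith [(ht j).2]
  · rcases lt_or_gt_of_ne (hinj.ne hij) with h | h
    · have h1 : (m i : ℝ) + 1 ≤ m j := by exact_mod_cast h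
      exact le_abs.2 (Or.inr (by nlinarith [(ht i).2, (ht j).1]))
    · have h1 : (m j : ℝ) + 1 ≤ m i := by exact_mod_cast h
      exact le_abs.2 (Or.inl (by nlinarith [(ht j).2, (ht i).1]))
  · by_contra hc'
    have := abs_le.1 (not_lt.1 hc')
    exact (hm j).2 ⟨v, hv, by linarith [(ht j).2], by linarith [(ht j).1]⟩

/-- the levels of one coordinate -/
theorem line (V : Finset ℝ) {F : Set ℝ} (hF : F.Finite) {lo hi b β δ s : ℝ} (hle : lo ≤ hi)
    (hb : 0 < b) (hs : 0 < s) (hsδ : 2 * s ≤ δ) (hβ : δ ≤ β) {N : ℕ} (hN : 0 < N)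
    (hfit : (N + V.card) * (δ + s) ≤ b - 2 * β) : ∃ (n : ℕ) (t : Fin n × Fin N → ℝ),
    Lv lo hi b β (b / N) δ Finset.univ t ∧ (∀ j, ∀ v ∈ V, δ / 4 < |t j - v|) ∧ ∀ j, t j ∉ F := by
  choose t h1 h2 h3 h4 using fun m : ℕ => period V hF (lo + m * b + β) hs hsδ N
  have hN' : (0:ℝ) < N := by exact_mod_cast hN
  have r : ∀ (m : ℕ) j, lo + m * b + β ≤ t m j ∧ t m j ≤ lo + (m + 1) * b - β := fun m j =>
    ⟨(h1 m j).1, by linarith [(h1 m j).2]⟩
  obtain ⟨n, hn⟩ : ∃ n, n = ⌊(hi - lo) / b⌋₊ := ⟨_, rfl⟩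
  refine ⟨n, fun q => t q.1 q.2, ⟨fun q _ => ⟨?_, ?_⟩, fun q _ q' _ hq => ?_,
    fun w hw u hu H => ?_⟩, fun q => h3 _ _, fun q => h4 _ _⟩
  · have : (0:ℝ) ≤ (q.1 : ℕ) * b := by positivity
    linarith [(r q.1 q.2).1]
  · have k1 : ((q.1 : ℕ) : ℝ) + 1 ≤ ⌊(hi - lo) / b⌋₊ := by rw [← hn]; exact_mod_cast q.1.2
    have k2 := k1.trans (Nat.floor_le (div_nonneg (by linarith) hb.le))
    rw [le_div_iff₀ hb] at k2
    linarith [(r q.1 q.2).2]
  · rcases lt_trichotomy (q.1 : ℕ) q'.1 with h | h | h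
    · have k : ((q.1 : ℕ) : ℝ) + 1 ≤ (q'.1 : ℕ) := by exact_mod_cast h
      exact le_abs.2 (Or.inr (by nlinarith [(r q.1 q.2).2, (r q'.1 q'.2).1]))
    · have hne : q.2 ≠ q'.2 := fun e => hq (Prod.ext (Fin.ext h) e)
      show δ ≤ |t q.1 q.2 - t q'.1 q'.2|
      rw [h]
      exact h2 _ _ _ hne
    · have k : ((q'.1 : ℕ) : ℝ) + 1 ≤ (q.1 : ℕ) := by exact_mod_cast h
      exact le_abs.2 (Or.inl (by nlinarith [(r q'.1 q'.2).2, (r q.1 q.2).1]))
  · set m := ⌊(w - lo) / b⌋₊ with hm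
    have hw0 : 0 ≤ (w - lo) / b := div_nonneg (by linarith [hw.1]) hb.le
    have m1 : lo + m * b ≤ w := by
      have := Nat.floor_le hw0
      rw [le_div_iff₀ hb] at this
      linarith
    have m2 : w ≤ lo + (m + 1) * b := by
      have := (Nat.lt_floor_add_one ((w - lo) / b)).le
      rw [div_le_iff₀ hb] at this
      linarith
    have mn : m ≤ n := hn ▸ Nat.floor_le_floor (div_le_div_of_nonneg_right (by linarith [hw.2]) hb.le)
    have hβ0 : 0 < β := by linarith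
    have buf : ∀ k : ℕ, ∀ q : Fin n × Fin N, β ≤ |t q.1 q.2 - (lo + k * b)| := fun k q => by
      rcases lt_or_ge (q.1 : ℕ) k with h | h
      · have k1 : ((q.1 : ℕ) : ℝ) + 1 ≤ k := by exact_mod_cast h
        exact le_abs.2 (Or.inr (by nlinarith [(r q.1 q.2).2]))
      · have k1 : (k : ℝ) ≤ (q.1 : ℕ) := by exact_mod_cast h
        exact le_abs.2 (Or.inl (by nlinarith [(r q.1 q.2).1]))
    have lowr : ∀ q : Fin n × Fin N, (if (q.1 : ℕ) < m then (2:ℝ) else 0) ≤ u q + 1 := fun q => by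
      split_ifs with h
      · have k1 : ((q.1 : ℕ) : ℝ) + 1 ≤ m := by exact_mod_cast h
        rw [(H _ (fun j _ => buf m j) q (Finset.mem_univ q)).1
          (by nlinarith [(r q.1 q.2).2]) m1]
        norm_num
      · linarith [(abs_le.1 (hu q)).1]
    have uppr : ∀ q : Fin n × Fin N, u q + 1 ≤ (if (q.1 : ℕ) < m + 1 then (2:ℝ) else 0) :=
      fun q => by
      split_ifs with h
      · linarith [(abs_le.1 (hu q)).2]
      · have k1 : (m : ℝ) + 1 ≤ (q.1 : ℕ) := by exact_mod_cast not_lt.1 h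
        rw [(H _ (fun j _ => buf (m + 1) j) q (Finset.mem_univ q)).2
          (by push_cast; nlinarith [(r q.1 q.2).1]) (by push_cast; exact m2)]
        norm_num
    have cnt : ∀ k : ℕ, ∑ q : Fin n × Fin N, (if (q.1 : ℕ) < k then (2:ℝ) else 0) =
        2 * N * ((min n k : ℕ) : ℝ) := fun k => by
      have e : ∀ x : Fin n, ∑ _y : Fin N, (if (x : ℕ) < k then (2:ℝ) else 0) =
          N * (if (x : ℕ) < k then (2:ℝ) else 0) := fun x => by
        rw [Finset.sum_const, Finset.card_univ, Fintype.card_fin, nsmul_eq_mul]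
      rw [Fintype.sum_prod_type, Finset.sum_congr rfl fun x _ => e x,
        ← Finset.mul_sum, ← Finset.sum_filter, Finset.sum_const, Fin.card_filter_val_lt,
        nsmul_eq_mul]
      ring
    have s1 := Finset.sum_le_sum fun q (_ : q ∈ Finset.univ) => lowr q
    have s2 := Finset.sum_le_sum fun q (_ : q ∈ Finset.univ) => uppr q
    rw [cnt, min_eq_right mn] at s1
    rw [cnt] at s2
    have k2 : ((min n (m + 1) : ℕ) : ℝ) ≤ m + 1 := by exact_mod_cast min_le_right _ _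
    have s3 : ∑ q : Fin n × Fin N, (u q + 1) ≤ 2 * N * (m + 1) :=
      s2.trans (mul_le_mul_of_nonneg_left k2 (by positivity))
    have hρ : 0 ≤ b / N / 2 := by positivity
    have s4 := mul_le_mul_of_nonneg_left s1 hρ
    have s5 := mul_le_mul_of_nonneg_left s3 hρ
    rw [show b / N / 2 * (2 * N * (m : ℝ)) = m * b by field_simp] at s4
    rw [show b / N / 2 * (2 * N * ((m : ℝ) + 1)) = (m + 1) * b by field_simp] at s5
    exact abs_le.2 ⟨by linarith, by linarith⟩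

end Le

open Le

open Classical in
/-- the levels of both families -/
theorem levels {lo hi : E3} (hle : ∀ i, lo i ≤ hi i) {J : Finset (Fin 3)} (hJ : (2 : Fin 3) ∉ J)
    {b β ϑ ρ₀ : ℝ} (hβ : 0 < β) (hϑ : 0 < ϑ) (hϑ1 : ϑ ≤ 1) (hb : 16 * β ≤ ϑ * b) (hρ₀ : 0 < ρ₀)
    (V : Finset ℝ) (Z : Set (ℝ × ℝ)) (hZ : ∀ a, a ∉ V → {c | (a, c) ∈ Z}.Finite) :
    ∃ ρ δ : ℝ, 0 < δ ∧ δ ≤ ρ ∧ ρ ≤ ρ₀ ∧ ρ ≤ (1 + ϑ) * δ ∧
    ∃ (ι : Type) (_ : Fintype ι) (fam : ι → Bool) (t : ι → ℝ), (∀ i, cof (fam i) ∈ J) ∧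
      (∀ k ∈ J, Lv (lo k) (hi k) b β ρ δ (Finset.univ.filter fun i => cof (fam i) = k) t) ∧
      (∀ i, ∀ v ∈ V, δ / 4 < |t i - v|) ∧
      ∀ i j, fam i = true → fam j = false → (t i, t j) ∉ Z := by
  have hb0 : 0 < b := by
    by_contra hc
    nlinarith [not_lt.1 hc]
  have hm : 0 < min ρ₀ β := lt_min hρ₀ hβ
  obtain ⟨N, hN⟩ := exists_nat_gt (max (8 * V.card / ϑ) (b / min ρ₀ β))
  have hN1 : 8 * V.card / ϑ < N := (le_max_left _ _).trans_lt hN
  have hN2 : b / min ρ₀ β < N := (le_max_right _ _).trans_lt hN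
  have hN0 : (0:ℝ) < N := (div_pos hb0 hm).trans hN2
  have hN0' : 0 < N := by exact_mod_cast hN0
  rw [div_lt_iff₀ hϑ] at hN1
  have hρ : b / N ≤ min ρ₀ β := by
    rw [div_lt_iff₀ hm] at hN2
    rw [div_le_iff₀ hN0]; linarith
  have hρ0 : 0 < b / N := div_pos hb0 hN0
  set δ := b / N / (1 + ϑ) with hδ
  have hδ0 : 0 < δ := by positivity
  have e1 : (1 + ϑ) * δ = b / N := by rw [hδ]; field_simp
  have e2 : N * (b / N) = b := by field_simp
  have hδρ : δ ≤ b / N := by nlinarith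
  have hs : 0 < ϑ * δ / 8 := by positivity
  have hs2 : 2 * (ϑ * δ / 8) ≤ δ := by nlinarith
  have hδβ : δ ≤ β := hδρ.trans (hρ.trans (min_le_right _ _))
  have hfit : (N + V.card) * (δ + ϑ * δ / 8) ≤ b - 2 * β := by
    have k1 : (N + V.card : ℝ) ≤ N * (1 + ϑ / 8) := by linarith
    have k2 : (N + V.card) * (δ + ϑ * δ / 8) ≤ N * (1 + ϑ / 8) * (δ + ϑ * δ / 8) :=
      mul_le_mul_of_nonneg_right k1 (by positivity)
    have k3 : b = (1 + ϑ) * (N * δ) := by rw [← e2, ← e1]; ring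
    have k4 : 0 < N * δ := by positivity
    have k5 : N * (1 + ϑ / 8) * (δ + ϑ * δ / 8) = (1 + ϑ / 8) ^ 2 * (N * δ) := by ring
    have k6 : (1 + ϑ / 8) ^ 2 ≤ (1 + ϑ) * (1 - ϑ / 8) := by nlinarith
    have k7 := mul_le_mul_of_nonneg_right k6 k4.le
    have k8 : (1 + ϑ) * (1 - ϑ / 8) * (N * δ) = b - ϑ * b / 8 := by rw [k3]; ring
    linarith
  have one : ∀ (k : Fin 3) {F : Set ℝ}, F.Finite → ∃ (α : Type) (_ : Fintype α) (t : α → ℝ),
      (∀ _ : α, k ∈ J) ∧ (k ∈ J → Lv (lo k) (hi k) b β (b / N) δ Finset.univ t) ∧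
      (∀ j, ∀ v ∈ V, δ / 4 < |t j - v|) ∧ ∀ j, t j ∉ F := fun k F hF => by
    by_cases hk : k ∈ J
    · obtain ⟨n, t, h1, h2, h3⟩ := line V hF (hle k) hb0 hs hs2 hδβ hN0' hfit
      exact ⟨_, inferInstance, t, fun _ => hk, fun _ => h1, h2, h3⟩
    · exact ⟨Empty, inferInstance, fun j => j.elim, fun j => j.elim, fun h => (hk h).elim,
        fun j => j.elim, fun j => j.elim⟩
  obtain ⟨α, iα, t₀, a1, a2, a3, -⟩ := one 0 finite_empty
  have hF : (⋃ i : α, {c | (t₀ i, c) ∈ Z}).Finite := finite_iUnion fun i => hZ _ fun hv => by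
    have := a3 i _ hv
    rw [sub_self, abs_zero] at this
    linarith
  obtain ⟨γ, iγ, t₁, b1, b2, b3, b4⟩ := one 1 hF
  refine ⟨b / N, δ, hδ0, hδρ, hρ.trans (min_le_left _ _), e1.ge, α ⊕ γ, inferInstance,
    Sum.elim (fun _ => true) (fun _ => false), Sum.elim t₀ t₁, ?_, ?_, ?_, ?_⟩
  · rintro (i | j)
    · exact a1 i
    · exact b1 j
  · intro k hk
    have hk2 : k ≠ 2 := fun e => hJ (e ▸ hk)
    have : k = 0 ∨ k = 1 := by revert hk2; fin_cases k <;> simp
    rcases this with rfl | rfl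
    · have e : (Finset.univ.filter fun i : α ⊕ γ =>
          cof (Sum.elim (fun _ => true) (fun _ => false) i) = 0) =
          Finset.univ.map Function.Embedding.inl := by
        ext (i | j) <;> simp [cof]
      rw [e]
      exact Lv_map _ (fun _ => rfl) (a2 hk)
    · have e : (Finset.univ.filter fun i : α ⊕ γ =>
          cof (Sum.elim (fun _ => true) (fun _ => false) i) = 1) =
          Finset.univ.map Function.Embedding.inr := by
        ext (i | j) <;> simp [cof]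
      rw [e]
      exact Lv_map _ (fun _ => rfl) (b2 hk)
  · rintro (i | j)
    · exact a3 i
    · exact b3 j
  · rintro (i | i) (j | j) hi hj
    · simp at hj
    · exact fun hz => b4 j (mem_iUnion.2 ⟨i, hz⟩)
    · simp at hi
    · simp at hi

end P073.St
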