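import Vale.Agent.P073Y.St.Sk
import Vale.Agent.P073Y.St.Lev
import Vale.Agent.P073Y.Bd.Bas1

/-!
# Levels and the staircase
-/

open Set

namespace P073.St

open P073.Bd (cl)
open P073.Bd.Bas1 A2

namespace Stp

theorem term (t : ℝ) {l : ℝ} (hl : 0 < l) (y : ℝ) :
    l * (1 + cl ((y - t) / l)) = min y (t + l) - min y (t - l) := by
  rcases le_total y (t - l) with h | h
  · rw [cl_of_le ((div_le_iff₀ hl).2 (by linarith)), min_eq_left h, min_eq_left (by linarith)]
    ring
  rcases le_total (t + l) y with h' | h'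
  · rw [cl_of_ge ((le_div_iff₀ hl).2 (by linarith)), min_eq_right h, min_eq_right h']
    ring
  · rw [cl_of_mem ⟨(le_div_iff₀ hl).2 (by linarith), (div_le_iff₀ hl).2 (by linarith)⟩,
      min_eq_right h, min_eq_left h']
    field_simp
    ring

theorem rise {l y y' : ℝ} (hy : y ≤ y') (A : Finset ℝ) :
    (∀ t ∈ A, ∀ t' ∈ A, t < t' → t + l ≤ t' - l) → ∀ M, (∀ t ∈ A, t + l ≤ M) →
      ∑ t ∈ A, (min y' (t + l) - min y' (t - l)) - ∑ t ∈ A, (min y (t + l) - min y (t - l)) ≤
        min y' M - min y M := by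
  induction A using Finset.induction_on_max with
  | empty => exact fun _ M _ => by simpa using min_le_min_right M hy
  | insert a s ha ih =>
    intro h M hM
    have h1 := ih (fun t ht t' ht' => h t (Finset.mem_insert_of_mem ht) t'
      (Finset.mem_insert_of_mem ht')) (a - l) fun t ht =>
        h t (Finset.mem_insert_of_mem ht) a (Finset.mem_insert_self _ _) (ha t ht)
    have h2 := hM a (Finset.mem_insert_self _ _)
    have h3 : min y' (a + l) - min y (a + l) ≤ min y' M - min y M := by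
      simp only [min_def]
      split_ifs <;> linarith
    rw [Finset.sum_insert fun e => (ha a e).false, Finset.sum_insert fun e => (ha a e).false]
    linarith

end Stp

open Stp

theorem stpT : STP := by
  intro lo hi o d ϑ K Z A hd hdo hϑ L
  have hl : 0 < d / 20 := by positivity
  have hm : Monotone (stp A d) := fun y y' h => by
    unfold stp cl
    gcongr
  refine ⟨hm, pl_mul _ (pl_sum _ conicalSet_univ fun t _ => pl_add (pl_const _ conicalSet_univ)
    (pl_cl (pl_congr (pl_mul (d / 20)⁻¹ (pl_sub (pl_id conicalSet_univ)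
      (pl_const t conicalSet_univ))) fun y _ => div_eq_inv_mul _ _))),
    LipschitzWith.of_le_add_mul _ fun y' y => ?_, fun y t ht κ hκ => ?_, fun y hy w hw => ?_⟩
  · rcases le_total y' y with h | h
    · exact (hm h).trans (le_add_of_nonneg_right (by positivity))
    obtain ⟨M, hM⟩ := A.exists_le
    have h1 := rise (l := d / 20) h A (fun t ht t' ht' e => by
      have h2 := L.sep t' ht' t ht e.ne'
      rw [abs_of_pos (sub_pos.2 e)] at h2
      nlinarith) (M + d / 20) fun t ht => by linarith [hM t ht]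
    have h2 : min y' (M + d / 20) - min y (M + d / 20) ≤ y' - y := by
      simp only [min_def]
      split_ifs <;> linarith
    simp only [← term _ hl, ← Finset.mul_sum] at h1
    rw [Real.dist_eq, abs_of_nonneg (sub_nonneg.2 h), stp, stp]
    push_cast
    linarith
  · have h1 := hκ t ht
    refine ⟨fun h2 h3 => ?_, fun h2 h3 => ?_⟩
    · rw [abs_of_neg (sub_neg.2 h2)] at h1
      linarith
    · rw [abs_of_pos (sub_pos.2 h2)] at h1
      linarith
  · obtain ⟨κ, k1, κ', k2, h1, h2, h3, h4⟩ := L.buf y hy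
    have e : ∀ c : ℝ, d * ((A.filter fun t => t ≤ c).card : ℕ) =
        d / 2 * ∑ t ∈ A, if t ≤ c then (2 : ℝ) else 0 := fun c => by
      rw [← Finset.sum_filter, Finset.sum_const, nsmul_eq_mul]
      ring
    have h5 : d * ((A.filter fun t => t ≤ κ).card : ℕ) ≤ stp A d w := by
      rw [e, stp]
      gcongr with t ht
      split_ifs with h
      · have h6 := (hw t ht κ fun t' ht' => (h4 t' ht').1).1 (h.lt_of_ne fun e => by
          have := (h4 t ht).1
          rw [e, sub_self, abs_zero] at this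
          linarith) h1
        rw [cl_of_ge ((le_div_iff₀ hl).2 (by linarith))]
        norm_num
      · linarith [(cl_mem ((w - t) / (d / 20))).1]
    have h6 : stp A d w ≤ d * ((A.filter fun t => t ≤ κ').card : ℕ) := by
      rw [e, stp]
      gcongr with t ht
      split_ifs with h
      · linarith [(cl_mem ((w - t) / (d / 20))).2]
      · have h6 := (hw t ht κ' fun t' ht' => (h4 t' ht').2).2 (not_le.1 h) h2
        rw [cl_of_le ((div_le_iff₀ hl).2 (by linarith))]
        norm_num
    exact abs_le.2 ⟨by linarith [(abs_le.1 (L.cnt κ k1)).1],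
      by linarith [(abs_le.1 (L.cnt κ' k2)).2]⟩

theorem lev : LEV := by
  classical
  intro ϑ h0 h1
  refine ⟨91 / ϑ, (le_div_iff₀ h0).2 (by linarith), fun lo hi o Z hle ho hZ =>
    ⟨o / (hZ.toFinset.card + 1), by positivity, fun d hd hd0 T hT => ?_⟩⟩
  rw [le_div_iff₀ (by positivity)] at hd0
  have hc : (0 : ℝ) ≤ d * hZ.toFinset.card := by positivity
  obtain ⟨N, hN1, hN2⟩ : ∃ N : ℕ, 90 * o ≤ ϑ * (N * d) ∧ N * d ≤ 91 / ϑ * o := by
    refine ⟨⌈90 * o / ϑ / d⌉₊, ?_, ?_⟩
    · have := Nat.le_ceil (90 * o / ϑ / d)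
      rwa [div_le_iff₀ hd, div_le_iff₀' h0] at this
    · have h2 := (Nat.ceil_lt_add_one (show 0 ≤ 90 * o / ϑ / d by positivity)).le
      have h3 : o ≤ o / ϑ := (le_div_iff₀ h0).2 (by nlinarith)
      calc _ ≤ (90 * o / ϑ / d + 1) * d := by gcongr
        _ = 90 * (o / ϑ) + d := by field_simp
        _ ≤ 91 * (o / ϑ) := by linarith
        _ = _ := by ring
  obtain ⟨b, hb⟩ : ∃ b, b = N * d := ⟨_, rfl⟩
  rw [← hb] at hN1 hN2
  have hb0 : 0 < b := by nlinarith
  have hϑd : ϑ * d ≤ d := by nlinarith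
  choose t t1 t2 t3 t4 using fun m : ℕ => Le.period hZ.toFinset hT (lo + m * b + 4 * o)
    (δ := d - ϑ * d / 5) (s := ϑ * d / 10) (by positivity) (by linarith) N
  have r : ∀ (m : ℕ) j, lo + m * b + 4 * o ≤ t m j ∧ t m j ≤ lo + (m + 1) * b - 4 * o :=
    fun m j => ⟨(t1 m j).1, by nlinarith [(t1 m j).2, mul_nonneg h0.le hc]⟩
  have lt : ∀ {m m' : ℕ}, m < m' → ∀ j, t m j ≤ lo + m' * b - 4 * o := fun {m m'} h j => by
    have : (m : ℝ) + 1 ≤ m' := by exact_mod_cast h
    nlinarith [(r m j).2]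
  have ge : ∀ {m m' : ℕ}, m' ≤ m → ∀ j, lo + m' * b + 4 * o ≤ t m j := fun {m m'} h j => by
    have : (m' : ℝ) ≤ m := by exact_mod_cast h
    nlinarith [(r m j).1]
  have sp : ∀ q q' : ℕ × Fin N, q ≠ q' → d - ϑ * d / 5 ≤ |t q.1 q.2 - t q'.1 q'.2| := by
    rintro ⟨m, j⟩ ⟨m', j'⟩ h
    rcases lt_trichotomy m m' with e | rfl | e
    · exact le_abs.2 (Or.inr (by linarith [lt e j, (r m' j').1, mul_pos h0 hd]))
    · exact t2 m j j' fun e => h (by rw [e])
    · exact le_abs.2 (Or.inl (by linarith [lt e j', (r m j).1, mul_pos h0 hd]))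
  have fl : ∀ y, lo ≤ y → ∃ m : ℕ, m = ⌊(y - lo) / b⌋₊ ∧ lo + m * b ≤ y ∧ y < lo + (m + 1) * b :=
    fun y hy => ⟨_, rfl, by
      have := Nat.floor_le (div_nonneg (sub_nonneg.2 hy) hb0.le)
      rw [le_div_iff₀ hb0] at this
      linarith, by
      have := Nat.lt_floor_add_one ((y - lo) / b)
      rw [div_lt_iff₀ hb0] at this
      linarith⟩
  obtain ⟨n, hn, n1, -⟩ := fl hi hle
  let B : ℕ → Finset ℝ := fun k =>
    (Finset.range k ×ˢ Finset.univ).image fun q : ℕ × Fin N => t q.1 q.2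
  have mem : ∀ {k x}, x ∈ B k ↔ ∃ m < k, ∃ j, t m j = x := by simp [B]
  have card : ∀ k, d * ((B k).card : ℕ) = k * b := fun k => by
    rw [Finset.card_image_of_injective _ fun q q' e => by_contra fun h => by
      have := sp q q' h
      rw [show t q.1 q.2 = t q'.1 q'.2 from e, sub_self, abs_zero] at this
      linarith]
    simp [hb]
    ring
  have ins : ∀ x ∈ B n, lo + 3 * o < x ∧ x < hi - 3 * o := fun x hx => by
    obtain ⟨m, hm, j, rfl⟩ := mem.1 hx
    exact ⟨by simpa using (by linarith [ge (Nat.zero_le m) j] : lo + (0 : ℕ) * b + 3 * o < t m j),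
      by linarith [lt hm j]⟩
  have buf : ∀ k : ℕ, ∀ x ∈ B n, 3 * o < |x - (lo + k * b)| := fun k x hx => by
    obtain ⟨m, -, j, rfl⟩ := mem.1 hx
    rcases lt_or_ge m k with h | h
    · exact lt_abs.2 (Or.inr (by linarith [lt h j]))
    · exact lt_abs.2 (Or.inl (by linarith [ge h j]))
  refine ⟨B n, ⟨fun x hx z hz => ?_, ins, fun x hx x' hx' e => ?_, fun y hy => ?_,
    fun y hy => ?_⟩, fun x hx => ?_⟩
  · obtain ⟨m, -, j, rfl⟩ := mem.1 hx
    linarith [t3 m j z (hZ.mem_toFinset.2 hz)]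
  · obtain ⟨m, -, j, rfl⟩ := mem.1 hx
    obtain ⟨m', -, j', rfl⟩ := mem.1 hx'
    have h2 := sp (m, j) (m', j') fun h => e (by cases h; rfl)
    refine le_trans ?_ (mul_le_mul_of_nonneg_left h2 (by linarith))
    nlinarith [mul_pos h0 hd]
  · obtain ⟨m, -, m1, m2⟩ := fl y hy.1
    have h2 : (0 : ℝ) ≤ m * b := by positivity
    refine ⟨lo + m * b, ⟨by linarith, m1.trans hy.2⟩, min hi (lo + (m + 1 : ℕ) * b),
      ⟨le_min hle (le_add_of_nonneg_right (by positivity)), min_le_left _ _⟩, m1,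
      le_min hy.2 (by push_cast; exact m2.le), (min_le_right _ _).trans (by push_cast; linarith),
      fun x hx => ⟨buf m x hx, ?_⟩⟩
    rcases min_choice hi (lo + (m + 1 : ℕ) * b) with h | h <;> rw [h]
    · exact lt_abs.2 (Or.inr (by linarith [(ins x hx).2]))
    · exact buf _ x hx
  · obtain ⟨m, hm, m1, m2⟩ := fl y hy.1
    have mn : m ≤ n := by
      rw [hm, hn]
      gcongr
      exact hy.2
    have h2 : (B m).card ≤ ((B n).filter fun t => t ≤ y).card := Finset.card_le_card fun x hx => by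
      obtain ⟨k, hk, j, rfl⟩ := mem.1 hx
      exact Finset.mem_filter.2 ⟨mem.2 ⟨k, by omega, j, rfl⟩, by linarith [lt hk j]⟩
    have h3 : ((B n).filter fun t => t ≤ y).card ≤ (B (m + 1)).card :=
      Finset.card_le_card fun x hx => by
        obtain ⟨hx, hxy⟩ := Finset.mem_filter.1 hx
        obtain ⟨k, -, j, rfl⟩ := mem.1 hx
        refine mem.2 ⟨k, not_le.1 fun h => ?_, j, rfl⟩
        have := ge h j
        push_cast at this
        linarith
    have h4 := mul_le_mul_of_nonneg_left (Nat.cast_le (α := ℝ).2 h2) hd.le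
    have h5 := mul_le_mul_of_nonneg_left (Nat.cast_le (α := ℝ).2 h3) hd.le
    rw [card] at h4 h5
    push_cast at h5
    exact abs_le.2 ⟨by linarith, by linarith⟩
  · obtain ⟨m, -, j, rfl⟩ := mem.1 hx
    exact t4 m j

end P073.St
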