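import Vale.Agent.P073Y.St.Sk
import Vale.Agent.P073Y.Bd.Sk
import Vale.Agent.P073Z.TriU

/-!
# Normalisation in one box: the common subdivision and the amalgamated complex
-/

open Set Metric Topology Filter MeasureTheory
open scoped NNReal ENNReal

namespace P073.St

open P073.Top

namespace Tc

variable {Ω Λ : Set E3}

/-! ### the preimage of a complex -/

theorem inv_image_eq_pre (g : ConHomeo Ω Λ) {Y : Set E3} (hY : Y ⊆ Λ) :
    g.invFun '' Y = pre g Y := by
  apply Subset.antisymm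
  · rintro _ ⟨y, hy, rfl⟩
    exact ⟨g.mapsTo_inv (hY hy), by rw [g.right_inv (hY hy)]; exact hy⟩
  · rintro x ⟨hx, hy⟩
    exact ⟨g.toFun x, hy, g.left_inv hx⟩

theorem pre_subset (g : ConHomeo Ω Λ) (Y : Set E3) : pre g Y ⊆ Ω := fun _ hx => hx.1

/-- the preimage of a complex -/
noncomputable def pullCx (g : ConHomeo Ω Λ) (P : RCx E3) (hP : P.carrier ⊆ Λ) : RCx E3 :=
  P.image g.symm hP

section pull

variable (g : ConHomeo Ω Λ) (P : RCx E3) (hP : P.carrier ⊆ Λ)

theorem pullCx_cell (c : P.ι) : (pullCx g P hP).cell c = pre g (P.cell c) :=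
  inv_image_eq_pre g ((P.cell_subset_carrier c).trans hP)

theorem pullCx_bd (c : P.ι) : (pullCx g P hP).bd c = pre g (P.bd c) :=
  inv_image_eq_pre g (((P.bd_subset c).trans (P.cell_subset_carrier c)).trans hP)

theorem pullCx_ocell (c : P.ι) : (pullCx g P hP).ocell c = pre g (P.ocell c) :=
  (P.image_ocell g.symm hP c).trans
    (inv_image_eq_pre g (((P.ocell_subset c).trans (P.cell_subset_carrier c)).trans hP))

theorem pullCx_carrier : (pullCx g P hP).carrier = pre g P.carrier :=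
  (P.image_carrier g.symm hP).trans (inv_image_eq_pre g hP)

theorem pullCx_subset_iff {c c' : P.ι} :
    (pullCx g P hP).cell c ⊆ (pullCx g P hP).cell c' ↔ P.cell c ⊆ P.cell c' :=
  P.image_subset_iff g.symm hP ((P.cell_subset_carrier c').trans hP)

end pull

theorem isCompact_carrier (K : RCx E3) [Finite K.ι] : IsCompact K.carrier :=
  isCompact_iUnion K.isCompact_cell

/-! ### a subdivision of a part of a complex -/

/-- `T` subdivides the part of `R` in its carrier -/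
structure Fine (T R : RCx E3) : Prop where
  car : T.carrier ⊆ R.carrier
  sub : ∀ c, T.Sub (R.cell c ∩ T.carrier)

namespace Fine

variable {T R : RCx E3} {i : T.ι} {c : R.ι} {x : E3}

theorem face (h : Fine T R) (hi : x ∈ T.ocell i) (hc : x ∈ R.cell c) : T.cell i ⊆ R.cell c :=
  ((h.sub c).cell_subset hi ⟨hc, T.cell_subset_carrier i hi.1⟩).trans inter_subset_left

theorem sub_of (h : Fine T R) {X : Set E3} (hX : R.Sub X) (hT : X ⊆ T.carrier) : T.Sub X := by
  intro x hx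
  obtain ⟨c, hc, hs⟩ := hX x hx
  obtain ⟨i, hi⟩ := T.exists_ocell (hT hx)
  exact ⟨i, hi.1, (h.face hi hc).trans hs⟩

theorem dim_lt (h : Fine T R) (hD : Dim) (hs : T.cell i ⊆ R.bd c) : T.dim i < R.dim c := by
  obtain ⟨x, hx⟩ := T.ocell_nonempty i
  obtain ⟨c', h1, -, h3⟩ := R.exists_face_bd (hs hx.1)
  exact (hD.mono (T.ball i) (R.ball c') (h.face hx h1.1)).trans_lt h3

theorem carry (h : Fine T R) (i : T.ι) : ∃ c, T.ocell i ⊆ R.ocell c ∧ T.cell i ⊆ R.cell c := by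
  obtain ⟨x, hx⟩ := T.ocell_nonempty i
  obtain ⟨c, hc⟩ := R.exists_ocell (h.car (T.cell_subset_carrier i hx.1))
  refine ⟨c, fun y hy => ⟨h.face hx hc.1 hy.1, fun hb => ?_⟩, h.face hx hc.1⟩
  obtain ⟨c', h1, h2, -⟩ := R.exists_face_bd hb
  exact hc.2 (h2 (h.face hy h1.1 hx.1))

theorem up (h : Fine T R) (hi : x ∈ T.cell i) (hc : x ∈ R.ocell c) :
    ∃ c', T.ocell i ⊆ R.ocell c' ∧ R.cell c ⊆ R.cell c' :=
  let ⟨c', h1, h2⟩ := h.carry i; ⟨c', h1, R.cell_subset_of_mem hc (h2 hi)⟩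

end Fine

theorem disjoint_or_face (R : RCx E3) {c c' : R.ι} (h : c ≠ c') :
    Disjoint (R.cell c \ R.bd c) (R.cell c') ∨ (R.cell c ⊆ R.bd c' ∧ R.dim c < R.dim c') := by
  by_cases hs : R.cell c ⊆ R.cell c'
  · exact Or.inr ⟨R.subset_bd_of_ne hs h, R.dim_lt (R.subset_bd_of_ne hs h)⟩
  · exact Or.inl (R.disjoint_ocell_cell hs)

end Tc

open Tc

/-! ### the common subdivision -/

theorem tric : TRIC := by
  intro Ω Λ S g P _ hΩ hP
  have hfin : Finite (pullCx g P hP).ι := ‹Finite P.ι›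
  have hQ : ∀ c, S.Q.cell c ⊆ Ω := fun c => (S.Q.cell_subset_carrier c).trans S.carrier.le
  have hP' : ∀ c, (pullCx g P hP).cell c ⊆ Ω := fun c =>
    (pullCx_cell g P hP c).le.trans (pre_subset g _)
  have hcell : ∀ (K : RCx E3) (c : K.ι), K.cell c ⊆ Ω → K.cell c ⊆ Ω ∧ ClosedIn (K.cell c) Ω ∧
      LocConeOn (K.cell c) Ω ∧ PLOn g.toFun (K.cell c) := fun K c h =>
    ⟨h, closedIn_of_isClosed (K.isClosed_cell c) Ω, fun x _ => K.locCone_cell c x,
      g.cont.mono h, g.conical.mono (K.locCone_cell c).conicalSet h⟩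
  obtain ⟨T, hcvx, -, -, hT⟩ := tri (κ := S.Q.ι ⊕ P.ι) (U := Ω)
    (Sum.elim S.Q.cell (pullCx g P hP).cell) (fun _ => g.toFun) (r := fun _ => 1) hΩ
    ⟨continuousOn_const, fun _ _ => one_pos⟩
    (fun x hx => by
      obtain ⟨U, hU, hf⟩ := S.Q.lfIn x (S.carrier.symm ▸ hx)
      refine ⟨U, hU, ((hf.image Sum.inl).union (finite_range Sum.inr)).subset ?_⟩
      rintro (c | c) hc
      · exact Or.inl ⟨c, hc, rfl⟩
      · exact Or.inr ⟨c, rfl⟩)
    (by
      rintro (c | c)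
      · exact hcell S.Q c (hQ c)
      · exact hcell (pullCx g P hP) c (hP' c))
  have hsub : T.Sub (pre g P.carrier) := by
    rw [← pullCx_carrier g P hP]
    exact T.sub_iUnion fun c => (hT (Sum.inr c)).1
  have hcpt : IsCompact (pre g P.carrier) := by
    rw [← pullCx_carrier g P hP]
    exact isCompact_carrier _
  have hcar := hsub.within_carrier
  refine ⟨{ gC := (g.symm.restr P.sub_carrier.conicalSet hP).symm.cast
              (inv_image_eq_pre g hP) rfl
            gC_eq := rfl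
            gC_inv := rfl
            T := T.within (pre g P.carrier)
            cvx := hcvx.restrict _ _
            fin := hsub.finite_within hcpt
            carrier := hcar
            subQ := fun c => ((hT (Sum.inl c)).1.inter hsub).restrict _
              (inter_subset_right.trans hcar.ge)
            subP := fun c => ?_
            aff := fun i => ?_ }⟩
  · have h1 : T.Sub (pre g (P.cell c)) := pullCx_cell g P hP c ▸ (hT (Sum.inr c)).1
    exact h1.restrict _ fun x hx => hcar.ge ⟨hx.1, P.cell_subset_carrier c hx.2⟩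
  · obtain ⟨x, hx⟩ := T.ocell_nonempty i.1
    have hx' : x ∈ (pullCx g P hP).carrier := by
      rw [pullCx_carrier]; exact i.2 hx.1
    obtain ⟨c, hc⟩ := (pullCx g P hP).mem_carrier.1 hx'
    exact (hT (Sum.inr c)).2 i.1 ((hT (Sum.inr c)).1.cell_subset hx hc)

/-! ### the amalgamated complex -/

theorem amk_of (hA : Bd.AMAL) (hD : Dim) : AMK := by
  intro Ω Λ S g lo hi o J L τ
  have hP : L.P.carrier ⊆ Λ := fun y hy => by
    have h1 := τ.gC.mapsTo_inv hy
    rw [← τ.gC.right_inv hy, τ.gC_eq]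
    exact g.mapsTo h1.1
  have := τ.fin
  have := L.fin
  have hcar : τ.T.carrier = pre g (Icc lo hi) := by rw [τ.carrier, L.carrier]
  have hQ : Fine τ.T S.Q :=
    ⟨by rw [τ.carrier, S.carrier]; exact pre_subset g _, fun c => by
      rw [τ.carrier]; exact τ.subQ c⟩
  have hR : Fine τ.T (pullCx g L.P hP) :=
    ⟨by rw [τ.carrier, pullCx_carrier], fun c => by
      have h1 : τ.T.Sub ((pullCx g L.P hP).cell c) :=
        (pullCx_cell g L.P hP c).symm ▸ τ.subP c
      exact h1.inter τ.T.sub_carrier⟩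
  have hW : ∀ φ, Whole S g.toFun L.inn φ → S.Q.cell φ ⊆ τ.T.carrier := fun φ hφ x hx => by
    rw [hcar]
    exact ⟨S.carrier ▸ S.Q.cell_subset_carrier φ hx,
      interior_subset (L.inn_sub (hφ φ Subset.rfl x hx))⟩
  have hW' : ∀ c, (pullCx g L.P hP).cell c ⊆ τ.T.carrier := fun c => by
    rw [τ.carrier, ← pullCx_carrier g L.P hP]
    exact (pullCx g L.P hP).cell_subset_carrier c
  have hfinW : Finite {φ // Whole S g.toFun L.inn φ} :=
    (S.Q.finite_subset (isCompact_carrier τ.T) hQ.car).subset fun φ hφ => hW φ hφ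
  have hup : ∀ φ φ', Whole S g.toFun L.inn φ → S.Q.cell φ ⊆ S.Q.cell φ' →
      Whole S g.toFun L.inn φ' := fun φ φ' hφ hs c hc => hφ c (hs.trans hc)
  have hdis : ∀ φ, Whole S g.toFun L.inn φ → ∀ c ∈ L.W,
      Disjoint (S.Q.cell φ) ((pullCx g L.P hP).cell c) := fun φ hφ c hc => by
    rw [pullCx_cell, Set.disjoint_left]
    exact fun x hx hx' => Set.disjoint_left.1 (L.disj c hc) hx'.2 (hφ φ Subset.rfl x hx)
  have hupQ : ∀ (φ : {φ // Whole S g.toFun L.inn φ}) (i : τ.T.ι) (x : E3), x ∈ τ.T.cell i →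
      x ∈ S.Q.ocell φ.1 → ∃ φ' : {φ // Whole S g.toFun L.inn φ},
        τ.T.ocell i ⊆ S.Q.ocell φ'.1 := fun φ i x hx hφ =>
    let ⟨φ', h1, h2⟩ := hQ.up hx hφ; ⟨⟨φ', hup _ _ φ.2 h2⟩, h1⟩
  have hupR : ∀ (c : L.W) (i : τ.T.ι) (x : E3), x ∈ τ.T.cell i →
      x ∈ (pullCx g L.P hP).ocell c.1 → ∃ c' : L.W,
        τ.T.ocell i ⊆ (pullCx g L.P hP).ocell c'.1 := fun c i x hx hc =>
    let ⟨c', h1, h2⟩ := hR.up hx hc
    ⟨⟨c', L.up _ c.2 c' ((pullCx_subset_iff g L.P hP).1 h2)⟩, h1⟩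
  obtain ⟨K, e, f, hfin, hK, he, hf, hcases⟩ := hA τ.T
    (μ := {φ // Whole S g.toFun L.inn φ} ⊕ L.W)
    (Sum.elim (fun φ => S.Q.cell φ.1) fun c => (pullCx g L.P hP).cell c.1)
    (Sum.elim (fun φ => S.Q.bd φ.1) fun c => (pullCx g L.P hP).bd c.1)
    (Sum.elim (fun φ => S.Q.dim φ.1) fun c => (pullCx g L.P hP).dim c.1)
    (by
      rintro (φ | c)
      · exact ⟨S.Q.ball φ.1, hQ.sub_of (S.Q.sub_cell _) (hW _ φ.2),
          hQ.sub_of (S.Q.sub_bd _) ((S.Q.bd_subset _).trans (hW _ φ.2))⟩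
      · exact ⟨(pullCx g L.P hP).ball c.1, hR.sub_of (RCx.sub_cell _ _) (hW' _),
          hR.sub_of (RCx.sub_bd _ _) ((RCx.bd_subset _ _).trans (hW' _))⟩)
    (by
      rintro (φ | c) (φ' | c') hne
      · exact disjoint_or_face S.Q fun h => hne (congrArg Sum.inl (Subtype.ext h))
      · exact Or.inl ((hdis _ φ.2 _ c'.2).mono_left sdiff_subset)
      · exact Or.inl ((hdis _ φ'.2 _ c.2).symm.mono_left sdiff_subset)
      · exact disjoint_or_face (pullCx g L.P hP) fun h => hne (congrArg Sum.inr (Subtype.ext h)))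
    (by
      rintro (φ | c) i hi
      · exact hQ.dim_lt hD hi
      · exact hR.dim_lt hD hi)
    (by
      rintro (φ | c) i ⟨x, hx, hm⟩
      · obtain ⟨φ', h⟩ := hupQ φ i x hx hm
        exact Or.inr ⟨Sum.inl φ', h⟩
      · obtain ⟨c', h⟩ := hupR c i x hx hm
        exact Or.inr ⟨Sum.inr c', h⟩)
  have hpull : ∀ c : L.W, Pull K L.P g (e (Sum.inr c)) c.1 := fun c =>
    ⟨(he _).1.trans (pullCx_cell g L.P hP _), (he _).2.1.trans (pullCx_bd g L.P hP _), (he _).2.2⟩
  refine ⟨{ K := K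
            fin := hfin
            carrier := hK.trans hcar
            whole := fun φ hφ => ⟨e (Sum.inl ⟨φ, hφ⟩), he _⟩
            lay := fun c hc => ⟨e (Sum.inr ⟨c, hc⟩), hpull _⟩
            cases := fun j => ?_ }⟩
  rcases hcases j with ⟨φ | c, rfl⟩ | ⟨i, rfl⟩
  · exact Or.inl ⟨φ.1, φ.2, he _⟩
  · exact Or.inr (Or.inl ⟨c.1, c.2, hpull c⟩)
  · obtain ⟨y, hy⟩ := τ.T.ocell_nonempty i.1
    refine Or.inr (Or.inr ⟨⟨i.1, hf i⟩, fun φ hφ => ?_, fun c hc => ?_⟩)
    · rw [(hf i).1, Set.disjoint_left]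
      intro x hx hm
      obtain ⟨φ', h⟩ := hupQ ⟨φ, hφ⟩ i.1 x hx hm
      exact Set.disjoint_left.1 (i.2 (Sum.inl φ')) hy (h hy)
    · rw [(hf i).1, ← pullCx_ocell g L.P hP, Set.disjoint_left]
      intro x hx hm
      obtain ⟨c', h⟩ := hupR ⟨c, hc⟩ i.1 x hx hm
      exact Set.disjoint_left.1 (i.2 (Sum.inr c')) hy (h hy)

end P073.St
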