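import Vale.Agent.P073Y.St.Api
import Vale.Agent.P073Y.St.Dim
import Vale.Agent.P073Y.St.Eng
import Vale.Agent.P073Y.St.Ens
import Vale.Agent.P073Y.St.Est
import Vale.Agent.P073Y.St.Fin
import Vale.Agent.P073Y.St.Hat
import Vale.Agent.P073Y.St.Lay
import Vale.Agent.P073Y.St.Main
import Vale.Agent.P073Y.St.Perm2
import Vale.Agent.P073Y.St.Pick
import Vale.Agent.P073Y.St.Raw
import Vale.Agent.P073Y.St.Run
import Vale.Agent.P073Y.St.Shp
import Vale.Agent.P073Y.St.Site
import Vale.Agent.P073Y.St.Sqr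
import Vale.Agent.P073Y.St.Stp
import Vale.Agent.P073Y.St.Tric
import Vale.Agent.P073Y.Bd.Amal
import Vale.Agent.P073Y.Fi.All

/-!
# Normalisation in one box: the unconditional statement
-/

namespace P073.St

theorem eng {p : ℝ} (hp : 1 ≤ p) : ENG p := by
  obtain ⟨c₀, h⟩ := Fi.w2s
  exact eng_of api dim raw (sqr_of dim) (run_of Fi.init1s (h c₀ le_rfl))
    (fun h1 h2 h3 h4 h5 h6 _ _ _ _ => sharp_of api h1 h2 h3 h4 h5 h6) hp

theorem st1 {p : ℝ} (hp : 1 ≤ p) : ST1 p :=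
  st1_of (pick_of lev cnt) stpT (eng hp) (est_of api dim (sqr_of dim))

theorem stage {p : ℝ} (hp : 1 ≤ p) : Top.STAGE p :=
  perm p (stage0_of lay tric (amk_of Bd.amal dim) (site_of dim) (st1 hp) hat
    (finb_of api (ens_of api) hp) (finc_of api hp))

end P073.St
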