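import Vale.Agent.P073Y.St.Sk
import Vale.Agent.P073Y.Bd.Map
import Vale.Agent.P073Z.A1b

/-!
# Lipschitz constants and energies: elementary facts
-/

open Set Metric Topology Filter MeasureTheory
open scoped NNReal ENNReal

namespace P073.St

open P073.Bd (Chart)
open P073.Top

namespace ApiAux

section

variable {E F F' : Type} [NormedAddCommGroup E] [NormedAddCommGroup F] [NormedAddCommGroup F']

theorem ratio_le (f : E → F) {X : Set E} {x y : E} (hx : x ∈ X) (hy : y ∈ X) :
    edist (f x) (f y) / edist x y ≤ lipc f X :=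
  le_iSup₂_of_le x hx (le_iSup₂_of_le y hy le_rfl)

theorem edist_le (f : E → F) {X : Set E} {x y : E} (hx : x ∈ X) (hy : y ∈ X) :
    edist (f x) (f y) ≤ lipc f X * edist x y := by
  rcases eq_or_ne x y with rfl | h
  · simp
  · exact (ENNReal.div_le_iff (edist_pos.2 h).ne' (edist_ne_top _ _)).1 (ratio_le f hx hy)

theorem le_of {f : E → F} {X : Set E} {B : ℝ≥0∞}
    (h : ∀ x ∈ X, ∀ y ∈ X, edist (f x) (f y) ≤ B * edist x y) : lipc f X ≤ B :=
  iSup₂_le fun x hx => iSup₂_le fun y hy => ENNReal.div_le_of_le_mul (h x hx y hy)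

theorem le_iff {f : E → F} {X : Set E} {L : ℝ≥0} : lipc f X ≤ L ↔ LipschitzOnWith L f X :=
  ⟨fun h _ hx _ hy => (edist_le f hx hy).trans (mul_le_mul_left h _),
    fun h => le_of fun _ hx _ hy => h hx hy⟩

theorem lipAt_le_lipc (f : E → F) {X : Set E} {x : E} (hx : x ∈ X) : lipAt f X x ≤ lipc f X :=
  iInf₂_le_of_le 1 one_pos (iSup₂_le fun _ hy => ratio_le f hy.1 hx)

theorem lipAt_add (f f' : E → F) {X : Set E} {x : E} (hx : x ∈ X) :
    lipAt (fun x => f x + f' x) X x ≤ lipAt f X x + lipc f' X := by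
  simp only [lipAt, ENNReal.iInf_add]
  refine iInf₂_mono fun r _ => iSup₂_le fun y hy => ?_
  refine (ENNReal.div_le_div_right (edist_add_add_le _ _ _ _) _).trans ?_
  rw [ENNReal.add_div]
  exact add_le_add (le_iSup₂_of_le y hy le_rfl) (ratio_le f' hy.1 hx)

theorem lipAt_mul (f : E → F) (f' : E → F') {X : Set E} {L : ℝ≥0} {x : E} (hx : x ∈ X)
    (h : ∀ x ∈ X, ∀ y ∈ X, edist (f x) (f y) ≤ L * edist (f' x) (f' y)) :
    lipAt f X x ≤ L * lipAt f' X x := by
  rcases eq_or_ne (L : ℝ≥0∞) 0 with h0 | h0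
  · refine (lipAt_le_lipc f hx).trans ((le_of (B := 0) fun u hu w hw => ?_).trans zero_le)
    simpa [h0] using h u hu w hw
  simp only [lipAt, ENNReal.mul_iInf_of_ne h0 ENNReal.coe_ne_top]
  refine iInf₂_mono fun r _ => iSup₂_le fun y hy => ?_
  refine (ENNReal.div_le_div_right (h y hy.1 x hx) _).trans ?_
  rw [mul_div_assoc]
  exact mul_le_mul_right
    (le_iSup₂ (f := fun y (_ : y ∈ X ∩ ball x r) => edist (f' y) (f' x) / edist y x) y hy) _

end

theorem add_rpow (a b : ℝ≥0∞) {p : ℝ} (hp : 0 < p) : (a + b) ^ p ≤ 2 ^ p * (a ^ p + b ^ p) := by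
  wlog h : a ≤ b generalizing a b
  · rw [add_comm a, add_comm (a ^ p)]
    exact this b a (le_of_not_ge h)
  calc (a + b) ^ p ≤ (2 * b) ^ p := ENNReal.rpow_le_rpow (by rw [two_mul]; gcongr) hp.le
    _ = 2 ^ p * b ^ p := ENNReal.mul_rpow_of_nonneg _ _ hp.le
    _ ≤ _ := mul_le_mul_right le_add_self _

theorem segVar_le (g : E3 → E3) (x y : E3) (k : Fin 3) :
    segVar (fun u => g u k) x y ≤ lipc g (segment ℝ x y) * edist x y := by
  rcases eq_or_ne (lipc g (segment ℝ x y) * edist x y) ⊤ with h | h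
  · exact h ▸ le_top
  have m : ∀ s ∈ Icc (0 : ℝ) 1, AffineMap.lineMap x y s ∈ segment ℝ x y := fun s hs => by
    rw [segment_eq_image_lineMap]
    exact mem_image_of_mem _ hs
  have h1 : LipschitzOnWith (lipc g (segment ℝ x y) * edist x y).toNNReal
      (fun s : ℝ => g (AffineMap.lineMap x y s) k) (Icc 0 1) := fun s hs t ht => by
    rw [ENNReal.coe_toNNReal h, mul_assoc]
    refine (edist_le_pi_edist _ _ k).trans ((edist_le g (m s hs) (m t ht)).trans ?_)
    exact mul_le_mul_right (by simpa only [edist_nndist x y] using lipschitzWith_lineMap x y s t) _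
  have h2 := h1.comp_eVariationOn_le (g := id) (s := Icc 0 1) fun _ h => h
  have h3 := (monotoneOn_id (s := Icc (0 : ℝ) 1)).eVariationOn_eq (left_mem_Icc.2 zero_le_one)
    (right_mem_Icc.2 zero_le_one)
  rw [inter_self, id, id, sub_zero, ENNReal.ofReal_one] at h3
  rw [ENNReal.coe_toNNReal h] at h2
  exact h2.trans (mul_le_of_le_one_right' h3.le)

theorem sq : μH[((2 : ℕ) : ℝ)] (closedBall (0 : E2) 1) = 4 := by
  have h := hausdorffMeasure_pi_real (ι := Fin 2)
  rw [Fintype.card_fin] at h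
  rw [h, Real.volume_pi_closedBall _ zero_le_one, Fintype.card_fin]
  norm_num

end ApiAux

open ApiAux in
theorem api : Api where
  le_iff := le_iff
  mono _ _ _ h := iSup₂_le fun _ hx => iSup₂_le fun _ hy => ratio_le _ (h hx) (h hy)
  congr e := iSup_congr fun _ => iSup_congr fun hx => iSup_congr fun _ => iSup_congr fun hy => by
    rw [e hx, e hy]
  add f f' _ := le_of fun _ hx _ hy => by
    rw [add_mul]
    exact (edist_add_add_le _ _ _ _).trans (add_le_add (edist_le f hx hy) (edist_le f' hx hy))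
  edist_le := edist_le
  le_of := le_of
  fin h1 h2 h3 := by
    obtain ⟨M, hM⟩ := lip h1 h2 h3
    exact ne_top_of_le_ne_top ENNReal.coe_ne_top (le_iff.2 hM)
  cover {f X B} 𝒞 hX hf h hc := by
    rcases eq_or_ne B ⊤ with rfl | hB
    · exact le_top
    lift B to ℝ≥0 using hB
    refine le_of fun x hx y hy => edist_pi_le_iff.2 fun k => ?_
    refine Bd.lipg.1 (f := fun x => f x k) hX ⟨hf.toFinset, fun Y hY => ?_, ?_⟩ hx hy
    · obtain ⟨h1, h2⟩ := h Y (hf.mem_toFinset.1 hY)
      exact ⟨h1, fun u hu w hw => (edist_le_pi_edist _ _ k).trans (le_iff.1 h2 hu hw)⟩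
    · simpa only [Finite.mem_toFinset, ← sUnion_eq_biUnion] using hc
  lat g x y := by
    rw [mul_assoc, two_mul]
    exact add_le_add (segVar_le g x y 0) (segVar_le g x y 1)
  area {C B M₁ M₂} := by
    rintro ⟨-, φ, -, -, h⟩
    refine ⟨?_, fun x hx y hy => ?_⟩
    · refine (measure_mono (t := φ.invFun '' closedBall 0 1)
        fun x hx => ⟨_, φ.mapsTo hx, φ.left_inv hx⟩).trans
        ((h.hausdorffMeasure_image_le (by positivity)).trans (le_of_eq ?_))
      rw [ApiAux.sq, ENNReal.rpow_natCast, mul_comm]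
    · have h1 := h.dist_le_mul _ (φ.mapsTo hx) _ (φ.mapsTo hy)
      have h2 := dist_triangle_right (φ.toFun x) (φ.toFun y) 0
      have h3 := mem_closedBall.1 (φ.mapsTo hx)
      have h4 := mem_closedBall.1 (φ.mapsTo hy)
      rw [φ.left_inv hx, φ.left_inv hy] at h1
      nlinarith [M₂.coe_nonneg]
  sq := ApiAux.sq
  en f X hp hX := by
    rw [← setLIntegral_const]
    exact setLIntegral_mono' hX.measurableSet fun x hx =>
      ENNReal.rpow_le_rpow (lipAt_le_lipc f hx) hp.le
  en_add f f' X hp hX := by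
    rw [← setLIntegral_const, En, En, ← lintegral_add_right _ measurable_const,
      ← lintegral_const_mul' _ _ (ENNReal.rpow_ne_top_of_nonneg hp.le ENNReal.ofNat_ne_top)]
    exact setLIntegral_mono' hX.measurableSet fun x hx =>
      (ENNReal.rpow_le_rpow (lipAt_add f f' hx) hp.le).trans (add_rpow _ _ hp)
  en_le f f' X L hp hX h := by
    rw [En, En,
      ← lintegral_const_mul' _ _ (ENNReal.rpow_ne_top_of_nonneg hp.le ENNReal.coe_ne_top)]
    exact setLIntegral_mono' hX.measurableSet fun x hx =>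
      (ENNReal.rpow_le_rpow (lipAt_mul f f' hx h) hp.le).trans
        (ENNReal.mul_rpow_of_nonneg _ _ hp.le).le
  wires S g φ s h := by
    refine le_trans (le_of_eq ?_) (ENNReal.sum_le_tsum s)
    exact Finset.sum_congr rfl fun e he => (if_pos (h e he)).symm

end P073.St
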