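import Vale.Agent.P073Y.St.Sk
import Vale.Agent.P073Y.Nt.Rint

/-!
# The affine chart of a marked face
-/

open Set Metric Topology Filter MeasureTheory
open scoped NNReal ENNReal

namespace P073.St

open P073.Bd (Chart)
open P073.Top

namespace Sqr

variable {ψ : E2 →ᵃ[ℝ] E3}

theorem dist_eq (ψ : E2 →ᵃ[ℝ] E3) (v w : E2) : dist (ψ v) (ψ w) = ‖ψ.linear (v - w)‖ := by
  rw [dist_eq_norm, ← vsub_eq_sub, ← ψ.linearMap_vsub, vsub_eq_sub]

theorem inducing (h : Function.Injective ψ) : IsInducing ψ := by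
  obtain ⟨K, -, hK⟩ := ψ.linear.exists_antilipschitzWith
    (LinearMap.ker_eq_bot.2 (ψ.linear_injective_iff.2 h))
  refine (AntilipschitzWith.of_le_mul_dist (K := K) fun v w => ?_).isInducing
    ψ.continuous_of_finiteDimensional
  have h1 := hK.le_mul_dist (v - w) 0
  rwa [map_zero, dist_zero_right, dist_zero_right, ← dist_eq, ← dist_eq_norm] at h1

/-- the relative boundary of an affine square -/
theorem frontier_eq (h : Function.Injective ψ) :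
    intrinsicFrontier ℝ (ψ '' Fi.Q) = ψ '' Fi.Sq := by
  have h1 : (affineSpan ℝ (ψ '' Fi.Q) : Set E3) = range ψ := by
    rw [← AffineSubspace.map_span,
      (convex_closedBall (0 : E2) 1).interior_nonempty_iff_affineSpan_eq_top.1
      ⟨0, by rw [interior_closedBall _ one_ne_zero]; exact mem_ball_self one_pos⟩,
      AffineSubspace.coe_map, AffineSubspace.top_coe, image_univ]
  have h2 : ∀ v, ψ v ∈ intrinsicInterior ℝ (ψ '' Fi.Q) ↔ v ∈ ball (0 : E2) 1 := fun v => by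
    rw [Nt.mem_rel_iff, ← interior_closedBall _ one_ne_zero, mem_interior_iff_mem_nhds,
      (inducing h).nhds_eq_comap, ← eventually_mem_set, eventually_comap]
    simp only [← SetLike.mem_coe, h1]
    refine ⟨fun H => H.2.mono fun w hw u e => ?_, fun H => ⟨⟨v, rfl⟩, H.mono ?_⟩⟩
    · obtain ⟨u', h3, h4⟩ := hw ⟨u, e⟩
      exact h (h4.trans e.symm) ▸ h3
    · rintro w hw ⟨u, e⟩
      exact ⟨u, hw u e, e⟩
  rw [intrinsicFrontier_eq ((isCompact_closedBall (0 : E2) 1).image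
    ψ.continuous_of_finiteDimensional).isClosed, Fi.Sq, ← closedBall_sdiff_ball]
  ext x
  constructor
  · rintro ⟨⟨v, hv, rfl⟩, h3⟩
    exact ⟨v, ⟨hv, fun h4 => h3 ((h2 v).2 h4)⟩, rfl⟩
  · rintro ⟨v, ⟨hv, h3⟩, rfl⟩
    exact ⟨⟨v, hv, rfl⟩, fun h4 => h3 ((h2 v).1 h4)⟩

theorem scale {c d : ℝ} (h : ∀ u : E2, ‖u‖ = 1 → c ≤ d * ‖ψ.linear u‖) (u : E2) :
    c * ‖u‖ ≤ d * ‖ψ.linear u‖ := by
  by_cases hu : u = 0
  · simp [hu]
  have h0 : 0 < ‖u‖ := norm_pos_iff.2 hu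
  have h1 := h (‖u‖⁻¹ • u) (by rw [norm_smul, norm_inv, norm_norm, inv_mul_cancel₀ h0.ne'])
  rw [map_smul, norm_smul, norm_inv, norm_norm, mul_left_comm, le_inv_mul_iff₀ h0] at h1
  linarith

/-- the constants of the affine chart -/
theorem bounds {M₁ M₂ : ℝ≥0} (h : Chart 2 (ψ '' Fi.Q) (ψ '' Fi.Sq) M₁ M₂) (u : E2) :
    ‖u‖ ≤ M₁ * ‖ψ.linear u‖ ∧ ‖ψ.linear u‖ ≤ M₂ * ‖u‖ := by
  obtain ⟨-, κ, k1, k2, k3⟩ := h
  have h0 : (0 : E2) ∈ Fi.Q := mem_closedBall_self zero_le_one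
  constructor
  · obtain ⟨v, hv, e⟩ := κ.mapsTo_inv h0
    have a1 : ∀ u : E2, ‖u‖ = 1 → 1 ≤ ‖v + u‖ → 1 ≤ M₁ * ‖ψ.linear u‖ := fun u hu h1 => by
      have hc : Continuous fun t : ℝ => ‖v + t • u‖ := by fun_prop
      obtain ⟨t, ht, h2⟩ := intermediate_value_Icc (zero_le_one' ℝ) hc.continuousOn
        (show (1 : ℝ) ∈ Icc _ _ from ⟨by simpa using hv, by simpa using h1⟩)
      have h3 : v + t • u ∈ Fi.Sq := mem_sphere_zero_iff_norm.2 h2
      have h4 : κ.toFun (ψ (v + t • u)) ∈ Fi.Sq := k1.le ⟨_, ⟨_, h3, rfl⟩, rfl⟩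
      have h5 := k2.dist_le_mul _ ⟨_, sphere_subset_closedBall h3, rfl⟩ _ ⟨v, hv, rfl⟩
      rw [dist_eq, e, κ.right_inv h0, dist_zero_right, mem_sphere_zero_iff_norm.1 h4,
        add_sub_cancel_left, map_smul, norm_smul, Real.norm_of_nonneg ht.1] at h5
      exact h5.trans (mul_le_mul_of_nonneg_left
        (mul_le_of_le_one_left (norm_nonneg _) ht.2) M₁.2)
    refine (one_mul _).ge.trans (scale (fun u hu => ?_) u)
    by_cases h1 : 1 ≤ ‖v + u‖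
    · exact a1 u hu h1
    have h2 := norm_sub_le (v + u) (v + -u)
    rw [show v + u - (v + -u) = (2 : ℝ) • u by rw [two_smul]; abel, norm_smul, hu] at h2
    have h3 := a1 (-u) (by rwa [norm_neg]) (by norm_num at h2; linarith)
    rwa [map_neg, norm_neg] at h3
  · have a1 := scale (ψ := ψ) (c := -M₂) (d := -1) (fun u hu => ?_) u
    · linarith
    have h1 : ψ u ∈ ψ '' Fi.Q := ⟨u, mem_closedBall_zero_iff.2 hu.le, rfl⟩
    have h2 : ψ (-u) ∈ ψ '' Fi.Q := ⟨-u, mem_closedBall_zero_iff.2 (by rw [norm_neg, hu]), rfl⟩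
    have h3 := k3.dist_le_mul _ (κ.mapsTo h1) _ (κ.mapsTo h2)
    have h4 := dist_triangle_right (κ.toFun (ψ u)) (κ.toFun (ψ (-u))) 0
    have h5 := mem_closedBall.1 (κ.mapsTo h1)
    have h6 := mem_closedBall.1 (κ.mapsTo h2)
    rw [κ.left_inv h1, κ.left_inv h2, dist_eq, sub_neg_eq_add, ← two_smul ℝ, map_smul,
      norm_smul, Real.norm_two] at h3
    have h7 := mul_le_mul_of_nonneg_left (h4.trans (add_le_add h5 h6)) M₂.2
    have h8 : (M₂.1 : ℝ) = M₂ := rfl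
    rw [h8] at h7
    linarith

theorem line_cor (i : Fin 2) (t s : ℝ) :
    AffineMap.lineMap (cor i (-1) t) (cor i 1 t) s = cor i (2 * s - 1) t := by
  ext k
  by_cases h : k = i <;> simp [AffineMap.lineMap_apply, cor, h]
  ring

theorem mem_side {i : Fin 2} {t : ℝ} {v : E2} :
    v ∈ segment ℝ (cor i (-1) t) (cor i 1 t) ↔ ∃ s, |s| ≤ 1 ∧ v = cor i s t := by
  rw [segment_eq_image_lineMap]
  constructor
  · rintro ⟨s, hs, rfl⟩
    exact ⟨_, abs_le.2 ⟨by linarith [hs.1], by linarith [hs.2]⟩, line_cor i t s⟩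
  · rintro ⟨s, hs, rfl⟩
    rw [abs_le] at hs
    refine ⟨(s + 1) / 2, ⟨by linarith, by linarith⟩, ?_⟩
    rw [line_cor]
    congr 1
    ring

theorem side_sub {i : Fin 2} {t : ℝ} (ht : t = 1 ∨ t = -1) :
    segment ℝ (cor i (-1) t) (cor i 1 t) ⊆ Fi.Q := fun v hv => by
  obtain ⟨s, hs, rfl⟩ := mem_side.1 hv
  refine mem_closedBall_zero_iff.2 ((pi_norm_le_iff_of_nonneg zero_le_one).2 fun k => ?_)
  unfold cor
  split_ifs
  · exact hs
  · rcases ht with rfl | rfl <;> simp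

theorem exists_side {v : E2} (hv : v ∈ Fi.Sq) :
    ∃ i t, (t = 1 ∨ t = -1) ∧ v ∈ segment ℝ (cor i (-1) t) (cor i 1 t) := by
  rw [mem_sphere_zero_iff_norm] at hv
  have h0 : |v 0| ≤ 1 := hv ▸ norm_le_pi_norm v 0
  have h1 : |v 1| ≤ 1 := hv ▸ norm_le_pi_norm v 1
  rcases h1.eq_or_lt with h2 | h2
  · refine ⟨0, v 1, (abs_eq zero_le_one).1 h2, mem_side.2 ⟨v 0, h0, ?_⟩⟩
    ext k; fin_cases k <;> simp [cor]
  rcases h0.eq_or_lt with h3 | h3
  · refine ⟨1, v 0, (abs_eq zero_le_one).1 h3, mem_side.2 ⟨v 1, h1, ?_⟩⟩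
    ext k; fin_cases k <;> simp [cor]
  refine absurd hv ((pi_norm_lt_iff one_pos).2 fun k => ?_).ne
  fin_cases k
  · exact h3
  · exact h2

theorem side_dist (ψ : E2 →ᵃ[ℝ] E3) {i : Fin 2} {t : ℝ} {v w : E2}
    (hv : v ∈ segment ℝ (cor i (-1) t) (cor i 1 t))
    (hw : w ∈ segment ℝ (cor i (-1) t) (cor i 1 t)) :
    dist (ψ v) (ψ w) ≤ dist (ψ (cor i (-1) t)) (ψ (cor i 1 t)) / 2 * dist v w := by
  obtain ⟨s, -, rfl⟩ := mem_side.1 hv
  obtain ⟨s', -, rfl⟩ := mem_side.1 hw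
  have h1 : cor i s t - cor i s' t = ((s' - s) / 2) • (cor i (-1) t - cor i 1 t) := by
    ext k
    by_cases h : k = i <;> simp [cor, h]
    ring
  have h2 : |s - s'| ≤ dist (cor i s t) (cor i s' t) := by
    simpa [cor, Real.dist_eq] using dist_le_pi_dist (cor i s t) (cor i s' t) i
  rw [dist_eq, dist_eq, h1, map_smul, norm_smul, Real.norm_eq_abs, abs_div, abs_sub_comm, abs_two]
  have h3 := mul_le_mul_of_nonneg_left h2 (norm_nonneg (ψ.linear (cor i (-1) t - cor i 1 t)))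
  linarith

end Sqr

open Sqr in
theorem sqr_of (hD : Dim) : SQR := by
  intro Ω Λ S g lo hi o J Y θ a φ ψ hm hd
  obtain ⟨j, -, hs⟩ := Y.deep φ hd
  have hc : ψ '' Fi.Q = Y.K.cell j := (hs.1.trans hm.cell).symm
  have hb : S.Q.bd φ = ψ '' Fi.Sq := by rw [(S.cvx φ).2.1, hm.cell, frontier_eq hm.inj]
  obtain ⟨χ, hχ⟩ : ∃ χ : ConHomeo (Y.K.cell j) Fi.Q, χ.invFun = ψ :=
    ⟨(ConHomeo.ofCompact (isCompact_closedBall 0 1) ψ
      ψ.continuous_of_finiteDimensional.continuousOn hm.inj.injOn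
      (conicalOn_of_affine ψ (Convex.conicalSet (convex_closedBall 0 1))) hc).symm,
      ConHomeo.ofCompact_toFun ..⟩
  have h1 : ∀ v ∈ Fi.Q, χ.toFun (ψ v) = v := fun v hv => hχ ▸ χ.right_inv hv
  have h2 : ∀ X ⊆ Fi.Q, χ.toFun '' (ψ '' X) = X := fun X hX => by
    rw [image_image]
    exact (image_congr fun v hv => h1 v (hX hv)).trans (image_id' X)
  have h3 : ∀ φ', S.Q.cell φ' ⊆ S.Q.cell φ → ∃ j', j' ∉ Y.fro ∧ Same Y.K S.Q j' φ' :=
    fun φ' h => Y.deep φ' fun x hx => hd x (h hx)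
  have h4 : ∀ e, Y.K.cell e ⊆ Y.K.cell j → e ∉ Y.fro ∧ ∃ φ', Same Y.K S.Q e φ' := fun e he => by
    obtain ⟨x, hx⟩ := Y.K.ocell_nonempty e
    obtain ⟨φ', a1, a2⟩ := S.Q.exists_face (hs.1 ▸ he hx.1)
    obtain ⟨j', a3, a4⟩ := h3 φ' a2
    obtain rfl : e = j' := Y.K.ocell_unique hx ⟨a4.1 ▸ a1.1, a4.2.1 ▸ a1.2⟩
    exact ⟨a3, φ', a4⟩
  have h5 := S.chart φ hm.dim.ge
  rw [hm.dim, hm.cell, hb, ← (Y.same j φ hs).1, ← (Y.same j φ hs).2] at h5
  refine ⟨j, χ, hs, fun v _ => by rw [hχ], fun e he => (h4 e he).1, ?_, ?_, ?_, ?_, ?_⟩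
  · rw [hs.2.1, hb, h2 _ sphere_subset_closedBall]
  · refine LipschitzOnWith.of_dist_le_mul fun x hx y hy => ?_
    obtain ⟨v, hv, rfl⟩ := hc.ge hx
    obtain ⟨w, hw, rfl⟩ := hc.ge hy
    rw [h1 v hv, h1 w hw, Sqr.dist_eq, dist_eq_norm]
    exact (bounds h5 _).1
  · refine LipschitzOnWith.of_dist_le_mul fun v _ w _ => ?_
    rw [hχ, Sqr.dist_eq, dist_eq_norm]
    exact (bounds h5 _).2
  · intro x hx a0 a1
    obtain ⟨v, hv, rfl⟩ := hc.ge hx
    rw [h1 v hv, abs_eq zero_le_one] at a0 a1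
    obtain ⟨⟨e, e1, e2⟩, -⟩ := hm.side 0 (v 1) a1
    obtain ⟨j', -, a2⟩ := h3 e (by
      rw [e2, hm.cell, ← image_segment]; exact image_mono (side_sub a1))
    refine Y.K.bd_subset_skel (i := j') (by rw [a2.2.2, e1]) ?_
    rw [a2.2.1, ((hD.seg S.Q e e1 (S.cvx e).1).2 _ _ e2).2.1]
    have a3 : v = cor 0 (v 0) (v 1) := by ext k; fin_cases k <;> simp [cor]
    rcases a0 with a0 | a0
    · exact Or.inr (by rw [← a0, ← a3]; rfl)
    · exact Or.inl (by rw [← a0, ← a3])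
  · intro e e1 he
    obtain ⟨-, e', a1⟩ := h4 e he
    have a2 : S.Q.dim e' = 1 := a1.2.2 ▸ e1
    obtain ⟨x, hx⟩ := S.Q.ocell_nonempty e'
    have a3 : x ∈ S.Q.bd φ := S.Q.subset_bd_of_dim_lt (by rw [← a1.1, ← hs.1]; exact he)
      (by rw [a2, hm.dim]; exact one_lt_two) hx.1
    obtain ⟨v, hv, rfl⟩ := hb.le a3
    obtain ⟨i, t, ht, a4⟩ := exists_side hv
    obtain ⟨⟨e'', b1, b2⟩, b3⟩ := hm.side i t ht
    obtain rfl : e' = e'' := S.Q.eq_of_subset_of_dim_le (S.Q.cell_subset_of_mem hx (by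
      rw [b2, ← image_segment]; exact mem_image_of_mem _ a4)) (by rw [a2, b1])
    refine ⟨_, _, e', a1, a1.1.trans b2, b3, LipschitzOnWith.of_dist_le_mul fun v hv w hw => ?_⟩
    rw [a1.1, b2, ← image_segment, h2 _ (side_sub ht)] at hv hw
    rw [hχ]
    simpa using side_dist ψ hv hw

end P073.St
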