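import Vale.Agent.P073Y.St.Tgt
import Vale.Agent.P073Y.St.Lev
import Vale.Agent.P073Y.Bd.Defs

/-!
# The staircase push of the target
-/

open Set Metric Topology Filter
open scoped NNReal

namespace P073.St

open P073.Top
open P073.Bd (cl)

namespace Pu

theorem cl_mono {a b : ℝ} (h : a ≤ b) : cl a ≤ cl b := max_le_max le_rfl (min_le_min h le_rfl)

theorem abs_cl_le (a : ℝ) : |cl a| ≤ 1 :=
  abs_le.2 ⟨le_max_left _ _, max_le (by norm_num) (min_le_right _ _)⟩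

theorem cl_sub_le {a b : ℝ} (h : a ≤ b) : cl b - cl a ≤ b - a := by
  unfold cl
  simp only [max_def, min_def]
  split_ifs <;> linarith

theorem cl_ge {a : ℝ} (h : 1 ≤ a) : cl a = 1 := by
  unfold cl; rw [min_eq_right h, max_eq_right (by norm_num)]

theorem cl_le {a : ℝ} (h : a ≤ -1) : cl a = -1 := by
  unfold cl; rw [min_eq_left (by linarith), max_eq_left h]

theorem sum_cl_sub {ι : Type} {t : ι → ℝ} {lam : ℝ} (hl : 0 < lam) (s : Finset ι)
    (hs : ∀ i ∈ s, ∀ j ∈ s, i ≠ j → 2 * lam ≤ |t i - t j|) {w w' : ℝ} (h : w ≤ w') :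
    ∑ i ∈ s, cl ((w' - t i) / lam) - ∑ i ∈ s, cl ((w - t i) / lam) ≤ (w' - w) / lam := by
  classical
  induction s using Finset.induction_on_max_value t generalizing w w' with
  | empty => simpa using div_nonneg (sub_nonneg.2 h) hl.le
  | insert a s ha hmax ih =>
    have hs' : ∀ i ∈ s, t i + lam ≤ t a - lam := fun i hi => by
      have h1 := hs i (Finset.mem_insert_of_mem hi) a (Finset.mem_insert_self a s)
        fun e => ha (e ▸ hi)
      rw [abs_sub_comm, abs_of_nonneg (sub_nonneg.2 (hmax i hi))] at h1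
      linarith
    have e1 : ∀ v, ∑ i ∈ s, cl ((v - t i) / lam) = ∑ i ∈ s, cl ((min v (t a - lam) - t i) / lam) :=
      fun v => Finset.sum_congr rfl fun i hi => by
        rcases le_total v (t a - lam) with h1 | h1
        · rw [min_eq_left h1]
        · rw [min_eq_right h1, cl_ge, cl_ge] <;> rw [le_div_iff₀ hl] <;> linarith [hs' i hi]
    have e2 : ∀ v, cl ((v - t a) / lam) = cl ((max v (t a - lam) - t a) / lam) := fun v => by
      rcases le_total v (t a - lam) with h1 | h1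
      · rw [max_eq_right h1, cl_le, cl_le] <;> rw [div_le_iff₀ hl] <;> linarith
      · rw [max_eq_left h1]
    have k1 := ih (fun i hi j hj => hs i (Finset.mem_insert_of_mem hi) j
      (Finset.mem_insert_of_mem hj)) (min_le_min_right (t a - lam) h)
    have k2 := cl_sub_le (div_le_div_of_nonneg_right
      (sub_le_sub_right (max_le_max_right (t a - lam) h) (t a)) hl.le)
    rw [Finset.sum_insert ha, Finset.sum_insert ha, e1 w, e1 w', e2 w, e2 w']
    have k3 : (min w' (t a - lam) - min w (t a - lam)) / lam +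
        ((max w' (t a - lam) - t a) / lam - (max w (t a - lam) - t a) / lam) = (w' - w) / lam := by
      have := min_add_max w (t a - lam)
      have := min_add_max w' (t a - lam)
      field_simp
      linarith
    linarith

/-- the staircase -/
noncomputable def stc {ι : Type} (a ρ lam σ : ℝ) (s : Finset ι) (t : ι → ℝ) (w : ℝ) : ℝ :=
  a + ρ / 2 * ∑ i ∈ s, (cl ((w - t i) / lam) + 1) + σ * (w - a)

variable {ι : Type} {a ρ lam σ : ℝ} {s : Finset ι} {t : ι → ℝ}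

theorem stc_sub (w w' : ℝ) : stc a ρ lam σ s t w' - stc a ρ lam σ s t w =
    ρ / 2 * (∑ i ∈ s, cl ((w' - t i) / lam) - ∑ i ∈ s, cl ((w - t i) / lam)) + σ * (w' - w) := by
  unfold stc
  rw [Finset.sum_add_distrib, Finset.sum_add_distrib]
  ring

theorem pl_stc : PLOn (stc a ρ lam σ s t) univ := by
  have hc := A2.conicalSet_univ (E := ℝ)
  refine A2.pl_add (A2.pl_add (A2.pl_const _ hc) (A2.pl_mul _ (A2.pl_sum s hc fun i _ =>
    A2.pl_add ?_ (A2.pl_const _ hc)))) (A2.pl_mul _ (A2.pl_sub (A2.pl_id hc) (A2.pl_const _ hc)))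
  refine A2.pl_max (A2.pl_const _ hc) (A2.pl_min ?_ (A2.pl_const _ hc))
  exact A2.pl_congr (A2.pl_mul lam⁻¹ (A2.pl_sub (A2.pl_id hc) (A2.pl_const (t i) hc)))
    fun w _ => div_eq_inv_mul _ _

theorem sum_cl_mono (hl : 0 < lam) {w w' : ℝ} (h : w ≤ w') :
    ∑ i ∈ s, cl ((w - t i) / lam) ≤ ∑ i ∈ s, cl ((w' - t i) / lam) :=
  Finset.sum_le_sum fun _ _ => cl_mono (div_le_div_of_nonneg_right (by linarith) hl.le)

theorem stc_strictMono (hl : 0 < lam) (hρ : 0 ≤ ρ) (hσ : 0 < σ) :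
    StrictMono (stc a ρ lam σ s t) := fun w w' h => by
  have h1 := stc_sub (a := a) (ρ := ρ) (lam := lam) (σ := σ) (s := s) (t := t) w w'
  have h2 := mul_nonneg (show 0 ≤ ρ / 2 by linarith)
    (sub_nonneg.2 (sum_cl_mono (s := s) (t := t) hl h.le))
  have h3 := mul_pos hσ (sub_pos.2 h)
  linarith

theorem stc_lip (hl : 0 < lam) (hρ : 0 ≤ ρ) (hσ : 0 < σ) (hσ1 : σ ≤ 1) (hρl : ρ ≤ 32 * lam)
    (hs : ∀ i ∈ s, ∀ j ∈ s, i ≠ j → 2 * lam ≤ |t i - t j|) :
    LipschitzWith 17 (stc a ρ lam σ s t) := by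
  refine LipschitzWith.of_dist_le_mul fun w' w => ?_
  wlog h : w ≤ w' generalizing w w'
  · rw [dist_comm, dist_comm w']
    exact this w w' (le_of_not_ge h)
  rw [Real.dist_eq, Real.dist_eq, abs_of_nonneg (sub_nonneg.2 h),
    abs_of_nonneg (sub_nonneg.2 ((stc_strictMono hl hρ hσ).monotone h)), stc_sub]
  have h1 := mul_le_mul_of_nonneg_left (sum_cl_sub hl s hs h) (show 0 ≤ ρ / 2 by linarith)
  have h2 : ρ / 2 * ((w' - w) / lam) ≤ 16 * (w' - w) := by
    rw [← mul_div_assoc, div_le_iff₀ hl]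
    nlinarith [sub_nonneg.2 h]
  have h3 := mul_le_mul_of_nonneg_right hσ1 (sub_nonneg.2 h)
  push_cast
  linarith

end Pu

open Pu

/-- the push of the target which is a staircase in the directions of `J` and a squeeze in the
other directions; `s k` is the set of the levels in the direction `k` -/
theorem push {lo hi : E3} {μ b β ρ δ lam σ : ℝ} {J : Finset (Fin 3)} {Λ : Set E3} {ι : Type}
    (s : Fin 3 → Finset ι) (t : ι → ℝ) (hΛ : IsOpen Λ) (hsub : mbox lo hi μ ⊆ Λ)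
    (hle : ∀ i, lo i ≤ hi i) (hw : ∀ i, i ∉ J → hi i - lo i ≤ 16 * μ) (hb : 0 < b)
    (hμ : 4 * b < μ) (hl : 0 < lam) (hlβ : lam ≤ β) (hlδ : 2 * lam ≤ δ) (hρ : 0 ≤ ρ)
    (hρl : ρ ≤ 32 * lam) (hσ : 0 < σ) (hσ1 : σ ≤ 1) (hσb : ∀ k, σ * (hi k - lo k) ≤ b)
    (hL : ∀ k ∈ J, Lv (lo k) (hi k) b β ρ δ (s k) t) (hs : ∀ k, k ∉ J → s k = ∅) :
    ∃ (Φ : ConHomeo Λ Λ) (Ψ : E3 → E3), Coll lo hi μ J 10000 Ψ ∧
      LipschitzWith 49130000 Φ.toFun ∧
      (∀ y, y ∉ interior (mbox lo hi μ) → Φ.toFun y = y) ∧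
      (∀ y, dist (Φ.toFun y) (Ψ y) ≤ 20000 * b) ∧
      (∀ y ∈ Icc lo hi, ∀ y' ∈ Icc lo hi, ∀ k, Φ.toFun y' k - Φ.toFun y k =
        ρ / 2 * (∑ i ∈ s k, cl ((y' k - t i) / lam) - ∑ i ∈ s k, cl ((y k - t i) / lam)) +
          σ * (y' k - y k)) ∧
      ∀ y ∈ Icc lo hi, ∀ w ∈ Icc lo hi, ∀ y₀ ∈ Icc lo hi, ∀ o, dist w y₀ ≤ o →
        (∀ k ∈ J, ∀ κ, (∀ j ∈ s k, β ≤ |t j - κ|) → ∀ i ∈ s k,
          (t i < κ → κ ≤ w k → t i + lam ≤ y k) ∧ (κ < t i → w k ≤ κ → y k ≤ t i - lam)) →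
        dist (Φ.toFun y) (Ψ y₀) ≤ 2 * b + o := by
  set a : Fin 3 → ℝ := fun k => if k ∈ J then lo k else (lo k + hi k) / 2 with ha
  have near : ∀ k ∈ J, ∀ v ∈ Icc (lo k) (hi k), ∀ w ∈ Icc (lo k) (hi k),
      (∀ κ, (∀ j ∈ s k, β ≤ |t j - κ|) → ∀ i ∈ s k,
        (t i < κ → κ ≤ w → t i + lam ≤ v) ∧ (κ < t i → w ≤ κ → v ≤ t i - lam)) →
      |stc (a k) ρ lam σ (s k) t v - w| ≤ 2 * b := fun k hk v hv w hw' H => by
    have h1 := abs_le.1 ((hL k hk).near w hw' (fun i => cl ((v - t i) / lam))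
      (fun i => abs_cl_le _) fun κ hκ i hi' => ⟨fun h1 h2 => cl_ge (by
        rw [le_div_iff₀ hl]; linarith [(H κ hκ i hi').1 h1 h2]), fun h1 h2 => cl_le (by
        rw [div_le_iff₀ hl]; linarith [(H κ hκ i hi').2 h1 h2])⟩)
    have h2 := mul_nonneg hσ.le (sub_nonneg.2 hv.1)
    have h3 := mul_le_mul_of_nonneg_left (sub_le_sub_right hv.2 (lo k)) hσ.le
    have h4 := hσb k
    simp only [ha, stc, if_pos hk]
    exact abs_le.2 ⟨by linarith [h1.1], by linarith [h1.2]⟩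
  have sq : ∀ k, k ∉ J → ∀ v ∈ Icc (lo k) (hi k),
      |stc (a k) ρ lam σ (s k) t v - (lo k + hi k) / 2| ≤ 2 * b := fun k hk v hv => by
    simp only [ha, stc, if_neg hk, hs k hk, Finset.sum_empty]
    have h4 := hσb k
    have h2 := mul_nonneg hσ.le (sub_nonneg.2 hv.1)
    have h3 := mul_nonneg hσ.le (sub_nonneg.2 hv.2)
    exact abs_le.2 ⟨by linarith, by linarith⟩
  obtain ⟨Φ, Ψ, c1, c2, c3, c4, c5⟩ := tgt (ζ := fun k => stc (a k) ρ lam σ (s k) t) (L := 17)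
    (ε := 2 * b) hΛ hsub (by linarith) hle hw (by linarith) (by norm_num) (fun _ => pl_stc)
    (fun _ => (stc_strictMono hl hρ hσ).strictMonoOn _)
    (fun k => (stc_lip hl hρ hσ hσ1 hρl fun i hi' j hj hij => by
      by_cases hk : k ∈ J
      · exact hlδ.trans ((hL k hk).sep i hi' j hj hij)
      · rw [hs k hk] at hi'
        exact absurd hi' (Finset.notMem_empty i)).lipschitzOnWith)
    (fun k hk w hw' => near k hk w hw' w hw' fun κ hκ i hi' => by
      have := hκ i hi'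
      exact ⟨fun h1 h2 => by
        rw [abs_sub_comm, abs_of_pos (sub_pos.2 h1)] at this
        linarith, fun h1 h2 => by
        rw [abs_of_pos (sub_pos.2 h1)] at this
        linarith⟩) sq
  refine ⟨Φ, Ψ, c1, c2.weaken (by norm_num), c3, fun y => (c5 y).trans (by linarith),
    fun y hy y' hy' k => by rw [c4 y hy, c4 y' hy', stc_sub], fun y hy w hw' y₀ hy₀ o ho H => ?_⟩
  have ho0 : 0 ≤ o := dist_nonneg.trans ho
  refine (dist_pi_le_iff (by linarith)).2 fun k => ?_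
  rw [Real.dist_eq, c4 y hy]
  by_cases hk : k ∈ J
  · rw [c1.fix y₀ k hk]
    have h1 := abs_le.1 (near k hk _ ⟨hy.1 k, hy.2 k⟩ _ ⟨hw'.1 k, hw'.2 k⟩ (H k hk))
    have h2 := abs_le.1 ((dist_le_pi_dist w y₀ k).trans ho)
    exact abs_le.2 ⟨by linarith [h1.1, h2.1], by linarith [h1.2, h2.2]⟩
  · rw [c1.core y₀ hy₀ k hk]
    linarith [sq k hk _ ⟨hy.1 k, hy.2 k⟩]

end P073.St
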