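import Vale.Agent.P073Y.Top.Defs
import Vale.Agent.P073Y.Fi.Sk2
import Vale.Agent.P073Y.Nt.Sk
import Vale.Agent.P073Z.RCX2

/-!
# Normalisation in one box: definitions and statements of the blocks
-/

open Set Metric Topology Filter MeasureTheory
open scoped NNReal ENNReal

namespace P073.St

open P073.Bd (Band cl Chart PwLip Gen1)
open P073.Top

/-! ### the goal -/

/-- the conclusion of the normalisation -/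
def Concl (p c θ ϑ : ℝ) (C K : ℝ≥0) (CM : ℝ≥0 → ℝ≥0) {Ω Λ : Set E3} (S : Src Ω)
    (g : ConHomeo Ω Λ) (lo hi : E3) (μ o : ℝ) (J : Finset (Fin 3)) (η : ℝ≥0∞) (𝓢 : Set S.Q.ι)
    (ψ : S.Q.ι → (E2 →ᵃ[ℝ] E3)) (a : S.Q.ι → ℝ) : Prop :=
  ∃ (h : ConHomeo Ω Λ) (Ψ : E3 → E3), Coll lo hi μ J C Ψ ∧
    (∀ x ∈ Ω, g.toFun x ∉ interior (mbox lo hi μ) → h.toFun x = g.toFun x) ∧
    (∀ x ∈ Ω, dist (h.toFun x) (Ψ (g.toFun x)) ≤ K * o) ∧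
    (∀ e, S.Q.dim e = 1 → Away g.toFun (S.Q.cell e) (Rim lo hi J) (2 * o) →
      lipc h.toFun (S.Q.cell e) ≤ C * lipc g.toFun (S.Q.cell e) + η) ∧
    (∀ φ, S.Q.dim φ = 2 → Away g.toFun (S.Q.cell φ) (Rim lo hi J) (2 * o) →
      S.E p h.toFun φ ≤ C * S.E p g.toFun φ + CM (S.M φ) * S.W p g.toFun φ + η) ∧
    (∀ φ, S.Q.dim φ = 2 → Deep g.toFun (S.Q.cell φ) lo hi (2 * o) →
      S.E p h.toFun φ ≤ CM (S.M φ) * S.W p g.toFun φ + η) ∧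
    (J = {0, 1} →
      (∀ e x y, S.Q.dim e = 1 → S.Q.cell e = segment ℝ x y →
        Deep g.toFun (S.Q.cell e) lo hi (2 * o) →
          SharpE g.toFun h.toFun x y θ η ∧ Rise g.toFun h.toFun x y ϑ η) ∧
      ∀ φ ∈ 𝓢, Deep g.toFun (S.Q.cell φ) lo hi (2 * o) →
        SharpF p h.toFun (ψ φ) (a φ) θ c η)

/-- the normalisation if the last direction is squeezed -/
def STAGE0 (p : ℝ) : Prop := ∃ c : ℝ, 1 ≤ c ∧ ∀ θ : ℝ, 0 < θ → θ ≤ 1 / 1000 →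
  ∃ (C : ℝ≥0) (CM : ℝ≥0 → ℝ≥0), 1 ≤ C ∧ ∀ ϑ : ℝ, 0 < ϑ → ϑ ≤ θ → ∃ K : ℝ≥0, 1 ≤ K ∧
  ∀ {Ω Λ : Set E3} (S : Src Ω) (g : ConHomeo Ω Λ) (lo hi : E3) (μ o : ℝ) (J : Finset (Fin 3))
    (η : ℝ≥0∞) (𝓢 : Set S.Q.ι) (ψ : S.Q.ι → (E2 →ᵃ[ℝ] E3)) (a : S.Q.ι → ℝ),
  IsOpen Ω → IsOpen Λ → 2 ∉ J → 0 < o → K * o ≤ μ → (∀ i, lo i + μ ≤ hi i) →
  (∀ i, i ∉ J → hi i - lo i ≤ 16 * μ) → mbox lo hi μ ⊆ Λ → S.Osc g.toFun (mbox lo hi μ) o →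
  0 < η → (∀ φ ∈ 𝓢, Marked S g.toFun θ φ (ψ φ) (a φ)) →
  Concl p c θ ϑ C K CM S g lo hi μ o J η 𝓢 ψ a

/-- exchange of coordinates -/
def PERM : Prop := ∀ p : ℝ, STAGE0 p → STAGE p

/-! ### elementary facts -/

/-- Lipschitz constants and energies -/
structure Api : Prop where
  le_iff : ∀ {E F : Type} [NormedAddCommGroup E] [NormedAddCommGroup F] {f : E → F} {X : Set E}
    {L : ℝ≥0}, lipc f X ≤ L ↔ LipschitzOnWith L f X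
  mono : ∀ {E F : Type} [NormedAddCommGroup E] [NormedAddCommGroup F] (f : E → F) {X Y : Set E},
    X ⊆ Y → lipc f X ≤ lipc f Y
  congr : ∀ {E F : Type} [NormedAddCommGroup E] [NormedAddCommGroup F] {f f' : E → F}
    {X : Set E}, EqOn f f' X → lipc f X = lipc f' X
  add : ∀ {E F : Type} [NormedAddCommGroup E] [NormedAddCommGroup F] (f f' : E → F) (X : Set E),
    lipc (fun x => f x + f' x) X ≤ lipc f X + lipc f' X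
  edist_le : ∀ {E F : Type} [NormedAddCommGroup E] [NormedAddCommGroup F] (f : E → F) {X : Set E}
    {x y : E}, x ∈ X → y ∈ X → edist (f x) (f y) ≤ lipc f X * edist x y
  le_of : ∀ {E F : Type} [NormedAddCommGroup E] [NormedAddCommGroup F] {f : E → F} {X : Set E}
    {B : ℝ≥0∞}, (∀ x ∈ X, ∀ y ∈ X, edist (f x) (f y) ≤ B * edist x y) → lipc f X ≤ B
  fin : ∀ {f : E3 → E3} {X : Set E3}, IsCompact X → LocCone X → PLOn f X → lipc f X ≠ ⊤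
  cover : ∀ {f : E3 → E3} {X : Set E3} {B : ℝ≥0∞} (𝒞 : Set (Set E3)), Convex ℝ X → 𝒞.Finite →
    (∀ Y ∈ 𝒞, IsClosed Y ∧ lipc f Y ≤ B) → X ⊆ ⋃₀ 𝒞 → lipc f X ≤ B
  lat : ∀ (g : E3 → E3) (x y : E3), lat g x y ≤ 2 * lipc g (segment ℝ x y) * edist x y
  area : ∀ {C B : Set E3} {M₁ M₂ : ℝ≥0}, Chart 2 C B M₁ M₂ →
    μH[((2 : ℕ) : ℝ)] C ≤ 4 * (M₂ : ℝ≥0∞) ^ 2 ∧ ∀ x ∈ C, ∀ y ∈ C, dist x y ≤ 2 * M₂
  sq : μH[((2 : ℕ) : ℝ)] (closedBall (0 : E2) 1) = 4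
  en : ∀ {E F : Type} [NormedAddCommGroup E] [MeasurableSpace E] [BorelSpace E]
    [NormedAddCommGroup F] {p : ℝ} (f : E → F) {X : Set E}, 0 < p → IsCompact X →
    En 2 p f X ≤ lipc f X ^ p * μH[((2 : ℕ) : ℝ)] X
  en_add : ∀ {E F : Type} [NormedAddCommGroup E] [MeasurableSpace E] [BorelSpace E]
    [NormedAddCommGroup F] {p : ℝ} (f f' : E → F) {X : Set E}, 0 < p → IsCompact X →
    En 2 p (fun x => f x + f' x) X ≤ 2 ^ p * (En 2 p f X + lipc f' X ^ p * μH[((2 : ℕ) : ℝ)] X)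
  en_le : ∀ {E F F' : Type} [NormedAddCommGroup E] [MeasurableSpace E] [BorelSpace E]
    [NormedAddCommGroup F] [NormedAddCommGroup F'] {p : ℝ} (f : E → F) (f' : E → F') {X : Set E}
    (L : ℝ≥0), 0 < p → IsCompact X →
    (∀ x ∈ X, ∀ y ∈ X, edist (f x) (f y) ≤ L * edist (f' x) (f' y)) →
    En 2 p f X ≤ (L : ℝ≥0∞) ^ p * En 2 p f' X
  wires : ∀ {Ω : Set E3} (S : Src Ω) (g : E3 → E3) (φ : S.Q.ι) (s : Finset S.Q.ι),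
    (∀ e ∈ s, S.Q.dim e = 1 ∧ S.Q.cell e ⊆ S.Q.cell φ) →
    ∑ e ∈ s, lipc g (S.Q.cell e) ≤ S.A g φ

/-- the cell `j` of `K` is the cell `φ` of `Q` -/
def Same (K Q : RCx E3) (j : K.ι) (φ : Q.ι) : Prop :=
  K.cell j = Q.cell φ ∧ K.bd j = Q.bd φ ∧ K.dim j = Q.dim φ

/-- dimensions and charts -/
structure Dim : Prop where
  mono : ∀ {m n : ℕ} {C B C' B' : Set E3}, ConBall m C B → ConBall n C' B' → C ⊆ C' → m ≤ n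
  ball : ∀ (K : RCx E3) [Finite K.ι] {B : Set E3}, ConBall 3 K.carrier B →
    IsPreconnected B ∧ (∀ c, K.dim c ≤ 3) ∧ (∀ c, K.dim c = 3 → ¬ K.cell c ⊆ B) ∧
      ∀ x ∈ K.carrier, ∃ c, K.dim c = 3 ∧ x ∈ K.cell c
  wire : ∀ (K : RCx E3) (φ : K.ι), K.dim φ = 2 → ∀ x ∈ K.bd φ,
    ∃ e, K.dim e = 1 ∧ K.cell e ⊆ K.bd φ ∧ x ∈ K.cell e
  seg : ∀ (K : RCx E3) (e : K.ι), K.dim e = 1 → Convex ℝ (K.cell e) →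
    (∃ x y, K.cell e = segment ℝ x y) ∧
      ∀ x y, K.cell e = segment ℝ x y → x ≠ y ∧ K.bd e = {x, y} ∧ diam (K.cell e) = dist x y
  chart : ∀ {Ω : Set E3} (S : Src Ω) (K : RCx E3), ∃ M₁ M₂ : K.ι → ℝ≥0,
    (∀ c, 2 ≤ K.dim c → Chart (K.dim c) (K.cell c) (K.bd c) (M₁ c) (M₂ c)) ∧
    ∀ j φ, Same K S.Q j φ → M₁ j = S.M φ / S.r φ ∧ M₂ j = S.M φ * S.r φ

/-- the cell is convex and `g` is affine on it -/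
def CvA (K : RCx E3) (g : E3 → E3) (j : K.ι) : Prop :=
  Convex ℝ (K.cell j) ∧ K.bd j = intrinsicFrontier ℝ (K.cell j) ∧
    K.dim j = Module.finrank ℝ (vectorSpan ℝ (K.cell j)) ∧
    ∃ A : E3 →ᵃ[ℝ] E3, EqOn g A (K.cell j)

/-- the energy of a face which is cut into pieces -/
def ENS : Prop := ∀ {p : ℝ} (K : RCx E3) [Finite K.ι] {φ : Set E3} {g h : E3 → E3} {L : ℝ≥0}
  {s : ℝ≥0∞}, 1 ≤ p → IsCompact φ → Convex ℝ φ → Module.finrank ℝ (vectorSpan ℝ φ) = 2 →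
  (∀ j, (K.ocell j ∩ φ).Nonempty → K.cell j ⊆ φ ∧ CvA K g j ∧
    lipc h (K.cell j) ≤ L * lipc g (K.cell j) + s) →
  (∀ x ∈ φ \ K.carrier, ∀ y ∈ φ \ K.carrier, edist (h x) (h y) ≤ L * edist (g x) (g y)) →
  En 2 p h φ ≤ 2 ^ p * ((L : ℝ≥0∞) ^ p * En 2 p g φ + s ^ p * μH[((2 : ℕ) : ℝ)] φ)

/-- the number of points of a segment on well separated levels -/
def CNT : Prop := ∀ {f : E3 → ℝ} {X : Set E3}, PLOn f X → ∃ m : ℕ, ∀ x y, X = segment ℝ x y →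
  ∀ (A : Finset ℝ) (δ : ℝ), 0 < δ → (∀ t ∈ A, ∀ t' ∈ A, t ≠ t' → δ ≤ |t - t'|) →
    ENNReal.ofReal δ * ({u ∈ X | f u ∈ A}.ncard : ℕ) ≤ segVar f x y + ENNReal.ofReal δ * m

/-! ### levels -/

/-- the levels in one direction -/
structure Levs (lo hi o d ϑ K : ℝ) (Z : Set ℝ) (A : Finset ℝ) : Prop where
  far : ∀ t ∈ A, ∀ z ∈ Z, d / 5 < |t - z|
  ins : ∀ t ∈ A, lo + 3 * o < t ∧ t < hi - 3 * o
  sep : ∀ t ∈ A, ∀ t' ∈ A, t ≠ t' → d ≤ (1 + ϑ) * |t - t'|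
  buf : ∀ y ∈ Icc lo hi, ∃ κ ∈ Icc lo hi, ∃ κ' ∈ Icc lo hi, κ ≤ y ∧ y ≤ κ' ∧ κ' ≤ κ + K * o ∧
    ∀ t ∈ A, 3 * o < |t - κ| ∧ 3 * o < |t - κ'|
  cnt : ∀ y ∈ Icc lo hi, |lo + d * ((A.filter fun t => t ≤ y).card : ℕ) - y| ≤ K * o

def LEV : Prop := ∀ ϑ : ℝ, 0 < ϑ → ϑ ≤ 1 → ∃ K : ℝ, 1 ≤ K ∧ ∀ (lo hi o : ℝ) (Z : Set ℝ),
  lo ≤ hi → 0 < o → Z.Finite → ∃ d₀ : ℝ, 0 < d₀ ∧ ∀ d, 0 < d → d ≤ d₀ → ∀ T : Set ℝ, T.Finite →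
  ∃ A : Finset ℝ, Levs lo hi o d ϑ K Z A ∧ ∀ t ∈ A, t ∉ T

/-- the staircase -/
noncomputable def stp (A : Finset ℝ) (d y : ℝ) : ℝ :=
  d / 2 * ∑ t ∈ A, (1 + cl ((y - t) / (d / 20)))

/-- `w` lies on the right side of all levels which are separated from `y` by a buffer -/
def Drf (A : Finset ℝ) (o d y w : ℝ) : Prop := ∀ t ∈ A, ∀ κ, (∀ t' ∈ A, 3 * o < |t' - κ|) →
  (t < κ → κ ≤ y → t + d / 20 ≤ w) ∧ (κ < t → y ≤ κ → w ≤ t - d / 20)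

def STP : Prop := ∀ {lo hi o d ϑ K : ℝ} {Z : Set ℝ} {A : Finset ℝ}, 0 < d → d ≤ o → ϑ ≤ 1 →
  Levs lo hi o d ϑ K Z A → Monotone (stp A d) ∧ PLOn (stp A d) univ ∧
    LipschitzWith 10 (stp A d) ∧ (∀ y, Drf A o d y y) ∧
    ∀ y ∈ Icc lo hi, ∀ w, Drf A o d y w → |lo + stp A d w - y| ≤ 2 * K * o

/-! ### the complex in the box -/

/-- near a side in a direction of `J` -/
def Side (lo hi : E3) (J : Finset (Fin 3)) (δ : ℝ) (y : E3) : Prop :=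
  ∃ k ∈ J, y k ≤ lo k + δ ∨ hi k - δ ≤ y k

/-- the aligned layers along the top and the bottom -/
structure Lay (lo hi : E3) (o : ℝ) (J : Finset (Fin 3)) where
  /-- the complex -/
  P : RCx E3
  cvx : P.Cvx
  fin : Finite P.ι
  carrier : P.carrier = Icc lo hi
  sub : P.Sub (frontier (Icc lo hi))
  /-- the cells of the layers -/
  W : Set P.ι
  up : ∀ c ∈ W, ∀ c', P.cell c ⊆ P.cell c' → c' ∈ W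
  two : ∀ c ∈ W, 2 ≤ P.dim c
  /-- the inner part -/
  inn : Set E3
  inn_sub : inn ⊆ interior (Icc lo hi)
  disj : ∀ c ∈ W, Disjoint (P.cell c) inn
  deep : ∀ y, (∀ i, lo i + o ≤ y i ∧ y i ≤ hi i - o) → y ∈ inn
  out : ∀ y, y ∉ inn → ∀ y' ∈ Icc lo hi, dist y y' ≤ o →
    (∃ z ∈ Rim lo hi J, dist y' z ≤ 2 * o) ∨ (J = {0, 1} → Side lo hi J (2 * o) y')
  rim : ∀ c ∈ W, ∀ y ∈ P.cell c, ∃ z ∈ Rim lo hi J, dist y z ≤ 2 * o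
  diam : ∀ c ∈ W, ∀ y ∈ P.cell c, ∀ y' ∈ P.cell c, dist y y' ≤ o
  /-- the values of the grid -/
  Z : Set ℝ
  Zfin : Z.Finite
  one : J = {0, 1} → ∀ c, ∀ y ∈ P.ocell c, y ∈ frontier (Icc lo hi) →
    (c ∈ W ∧ P.dim c = 2) ∨ ∃ k ∈ J, y k ∈ Z

def LAY : Prop := ∀ (lo hi : E3) (o : ℝ) (J : Finset (Fin 3)), 0 < o →
  (∀ i, lo i + 2 * o ≤ hi i) → 2 ∉ J → Nonempty (Lay lo hi o J)

variable {Ω Λ : Set E3}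

/-- the preimage -/
def pre (g : ConHomeo Ω Λ) (Y : Set E3) : Set E3 := {x ∈ Ω | g.toFun x ∈ Y}

/-- a common subdivision -/
structure Tri (S : Src Ω) (g : ConHomeo Ω Λ) (P : RCx E3) where
  /-- the restriction of `g` -/
  gC : ConHomeo (pre g P.carrier) P.carrier
  gC_eq : gC.toFun = g.toFun
  gC_inv : gC.invFun = g.invFun
  /-- the complex -/
  T : RCx E3
  cvx : T.Cvx
  fin : Finite T.ι
  carrier : T.carrier = pre g P.carrier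
  subQ : ∀ c, T.Sub (S.Q.cell c ∩ pre g P.carrier)
  subP : ∀ c, T.Sub (pre g (P.cell c))
  aff : ∀ i, ∃ A : E3 →ᵃ[ℝ] E3, EqOn g.toFun A (T.cell i)

def TRIC : Prop := ∀ {Ω Λ : Set E3} (S : Src Ω) (g : ConHomeo Ω Λ) (P : RCx E3) [Finite P.ι],
  IsOpen Ω → P.carrier ⊆ Λ → Nonempty (Tri S g P)

/-- all cofaces are mapped into `inn` -/
def Whole (S : Src Ω) (g : E3 → E3) (inn : Set E3) (φ : S.Q.ι) : Prop :=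
  ∀ c, S.Q.cell φ ⊆ S.Q.cell c → ∀ x ∈ S.Q.cell c, g x ∈ inn

/-- the cell `j` of `K` is the preimage of the cell `c` of `P` -/
def Pull (K P : RCx E3) (g : ConHomeo Ω Λ) (j : K.ι) (c : P.ι) : Prop :=
  K.cell j = pre g (P.cell c) ∧ K.bd j = pre g (P.bd c) ∧ K.dim j = P.dim c

variable {lo hi : E3} {o : ℝ} {J : Finset (Fin 3)}

/-- the amalgamated complex -/
structure Am (S : Src Ω) (g : ConHomeo Ω Λ) (L : Lay lo hi o J) (τ : Tri S g L.P) where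
  /-- the complex -/
  K : RCx E3
  fin : Finite K.ι
  carrier : K.carrier = pre g (Icc lo hi)
  whole : ∀ φ, Whole S g.toFun L.inn φ → ∃ j, Same K S.Q j φ
  lay : ∀ c ∈ L.W, ∃ j, Pull K L.P g j c
  cases : ∀ j, (∃ φ, Whole S g.toFun L.inn φ ∧ Same K S.Q j φ) ∨ (∃ c ∈ L.W, Pull K L.P g j c) ∨
    ((∃ i, Same K τ.T j i) ∧
      (∀ φ, Whole S g.toFun L.inn φ → Disjoint (K.cell j) (S.Q.ocell φ)) ∧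
      ∀ c ∈ L.W, Disjoint (K.cell j) (pre g (L.P.ocell c)))

def AMK : Prop := ∀ {Ω Λ : Set E3} (S : Src Ω) (g : ConHomeo Ω Λ) {lo hi : E3} {o : ℝ}
  {J : Finset (Fin 3)} (L : Lay lo hi o J) (τ : Tri S g L.P), Nonempty (Am S g L τ)

/-- away from the top and the bottom -/
def Okay (g : E3 → E3) (X : Set E3) (lo hi : E3) (o : ℝ) (J : Finset (Fin 3)) : Prop :=
  Away g X (Rim lo hi J) (2 * o) ∨ Deep g X lo hi (2 * o)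

/-- the complex for the engine -/
structure Site (S : Src Ω) (g : ConHomeo Ω Λ) (lo hi : E3) (o : ℝ) (J : Finset (Fin 3)) where
  lt : ∀ k, lo k < hi k
  pos : 0 < o
  notJ : 2 ∉ J
  /-- the restriction of `g` -/
  gC : ConHomeo (pre g (Icc lo hi)) (Icc lo hi)
  gC_eq : gC.toFun = g.toFun
  /-- the complex -/
  K : RCx E3
  fin : Finite K.ι
  carrier : K.carrier = pre g (Icc lo hi)
  ball : ConBall 3 (pre g (Icc lo hi)) (pre g (frontier (Icc lo hi)))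
  conn : IsPreconnected (pre g (frontier (Icc lo hi)))
  sub : K.Sub (pre g (frontier (Icc lo hi)))
  thin : ∀ c, K.dim c = 3 → ¬ K.cell c ⊆ pre g (frontier (Icc lo hi))
  dim_le : ∀ c, K.dim c ≤ 3
  top : ∀ x ∈ K.carrier, ∃ c, K.dim c = 3 ∧ x ∈ K.cell c
  /-- chart constant -/
  M₁ : K.ι → ℝ≥0
  /-- chart constant of the inverse -/
  M₂ : K.ι → ℝ≥0
  chart : ∀ c, 2 ≤ K.dim c → Chart (K.dim c) (K.cell c) (K.bd c) (M₁ c) (M₂ c)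
  same : ∀ j φ, Same K S.Q j φ → M₁ j = S.M φ / S.r φ ∧ M₂ j = S.M φ * S.r φ
  osc : ∀ j, ∀ x ∈ K.cell j, ∀ y ∈ K.cell j, dist (g.toFun x) (g.toFun y) ≤ o
  /-- the soft cells -/
  fro : Set K.ι
  face : ∀ c ∈ fro, ∀ j, K.cell j ⊆ K.cell c → j ∈ fro
  froU : ∀ c, K.cell c ⊆ pre g (frontier (Icc lo hi)) → c ∈ fro
  fro_dim : ∀ c ∈ fro, K.dim c ≤ 2
  lin : ∀ c ∈ fro, Nt.Lin (K.cell c) (K.bd c) fun (k : Fin 3) x => g.toFun x k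
  /-- the exceptional values -/
  Z : Set ℝ
  Zfin : Z.Finite
  vert : ∀ x ∈ K.skel 0, ∀ k, g.toFun x k ∈ Z
  one : J = {0, 1} → ∀ c ∈ fro, ∀ x ∈ K.cell c,
    (x ∈ K.bd c ∨ K.dim c ≤ 1 ∨ ¬ K.cell c ⊆ pre g (frontier (Icc lo hi))) →
    (∃ k ∈ J, g.toFun x k ∈ Z) ∨ Side lo hi J (2 * o) (g.toFun x)
  seg : ∀ e, K.dim e = 1 → e ∉ fro → Convex ℝ (K.cell e)
  trk : ∀ φ, S.Q.dim φ ≤ 2 → Okay g.toFun (S.Q.cell φ) lo hi o J →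
    (∃ j, j ∉ fro ∧ Same K S.Q j φ) ∨ ∀ j, (K.ocell j ∩ S.Q.cell φ).Nonempty →
      j ∈ fro ∧ K.cell j ⊆ S.Q.cell φ ∧ CvA K g.toFun j
  deep : ∀ φ, Deep g.toFun (S.Q.cell φ) lo hi (2 * o) → ∃ j, j ∉ fro ∧ Same K S.Q j φ

def SITE : Prop := ∀ {Ω Λ : Set E3} (S : Src Ω) (g : ConHomeo Ω Λ) {lo hi : E3} {o : ℝ}
  {J : Finset (Fin 3)} (L : Lay lo hi o J) (τ : Tri S g L.P), Am S g L τ → (∀ k, lo k < hi k) →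
  0 < o → 2 ∉ J → S.Osc g.toFun (Icc lo hi) o → Nonempty (Site S g lo hi o J)

variable {S : Src Ω} {g : ConHomeo Ω Λ}

/-! ### the engine -/

/-- the input structure of the engine -/
def Site.base (Y : Site S g lo hi o J) (A : Fin 3 → Finset ℝ) (L L₀ : Y.K.ι → ℝ≥0)
    (hL : ∀ c j, Y.K.cell j ⊆ Y.K.bd c → Y.K.dim j + 1 = Y.K.dim c → L j ≤ L₀ c) : Wb.Base where
  Ω := pre g (Icc lo hi)
  bd := pre g (frontier (Icc lo hi))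
  ball := Y.ball
  K := Y.K
  fin := Y.fin
  U := pre g (frontier (Icc lo hi))
  U_cpt := Y.ball.isCompact_bdry
  U_loc := Y.ball.locCone_bdry
  U_pre := Y.conn
  bd_sub := Subset.rfl
  cover := by rw [Y.carrier]; exact union_eq_left.2 Y.ball.1
  sub := by rw [inter_eq_right.2 Y.sub.subset_carrier]; exact Y.sub
  thin := Y.thin
  dim_le := Y.dim_le
  top := Y.top
  ι := A 0 ⊕ A 1
  finι := inferInstance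
  fam := Sum.isLeft
  M₁ := Y.M₁
  M₂ := Y.M₂
  chart := Y.chart
  L := L
  L₀ := L₀
  L_le := hL

/-- the levels of the walls -/
def lv (A : Fin 3 → Finset ℝ) : A 0 ⊕ A 1 → ℝ := Sum.elim Subtype.val Subtype.val

/-- the union of the walls -/
def pts (g : ConHomeo Ω Λ) (lo hi : E3) (A : Fin 3 → Finset ℝ) : Set E3 :=
  {x ∈ pre g (Icc lo hi) | g.toFun x 0 ∈ A 0 ∨ g.toFun x 1 ∈ A 1}

/-- the number of points of the walls on the wires of a cell -/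
noncomputable def Site.cnt (Y : Site S g lo hi o J) (A : Fin 3 → Finset ℝ) (j : Y.K.ι) : ℕ :=
  (pts g lo hi A ∩ Y.K.skel 1 ∩ Y.K.cell j).ncard

/-- admissible levels -/
structure Adm (Y : Site S g lo hi o J) (A : Fin 3 → Finset ℝ) (d : ℝ) : Prop where
  pos : 0 < d
  le : d ≤ o
  nil : ∀ k, k ∉ J → A k = ∅
  far : ∀ k, ∀ t ∈ A k, ∀ z ∈ Y.Z, d / 5 < |t - z|
  ins : ∀ k, ∀ t ∈ A k, lo k + 3 * o < t ∧ t < hi k - 3 * o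
  sep : ∀ k, ∀ t ∈ A k, ∀ t' ∈ A k, t ≠ t' → d ≤ 2 * |t - t'|
  gen : ∀ k, ∀ t ∈ A k, Gen1 Y.K {x ∈ pre g (Icc lo hi) | g.toFun x k = t}
  gen₂ : ∀ t ∈ A 0, ∀ t' ∈ A 1,
    Disjoint {x ∈ pre g (Icc lo hi) | g.toFun x 0 = t ∧ g.toFun x 1 = t'} (Y.K.skel 1) ∧
    ({x ∈ pre g (Icc lo hi) | g.toFun x 0 = t ∧ g.toFun x 1 = t'} ∩ Y.K.skel 2).Finite

/-- the natural bands -/
def RAW : Prop := ∀ {Ω Λ : Set E3} {S : Src Ω} {g : ConHomeo Ω Λ} {lo hi : E3} {o : ℝ}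
  {J : Finset (Fin 3)} (Y : Site S g lo hi o J) (A : Fin 3 → Finset ℝ) (d : ℝ)
  (L L₀ : Y.K.ι → ℝ≥0)
  (hL : ∀ c j, Y.K.cell j ⊆ Y.K.bd c → Y.K.dim j + 1 = Y.K.dim c → L j ≤ L₀ c) (c₀ lam : ℝ≥0),
  Adm Y A d → (lam : ℝ) = d / 20 →
  (∀ c ∈ Y.fro, LipschitzOnWith (lam * L c) g.toFun (Y.K.cell c)) →
  (∀ c, 2 ≤ Y.K.dim c → c ∉ Y.fro → c₀ * Y.M₁ c * (Y.M₂ c * L₀ c + Y.cnt A c) ≤ L c) →
  (⋃ i, Wb.lvl (X := Y.base A L L₀ hL) Y.gC (lv A) i) = pts g lo hi A ∧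
    ∃ w, Wf.RawF (Y.base A L L₀ hL) c₀ Y.gC (lv A) lam Y.fro w

/-- spreading the points and running the engine -/
def RUN (c₀ c : ℝ≥0) : Prop := ∀ (X : Wb.Base) {lo hi : E3} (g : ConHomeo X.Ω (Icc lo hi))
  (t : X.ι → ℝ) (lam : ℝ≥0) (fro : Set X.K.ι) (w : X.ι → Band E3) (Λ : X.K.ι → ℝ≥0)
  (ζ₁ ζ₂ : ℝ) (𝓢 : Set X.K.ι) (χ : ∀ φ ∈ 𝓢, ConHomeo (X.K.cell φ) Fi.Q),
  Wf.RawF X c₀ g t lam fro w → 0 < ζ₁ → ζ₁ ≤ 1 → 0 < ζ₂ → ζ₂ ≤ 1 / 100 →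
  Fi.SegS X fro (⋃ i, Wb.lvl g t i) Λ ζ₁ →
  (∀ φ (h : φ ∈ 𝓢), Fi.Sqr X fro ((⋃ i, Wb.lvl g t i) ∩ X.K.skel 1) Λ c ζ₂ φ (χ φ h)) →
  ∃ (G : ConHomeo X.Ω (Icc lo hi)) (u : X.ι → E3 → ℝ), EqOn G.toFun g.toFun X.bd ∧
    (∀ i, ∀ x ∈ X.Ω, u i x = cl ((G.toFun x (X.co i) - t i) / lam)) ∧
    (∀ c (s : Finset X.ι), (∀ i ∈ s, ∀ j ∈ s, X.fam i = X.fam j) →
      PwLip (4 * X.L c) (fun x => ∑ i ∈ s, u i x) (X.K.cell c)) ∧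
    (∀ o : ℝ, 0 ≤ o →
      (∀ c, ∀ x ∈ X.K.cell c, ∀ y ∈ X.K.cell c, dist (g.toFun x) (g.toFun y) ≤ o) →
      ∀ x ∈ X.Ω, ∃ y ∈ Icc lo hi, dist y (g.toFun x) ≤ o ∧ ∀ (i : X.ι) (κ : ℝ),
        (∀ j, X.fam j = X.fam i → 2 * o + lam < |t j - κ|) →
        (t i < κ → κ ≤ y (X.co i) → t i + lam ≤ G.toFun x (X.co i)) ∧
        (κ < t i → y (X.co i) ≤ κ → G.toFun x (X.co i) ≤ t i - lam)) ∧
    (∀ e, X.K.dim e = 1 → e ∉ fro →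
      (∀ (s : Finset X.ι) (ε : X.ι → ℝ), (∀ i, ε i = 1 ∨ ε i = -1) →
        PwLip (Λ e) (fun x => ∑ i ∈ s, ε i * u i x) (X.K.cell e)) ∧
      ∀ x y, X.K.cell e = segment ℝ x y → X.K.bd e = {x, y} → ∀ s : Finset X.ι,
        ∑ i ∈ s, |u i y - u i x| ≤
          2 * (((⋃ i, Wb.lvl g t i) ∩ X.K.skel 1 ∩ X.K.cell e).ncard : ℕ)) ∧
    ∀ φ (h : φ ∈ 𝓢), ∀ [Fintype X.ι],
      Fi.Shp (Fi.stair (Fi.co₂ X) (fun _ => 1) fun i v => u i ((χ φ h).invFun v)) (Λ φ) ζ₂ c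

/-- the affine chart of a marked face -/
structure Sqf (Y : Site S g lo hi o J) (θ : ℝ) (φ : S.Q.ι) (ψ : E2 →ᵃ[ℝ] E3) (a : ℝ)
    (j : Y.K.ι) (χ : ConHomeo (Y.K.cell j) Fi.Q) : Prop where
  same : Same Y.K S.Q j φ
  inv : ∀ v ∈ Fi.Q, χ.invFun v = ψ v
  free : ∀ e, Y.K.cell e ⊆ Y.K.cell j → e ∉ Y.fro
  bd : χ.toFun '' Y.K.bd j = Fi.Sq
  lip : LipschitzOnWith (Y.M₁ j) χ.toFun (Y.K.cell j)
  lip' : LipschitzOnWith (Y.M₂ j) χ.invFun Fi.Q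
  corner : ∀ x ∈ Y.K.cell j, |χ.toFun x 0| = 1 → |χ.toFun x 1| = 1 → x ∈ Y.K.skel 0
  wire : ∀ e, Y.K.dim e = 1 → Y.K.cell e ⊆ Y.K.cell j → ∃ x y e', Same Y.K S.Q e e' ∧
    Y.K.cell e = segment ℝ x y ∧ lat g.toFun x y ≤ ENNReal.ofReal ((1 + θ) * (2 * a)) ∧
    LipschitzOnWith (nndist x y / 2) χ.invFun (χ.toFun '' Y.K.cell e)

def SQR : Prop := ∀ {Ω Λ : Set E3} {S : Src Ω} {g : ConHomeo Ω Λ} {lo hi : E3} {o : ℝ}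
  {J : Finset (Fin 3)} (Y : Site S g lo hi o J) {θ a : ℝ} {φ : S.Q.ι} {ψ : E2 →ᵃ[ℝ] E3},
  Marked S g.toFun θ φ ψ a → Deep g.toFun (S.Q.cell φ) lo hi (2 * o) →
  ∃ (j : Y.K.ι) (χ : ConHomeo (Y.K.cell j) Fi.Q), Sqf Y θ φ ψ a j χ

/-- coordinatewise composition -/
def cmp (ξ : Fin 3 → ℝ → ℝ) (G : E3 → E3) (x : E3) : E3 := fun k => ξ k (G x k)

/-- the output of the engine, `H` is the staircase of `G` -/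
structure Eng (Y : Site S g lo hi o J) (p c θ : ℝ) (c' : ℝ≥0) (A : Fin 3 → Finset ℝ) (d : ℝ)
    (𝓢 : Set S.Q.ι) (ψ : S.Q.ι → (E2 →ᵃ[ℝ] E3)) (a : S.Q.ι → ℝ) (H : E3 → E3) : Prop where
  flat : ∀ x y, H x 2 = H y 2
  soft : ∀ j ∈ Y.fro, Convex ℝ (Y.K.cell j) →
    lipc H (Y.K.cell j) ≤ 40 * lipc g.toFun (Y.K.cell j)
  wire : ∀ j x y, Y.K.dim j = 1 → j ∉ Y.fro → Y.K.cell j = segment ℝ x y →
    (∀ u ∈ Y.K.cell j, ∀ w ∈ Y.K.cell j, (|H u 0 - H w 0| + |H u 1 - H w 1|) * dist x y ≤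
      d * Y.cnt A j * (1 + θ / 4) * dist u w) ∧
    |H y 0 - H x 0| + |H y 1 - H x 1| ≤ d * Y.cnt A j
  face : ∀ j (B : ℝ≥0), Y.K.dim j = 2 → j ∉ Y.fro → Convex ℝ (Y.K.cell j) →
    (∀ e, Y.K.dim e = 1 → Y.K.cell e ⊆ Y.K.cell j →
      (e ∈ Y.fro → 20 * lipc g.toFun (Y.K.cell e) ≤ B) ∧
      (e ∉ Y.fro → ∀ x y, Y.K.cell e = segment ℝ x y →
        32 * d * Y.cnt A e ≤ θ * B * dist x y)) →
    lipc H (Y.K.cell j) ≤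
      ENNReal.ofReal (c' / θ * Y.M₁ j * (Y.M₂ j * B + d * Y.cnt A j + d))
  sharp : ∀ φ ∈ 𝓢, Deep g.toFun (S.Q.cell φ) lo hi (2 * o) →
    SharpF p H (ψ φ) (a φ) (2 * θ) c 0

/-- the step height is small for the marked faces -/
def Fit (Y : Site S g lo hi o J) (θ : ℝ) (A : Fin 3 → Finset ℝ) (d : ℝ) (𝓢 : Set S.Q.ι)
    (a : S.Q.ι → ℝ) : Prop := ∀ φ ∈ 𝓢, Deep g.toFun (S.Q.cell φ) lo hi (2 * o) →
  d ≤ θ * a φ ∧ ∀ e, Y.K.dim e = 1 → Y.K.cell e ⊆ S.Q.cell φ →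
    d * Y.cnt A e * (1 + θ / 4) ≤ 2 * a φ * (1 + 3 * θ)

def ENG (p : ℝ) : Prop := ∃ (c : ℝ) (c' : ℝ≥0), 1 ≤ c ∧ ∀ {Ω Λ : Set E3} {S : Src Ω}
  {g : ConHomeo Ω Λ} {lo hi : E3} {o : ℝ} {J : Finset (Fin 3)} (Y : Site S g lo hi o J) {θ : ℝ}
  (A : Fin 3 → Finset ℝ) (d : ℝ) (b : E3) (𝓢 : Set S.Q.ι) (ψ : S.Q.ι → (E2 →ᵃ[ℝ] E3))
  (a : S.Q.ι → ℝ), 0 < θ → θ ≤ 1 / 1000 → Adm Y A d →
  (∀ φ ∈ 𝓢, Marked S g.toFun θ φ (ψ φ) (a φ)) → Fit Y θ A d 𝓢 a →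
  ∃ G : ConHomeo (pre g (Icc lo hi)) (Icc lo hi),
    EqOn G.toFun g.toFun (pre g (frontier (Icc lo hi))) ∧
    (∀ x ∈ pre g (Icc lo hi), ∃ y ∈ Icc lo hi, dist y (g.toFun x) ≤ o ∧
      ∀ k, Drf (A k) o d (y k) (G.toFun x k)) ∧
    Eng Y p c θ c' A d 𝓢 ψ a (cmp (fun k y => b k + stp (A k) d y) G.toFun)

/-! ### the choice of the levels, estimates -/

/-- few points on the wires -/
def Few (Y : Site S g lo hi o J) (A : Fin 3 → Finset ℝ) (d ϑ s : ℝ) : Prop :=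
  ∀ e x y, S.Q.cell e = segment ℝ x y → S.Q.cell e ⊆ Y.K.skel 1 →
    (pts g lo hi A ∩ S.Q.cell e).Finite ∧
    ENNReal.ofReal d * ((pts g lo hi A ∩ S.Q.cell e).ncard : ℕ) ≤
      ENNReal.ofReal (1 + ϑ) * lat g.toFun x y + ENNReal.ofReal s

def PICK : Prop := ∀ ϑ : ℝ, 0 < ϑ → ϑ ≤ 1 → ∃ K : ℝ, 1 ≤ K ∧ ∀ {Ω Λ : Set E3} {S : Src Ω}
  {g : ConHomeo Ω Λ} {lo hi : E3} {o : ℝ} {J : Finset (Fin 3)} (Y : Site S g lo hi o J)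
  (s d₁ : ℝ), 0 < s → 0 < d₁ → ∃ (A : Fin 3 → Finset ℝ) (d : ℝ), d ≤ d₁ ∧ Adm Y A d ∧
    (∀ k ∈ J, Levs (lo k) (hi k) o d ϑ K Y.Z (A k)) ∧ Few Y A d ϑ s

/-- the estimates for the degenerate limit `H` -/
structure Est (Y : Site S g lo hi o J) (p c θ ϑ : ℝ) (CM : ℝ≥0 → ℝ≥0) (s : ℝ≥0)
    (𝓢 : Set S.Q.ι) (ψ : S.Q.ι → (E2 →ᵃ[ℝ] E3)) (a : S.Q.ι → ℝ) (H : E3 → E3) : Prop where
  soft : ∀ j ∈ Y.fro, Convex ℝ (Y.K.cell j) →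
    lipc H (Y.K.cell j) ≤ 40 * lipc g.toFun (Y.K.cell j)
  wire : ∀ e j, S.Q.dim e = 1 → j ∉ Y.fro → Same Y.K S.Q j e →
    lipc H (S.Q.cell e) ≤ 4 * lipc g.toFun (S.Q.cell e) + s ∧
    ∀ x y, S.Q.cell e = segment ℝ x y → SharpE g.toFun H x y θ s ∧ Rise g.toFun H x y ϑ s
  face : ∀ φ j, S.Q.dim φ = 2 → Okay g.toFun (S.Q.cell φ) lo hi o J → j ∉ Y.fro →
    Same Y.K S.Q j φ → lipc H (S.Q.cell φ) ≤ CM (S.M φ) * S.A g.toFun φ + s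
  sharp : ∀ φ ∈ 𝓢, Deep g.toFun (S.Q.cell φ) lo hi (2 * o) →
    SharpF p H (ψ φ) (a φ) (2 * θ) c 0

def EST : Prop := ∀ (θ : ℝ) (c' : ℝ≥0), 0 < θ → θ ≤ 1 / 1000 → ∃ CM : ℝ≥0 → ℝ≥0,
  ∀ {Ω Λ : Set E3} {S : Src Ω} {g : ConHomeo Ω Λ} {lo hi : E3} {o : ℝ} {J : Finset (Fin 3)}
  (Y : Site S g lo hi o J) {ϑ : ℝ} (s : ℝ≥0) (𝓢 : Set S.Q.ι) (ψ : S.Q.ι → (E2 →ᵃ[ℝ] E3))
  (a : S.Q.ι → ℝ), 0 < ϑ → ϑ ≤ θ → 0 < s → (∀ φ ∈ 𝓢, Marked S g.toFun θ φ (ψ φ) (a φ)) →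
  ∃ s₁ : ℝ, 0 < s₁ ∧ ∀ (A : Fin 3 → Finset ℝ) (d : ℝ), d ≤ s₁ → Adm Y A d →
    Few Y A d (ϑ / 4) s₁ → Fit Y θ A d 𝓢 a ∧
      ∀ (p c : ℝ) (H : E3 → E3), Eng Y p c θ c' A d 𝓢 ψ a H → Est Y p c θ ϑ CM s 𝓢 ψ a H

/-- the profiles -/
structure Prof (g : ConHomeo Ω Λ) (lo hi : E3) (J : Finset (Fin 3)) (ε : ℝ)
    (G : ConHomeo (pre g (Icc lo hi)) (Icc lo hi)) (ξ : Fin 3 → ℝ → ℝ) : Prop where
  bd : EqOn G.toFun g.toFun (pre g (frontier (Icc lo hi)))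
  mono : ∀ k, Monotone (ξ k)
  pl : ∀ k, PLOn (ξ k) univ
  lip : ∀ k, LipschitzWith 10 (ξ k)
  near : ∀ k ∈ J, ∀ y ∈ Icc (lo k) (hi k), |ξ k y - y| ≤ ε
  const : ∀ k, k ∉ J → ∀ y, ξ k y = (lo k + hi k) / 2
  drift : ∀ x ∈ pre g (Icc lo hi), ∀ k ∈ J, |ξ k (G.toFun x k) - g.toFun x k| ≤ ε

/-- the first half -/
def ST1 (p : ℝ) : Prop := ∃ c : ℝ, 1 ≤ c ∧ ∀ θ : ℝ, 0 < θ → θ ≤ 1 / 1000 →
  ∃ CM : ℝ≥0 → ℝ≥0, ∀ ϑ : ℝ, 0 < ϑ → ϑ ≤ θ → ∃ K : ℝ≥0, 1 ≤ K ∧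
  ∀ {Ω Λ : Set E3} {S : Src Ω} {g : ConHomeo Ω Λ} {lo hi : E3} {o : ℝ} {J : Finset (Fin 3)}
  (Y : Site S g lo hi o J) (s : ℝ≥0) (𝓢 : Set S.Q.ι) (ψ : S.Q.ι → (E2 →ᵃ[ℝ] E3))
  (a : S.Q.ι → ℝ), 0 < s → (∀ φ ∈ 𝓢, Marked S g.toFun θ φ (ψ φ) (a φ)) →
  ∃ (G : ConHomeo (pre g (Icc lo hi)) (Icc lo hi)) (ξ : Fin 3 → ℝ → ℝ),
    Prof g lo hi J (K * o) G ξ ∧ Est Y p c θ ϑ CM s 𝓢 ψ a (cmp ξ G.toFun)

/-! ### the second half -/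

/-- `h` is a small perturbation of `H` in the preimage of the box and a Lipschitz image of `g`
outside -/
structure Pert (g : ConHomeo Ω Λ) (lo hi : E3) (C s : ℝ≥0) (H h D : E3 → E3) : Prop where
  eq : ∀ x ∈ pre g (Icc lo hi), h x = H x + D x
  lip : LipschitzOnWith s D (pre g (Icc lo hi))
  small : ∀ x ∈ pre g (Icc lo hi), ‖D x‖ ≤ s
  outer : ∀ x ∈ Ω, ∀ y ∈ Ω, g.toFun x ∉ interior (Icc lo hi) → g.toFun y ∉ interior (Icc lo hi) →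
    edist (h x) (h y) ≤ C * edist (g.toFun x) (g.toFun y)

/-- the new homeomorphism -/
def HAT : Prop := ∃ C : ℝ≥0, 1 ≤ C ∧ ∀ {Ω Λ : Set E3} (g : ConHomeo Ω Λ) {lo hi : E3} {μ ε : ℝ}
  {J : Finset (Fin 3)} (G : ConHomeo (pre g (Icc lo hi)) (Icc lo hi)) (ξ : Fin 3 → ℝ → ℝ)
  (s : ℝ≥0), IsOpen Ω → IsOpen Λ → 0 < ε → 5 * ε ≤ μ → (∀ i, lo i < hi i) →
  (∀ i, i ∉ J → hi i - lo i ≤ 16 * μ) → mbox lo hi μ ⊆ Λ → 0 < s → Prof g lo hi J ε G ξ →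
  ∃ (h : ConHomeo Ω Λ) (Ψ D : E3 → E3), Coll lo hi μ J C Ψ ∧
    (∀ x ∈ Ω, g.toFun x ∉ interior (mbox lo hi μ) → h.toFun x = g.toFun x) ∧
    (∀ x ∈ Ω, dist (h.toFun x) (Ψ (g.toFun x)) ≤ C * ε) ∧
    Pert g lo hi C s (cmp ξ G.toFun) h.toFun D

/-- wires and faces -/
def FINB (p : ℝ) : Prop := ∀ (C₁ : ℝ≥0) (CM₁ : ℝ≥0 → ℝ≥0), ∃ (C : ℝ≥0) (CM : ℝ≥0 → ℝ≥0),
  C₁ ≤ C ∧ ∀ {Ω Λ : Set E3} {S : Src Ω} {g : ConHomeo Ω Λ} {lo hi : E3} {o : ℝ}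
  {J : Finset (Fin 3)} (Y : Site S g lo hi o J) (η : ℝ≥0∞), 0 < η → ∃ s₀ : ℝ≥0, 0 < s₀ ∧
  ∀ s, s ≤ s₀ → ∀ {c θ ϑ : ℝ} {𝓢 : Set S.Q.ι} {ψ : S.Q.ι → (E2 →ᵃ[ℝ] E3)} {a : S.Q.ι → ℝ}
    {H h D : E3 → E3}, Est Y p c θ ϑ CM₁ s 𝓢 ψ a H → Pert g lo hi C₁ s H h D →
    (∀ e, S.Q.dim e = 1 → Away g.toFun (S.Q.cell e) (Rim lo hi J) (2 * o) →
      lipc h (S.Q.cell e) ≤ C * lipc g.toFun (S.Q.cell e) + η) ∧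
    (∀ φ, S.Q.dim φ = 2 → Away g.toFun (S.Q.cell φ) (Rim lo hi J) (2 * o) →
      S.E p h φ ≤ C * S.E p g.toFun φ + CM (S.M φ) * S.W p g.toFun φ + η) ∧
    ∀ φ, S.Q.dim φ = 2 → Deep g.toFun (S.Q.cell φ) lo hi (2 * o) →
      S.E p h φ ≤ CM (S.M φ) * S.W p g.toFun φ + η

/-- the sharp clauses -/
def FINC (p : ℝ) : Prop := ∀ {Ω Λ : Set E3} {S : Src Ω} {g : ConHomeo Ω Λ} {lo hi : E3} {o : ℝ}
  {J : Finset (Fin 3)} (Y : Site S g lo hi o J) (η : ℝ≥0∞) {c θ : ℝ} (𝓢 : Set S.Q.ι)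
  (ψ : S.Q.ι → (E2 →ᵃ[ℝ] E3)) (a : S.Q.ι → ℝ), 0 < η → 0 < θ → 0 ≤ c →
  (∀ φ ∈ 𝓢, Marked S g.toFun θ φ (ψ φ) (a φ)) → ∃ s₀ : ℝ≥0, 0 < s₀ ∧
  ∀ s, s ≤ s₀ → ∀ {ϑ : ℝ} {C₁ : ℝ≥0} {CM₁ : ℝ≥0 → ℝ≥0} {H h D : E3 → E3},
    Est Y p c θ ϑ CM₁ s 𝓢 ψ a H → Pert g lo hi C₁ s H h D →
    (∀ e x y, S.Q.dim e = 1 → S.Q.cell e = segment ℝ x y →
      Deep g.toFun (S.Q.cell e) lo hi (2 * o) →
        SharpE g.toFun h x y θ η ∧ Rise g.toFun h x y ϑ η) ∧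
    ∀ φ ∈ 𝓢, Deep g.toFun (S.Q.cell φ) lo hi (2 * o) → SharpF p h (ψ φ) (a φ) θ (4 * c) η

end P073.St
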